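import Vale.Agent.P141.PL.H317.CostDefs
import Vale.Agent.P141.PL.H588.En

/-!
# P141, line W, end lemma (E3): the penalised minimiser on a square

`A` a kernel, `q` the square `(k; n, m)`.  The minimiser `U` of
`∑_q (A - V)² + c 4^{-k} T4 (V)`, `T4 = ∑_{x,x'} (∑_y V (x,y) V (x',y))²`, satisfies exactly
`A - U = 2 c 4^{-k} U Uᵀ U`.
-/

namespace Vale.Agent.P141.H443

open Finset Vale.Agent.P141.PL Vale.Agent.P141.PL.H317

noncomputable section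

/-- mixed Gram matrix of the rows -/
def Gr (J : Finset ℤ) (V W : ℤ → ℤ → ℝ) (x x' : ℤ) : ℝ := ∑ y ∈ J, V x y * W x' y

/-- mixed Gram matrix of the columns -/
def Gc (I : Finset ℤ) (V W : ℤ → ℤ → ℝ) (y y' : ℤ) : ℝ := ∑ x ∈ I, V x y * W x y'

/-- the fourth power of the Schatten norm (sums) -/
def T4 (I J : Finset ℤ) (V : ℤ → ℤ → ℝ) : ℝ := ∑ x ∈ I, ∑ x' ∈ I, Gr J V V x x' ^ 2

theorem T4_nonneg (I J : Finset ℤ) (V : ℤ → ℤ → ℝ) : 0 ≤ T4 I J V :=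
  sum_nonneg fun _ _ => sum_nonneg fun _ _ => sq_nonneg _

/-- the energy on a square -/
def E2 (I J : Finset ℤ) (V : ℤ → ℤ → ℝ) : ℝ := ∑ x ∈ I, ∑ y ∈ J, V x y ^ 2

theorem E2_nonneg (I J : Finset ℤ) (V : ℤ → ℤ → ℝ) : 0 ≤ E2 I J V :=
  sum_nonneg fun _ _ => sum_nonneg fun _ _ => sq_nonneg _

theorem sum_four {I J : Finset ℤ} (f : ℤ → ℤ → ℤ → ℤ → ℝ) :
    ∑ x ∈ I, ∑ x' ∈ I, ∑ y ∈ J, ∑ y' ∈ J, f x x' y y' =
      ∑ y ∈ J, ∑ y' ∈ J, ∑ x ∈ I, ∑ x' ∈ I, f x x' y y' := by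
  calc ∑ x ∈ I, ∑ x' ∈ I, ∑ y ∈ J, ∑ y' ∈ J, f x x' y y'
      = ∑ x ∈ I, ∑ y ∈ J, ∑ x' ∈ I, ∑ y' ∈ J, f x x' y y' :=
        sum_congr rfl fun x _ => sum_comm
    _ = ∑ y ∈ J, ∑ x ∈ I, ∑ x' ∈ I, ∑ y' ∈ J, f x x' y y' := sum_comm
    _ = ∑ y ∈ J, ∑ x ∈ I, ∑ y' ∈ J, ∑ x' ∈ I, f x x' y y' :=
        sum_congr rfl fun y _ => sum_congr rfl fun x _ => sum_comm
    _ = ∑ y ∈ J, ∑ y' ∈ J, ∑ x ∈ I, ∑ x' ∈ I, f x x' y y' :=
        sum_congr rfl fun y _ => sum_comm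

/-- **Exchange of rows and columns.** -/
theorem sum_Gr_mul (I J : Finset ℤ) (V W V' W' : ℤ → ℤ → ℝ) :
    ∑ x ∈ I, ∑ x' ∈ I, Gr J V W x x' * Gr J V' W' x x' =
      ∑ y ∈ J, ∑ y' ∈ J, Gc I V V' y y' * Gc I W W' y y' := by
  have h1 : ∀ x x', Gr J V W x x' * Gr J V' W' x x' =
      ∑ y ∈ J, ∑ y' ∈ J, V x y * W x' y * (V' x y' * W' x' y') := by
    intro x x'
    unfold Gr
    rw [sum_mul_sum]
  have h2 : ∀ y y', Gc I V V' y y' * Gc I W W' y y' =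
      ∑ x ∈ I, ∑ x' ∈ I, V x y * W x' y * (V' x y' * W' x' y') := by
    intro y y'
    unfold Gc
    rw [sum_mul_sum]
    exact sum_congr rfl fun x _ => sum_congr rfl fun x' _ => by ring
  simp only [h1, h2]
  exact sum_four _

theorem T4_cols (I J : Finset ℤ) (V : ℤ → ℤ → ℝ) :
    T4 I J V = ∑ y ∈ J, ∑ y' ∈ J, Gc I V V y y' ^ 2 := by
  unfold T4
  simp only [sq]
  exact sum_Gr_mul I J V V V V

/-! ### Superadditivity -/

theorem sq_add_le (a b : ℝ) : (a + b) ^ 2 ≤ 2 * (a ^ 2 + b ^ 2) := by nlinarith [sq_nonneg (a - b)]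

theorem T4_split_cols {I J J1 J2 : Finset ℤ}
    (hJ : ∀ f : ℤ → ℝ, ∑ y ∈ J, f y = ∑ y ∈ J1, f y + ∑ y ∈ J2, f y) (V : ℤ → ℤ → ℝ) :
    T4 I J V ≤ 2 * (T4 I J1 V + T4 I J2 V) := by
  unfold T4
  rw [← sum_add_distrib, mul_sum]
  refine sum_le_sum fun x _ => ?_
  rw [← sum_add_distrib, mul_sum]
  refine sum_le_sum fun x' _ => ?_
  have : Gr J V V x x' = Gr J1 V V x x' + Gr J2 V V x x' := hJ _
  rw [this]
  exact sq_add_le _ _

theorem T4_split_rows {I J I1 I2 : Finset ℤ}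
    (hI : ∀ f : ℤ → ℝ, ∑ y ∈ I, f y = ∑ y ∈ I1, f y + ∑ y ∈ I2, f y) (V : ℤ → ℤ → ℝ) :
    T4 I J V ≤ 2 * (T4 I1 J V + T4 I2 J V) := by
  rw [T4_cols I J, T4_cols I1 J, T4_cols I2 J, ← sum_add_distrib, mul_sum]
  refine sum_le_sum fun y _ => ?_
  rw [← sum_add_distrib, mul_sum]
  refine sum_le_sum fun y' _ => ?_
  have : Gc I V V y y' = Gc I1 V V y y' + Gc I2 V V y y' := hI _
  rw [this]
  exact sq_add_le _ _

/-- the sum over the four children -/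
def ch4 (n m : ℤ) (f : ℤ → ℤ → ℝ) : ℝ :=
  f (2 * n) (2 * m) + f (2 * n) (2 * m + 1) + f (2 * n + 1) (2 * m) + f (2 * n + 1) (2 * m + 1)

theorem iv_split (k : ℕ) (m : ℤ) (f : ℤ → ℝ) :
    ∑ x ∈ iv (k + 1) m, f x = ∑ x ∈ iv k (2 * m), f x + ∑ x ∈ iv k (2 * m + 1), f x := by
  have h2 : (0 : ℤ) < 2 ^ k := by positivity
  have e : iv (k + 1) m = iv k (2 * m) ∪ iv k (2 * m + 1) := by
    ext x
    unfold iv
    rw [mem_union, mem_Ico, mem_Ico, mem_Ico, pow_succ]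
    constructor
    · rintro ⟨h, h'⟩
      rcases lt_or_ge x (2 ^ k * (2 * m) + 2 ^ k) with h3 | h3
      · exact Or.inl ⟨by linarith, h3⟩
      · exact Or.inr ⟨by linarith, by linarith⟩
    · rintro (⟨h, h'⟩ | ⟨h, h'⟩)
      · exact ⟨by linarith, by linarith⟩
      · exact ⟨by linarith, by linarith⟩
  have hd : Disjoint (iv k (2 * m)) (iv k (2 * m + 1)) := by
    rw [disjoint_left]
    intro x hx hx'
    rw [mem_iv] at hx hx'
    omega
  rw [e, sum_union hd]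

theorem T4_children (k : ℕ) (n m : ℤ) (V : ℤ → ℤ → ℝ) :
    T4 (iv (k + 1) n) (iv (k + 1) m) V ≤
      4 * ch4 n m fun a b => T4 (iv k a) (iv k b) V := by
  have h1 := T4_split_cols (I := iv (k + 1) n) (iv_split k m) V
  have h2 := T4_split_rows (J := iv k (2 * m)) (iv_split k n) V
  have h3 := T4_split_rows (J := iv k (2 * m + 1)) (iv_split k n) V
  unfold ch4
  linarith

theorem E2_children (k : ℕ) (n m : ℤ) (V : ℤ → ℤ → ℝ) :
    E2 (iv (k + 1) n) (iv (k + 1) m) V = ch4 n m fun a b => E2 (iv k a) (iv k b) V := by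
  unfold E2 ch4
  rw [iv_split]
  have h : ∀ x, ∑ y ∈ iv (k + 1) m, V x y ^ 2 =
      ∑ y ∈ iv k (2 * m), V x y ^ 2 + ∑ y ∈ iv k (2 * m + 1), V x y ^ 2 :=
    fun x => iv_split k m _
  simp only [h, sum_add_distrib]
  ring

/-- **The penalised functional.** -/
def fE (A : ℤ → ℤ → ℝ) (c : ℝ) (k : ℕ) (n m : ℤ) (V : ℤ → ℤ → ℝ) : ℝ :=
  E2 (iv k n) (iv k m) (fun x y => A x y - V x y) + c * (4 ^ k)⁻¹ * T4 (iv k n) (iv k m) V

theorem fE_children {c : ℝ} (hc : 0 ≤ c) (A : ℤ → ℤ → ℝ) (k : ℕ) (n m : ℤ) (V : ℤ → ℤ → ℝ) :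
    fE A c (k + 1) n m V ≤ ch4 n m fun a b => fE A c k a b V := by
  have h1 := E2_children k n m fun x y => A x y - V x y
  have h2 := mul_le_mul_of_nonneg_left (T4_children k n m V)
    (by positivity : (0 : ℝ) ≤ c * (4 ^ (k + 1))⁻¹)
  have h3 : c * (4 ^ (k + 1))⁻¹ * (4 * ch4 n m fun a b => T4 (iv k a) (iv k b) V) =
      ch4 n m fun a b => c * (4 ^ k)⁻¹ * T4 (iv k a) (iv k b) V := by
    unfold ch4
    rw [pow_succ, mul_inv]
    ring
  unfold fE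
  rw [h3] at h2
  rw [h1]
  unfold ch4 at h2 ⊢
  linarith

theorem E2_congr {I J : Finset ℤ} {V W : ℤ → ℤ → ℝ} (h : ∀ x ∈ I, ∀ y ∈ J, V x y = W x y) :
    E2 I J V = E2 I J W :=
  sum_congr rfl fun x hx => sum_congr rfl fun y hy => by rw [h x hx y hy]

theorem Gr_congr {J : Finset ℤ} {V W V' W' : ℤ → ℤ → ℝ} {x x' : ℤ}
    (h : ∀ y ∈ J, V x y = V' x y) (h' : ∀ y ∈ J, W x' y = W' x' y) :
    Gr J V W x x' = Gr J V' W' x x' :=
  sum_congr rfl fun y hy => by rw [h y hy, h' y hy]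

theorem T4_congr {I J : Finset ℤ} {V W : ℤ → ℤ → ℝ} (h : ∀ x ∈ I, ∀ y ∈ J, V x y = W x y) :
    T4 I J V = T4 I J W :=
  sum_congr rfl fun x hx => sum_congr rfl fun x' hx' => by rw [Gr_congr (h x hx) (h x' hx')]

theorem fE_congr {A : ℤ → ℤ → ℝ} {c : ℝ} {k : ℕ} {n m : ℤ} {V W : ℤ → ℤ → ℝ}
    (h : ∀ x ∈ iv k n, ∀ y ∈ iv k m, V x y = W x y) : fE A c k n m V = fE A c k n m W := by
  unfold fE
  rw [T4_congr h, E2_congr (V := fun x y => A x y - V x y) (W := fun x y => A x y - W x y)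
    fun x hx y hy => by rw [h x hx y hy]]

theorem fE_zero (A : ℤ → ℤ → ℝ) (c : ℝ) (k : ℕ) (n m : ℤ) :
    fE A c k n m (fun _ _ => 0) = E2 (iv k n) (iv k m) A := by
  unfold fE T4 Gr
  simp

theorem fE_nonneg {A : ℤ → ℤ → ℝ} {c : ℝ} (hc : 0 ≤ c) (k : ℕ) (n m : ℤ) (V : ℤ → ℤ → ℝ) :
    0 ≤ fE A c k n m V :=
  add_nonneg (E2_nonneg _ _ _) (mul_nonneg (by positivity) (T4_nonneg _ _ _))

/-! ### Existence of the minimiser -/

/-- The function on the plane with the given values on the square. -/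
def xt (I J : Finset ℤ) (v : I × J → ℝ) (x y : ℤ) : ℝ :=
  if h : x ∈ I ∧ y ∈ J then v (⟨x, h.1⟩, ⟨y, h.2⟩) else 0

theorem xt_mem {I J : Finset ℤ} (v : I × J → ℝ) {x y : ℤ} (hx : x ∈ I) (hy : y ∈ J) :
    xt I J v x y = v (⟨x, hx⟩, ⟨y, hy⟩) := by
  unfold xt
  rw [dif_pos ⟨hx, hy⟩]

theorem xt_off {I J : Finset ℤ} (v : I × J → ℝ) {x y : ℤ} (h : ¬ (x ∈ I ∧ y ∈ J)) :
    xt I J v x y = 0 := by
  unfold xt
  rw [dif_neg h]

theorem continuous_xt (I J : Finset ℤ) (x y : ℤ) : Continuous fun v => xt I J v x y := by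
  unfold xt
  split_ifs with h
  · exact continuous_apply _
  · exact continuous_const

theorem continuous_fE (A : ℤ → ℤ → ℝ) (c : ℝ) (k : ℕ) (n m : ℤ) :
    Continuous fun v => fE A c k n m (xt (iv k n) (iv k m) v) := by
  unfold fE E2 T4 Gr
  refine Continuous.add ?_ ?_
  · refine continuous_finsetSum _ fun x _ => continuous_finsetSum _ fun y _ => ?_
    exact (continuous_const.sub (continuous_xt _ _ x y)).pow 2
  · refine continuous_const.mul ?_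
    refine continuous_finsetSum _ fun x _ => continuous_finsetSum _ fun x' _ => ?_
    refine (continuous_finsetSum _ fun y _ => ?_).pow 2
    exact (continuous_xt _ _ x y).mul (continuous_xt _ _ x' y)

theorem exists_min {c : ℝ} (hc : 0 ≤ c) (A : ℤ → ℤ → ℝ) (k : ℕ) (n m : ℤ) :
    ∃ U : ℤ → ℤ → ℝ, (∀ x y, ¬ (x ∈ iv k n ∧ y ∈ iv k m) → U x y = 0) ∧
      ∀ V, fE A c k n m U ≤ fE A c k n m V := by
  classical
  set I := iv k n
  set J := iv k m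
  set F : (I × J → ℝ) → ℝ := fun v => fE A c k n m (xt I J v) with hF
  have hcont : Continuous F := continuous_fE A c k n m
  -- large values
  set B : ℝ := ∑ x ∈ I, ∑ y ∈ J, (|A x y| + 1) with hB
  have hEA : ∀ x ∈ I, ∀ y ∈ J, |A x y| + 1 ≤ B := by
    intro x hx y hy
    have h1 : |A x y| + 1 ≤ ∑ y ∈ J, (|A x y| + 1) :=
      single_le_sum (f := fun y => |A x y| + 1) (fun y _ => by positivity) hy
    exact h1.trans (single_le_sum (f := fun x => ∑ y ∈ J, (|A x y| + 1))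
      (fun x _ => sum_nonneg fun y _ => by positivity) hx)
  set E : ℝ := E2 I J A with hE
  have hE0 : 0 ≤ E := E2_nonneg _ _ _
  have hfar : ∀ᶠ v in Filter.cocompact (I × J → ℝ), F 0 ≤ F v := by
    have h1 := tendsto_norm_cocompact_atTop (E := I × J → ℝ)
    have h2 := h1.eventually (Filter.eventually_gt_atTop (B + E + 1))
    filter_upwards [h2] with v hv
    have h0 : F 0 = E := by
      rw [hF, hE]
      show fE A c k n m (xt I J 0) = _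
      rw [← fE_zero A c k n m]
      refine fE_congr fun x hx y hy => ?_
      rw [xt_mem _ hx hy]; rfl
    rw [h0]
    -- some coordinate is large
    by_cases hB0 : B + E + 1 < 0
    · exfalso
      have : 0 ≤ B := sum_nonneg fun x _ => sum_nonneg fun y _ => by positivity
      linarith
    push Not at hB0
    have h3 : ∃ i, B + E + 1 < |v i| := by
      by_contra h
      push Not at h
      have : ‖v‖ ≤ B + E + 1 := (pi_norm_le_iff_of_nonneg hB0).2 h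
      linarith
    obtain ⟨⟨⟨x, hx⟩, ⟨y, hy⟩⟩, hi⟩ := h3
    have h4 : (A x y - xt I J v x y) ^ 2 ≤ F v := by
      have h5 : (A x y - xt I J v x y) ^ 2 ≤ ∑ y ∈ J, (A x y - xt I J v x y) ^ 2 :=
        single_le_sum (f := fun y => (A x y - xt I J v x y) ^ 2) (fun _ _ => sq_nonneg _) hy
      have h6 : ∑ y ∈ J, (A x y - xt I J v x y) ^ 2 ≤
          E2 I J (fun x y => A x y - xt I J v x y) :=
        single_le_sum (f := fun x => ∑ y ∈ J, (A x y - xt I J v x y) ^ 2)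
          (fun _ _ => sum_nonneg fun _ _ => sq_nonneg _) hx
      have h7 : 0 ≤ c * (4 ^ k)⁻¹ * T4 I J (xt I J v) :=
        mul_nonneg (by positivity) (T4_nonneg _ _ _)
      show _ ≤ E2 I J _ + c * (4 ^ k)⁻¹ * T4 I J (xt I J v)
      linarith
    refine le_trans ?_ h4
    rw [xt_mem v hx hy]
    have h5 := hEA x hx y hy
    have h6 : |v (⟨x, hx⟩, ⟨y, hy⟩)| ≤ |A x y - v (⟨x, hx⟩, ⟨y, hy⟩)| + |A x y| := by
      have := abs_sub_abs_le_abs_sub (v (⟨x, hx⟩, ⟨y, hy⟩)) (A x y)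
      rw [abs_sub_comm] at this
      linarith
    have h7 : E + 1 ≤ |A x y - v (⟨x, hx⟩, ⟨y, hy⟩)| := by linarith
    have h8 : (E + 1) ^ 2 ≤ |A x y - v (⟨x, hx⟩, ⟨y, hy⟩)| ^ 2 :=
      pow_le_pow_left₀ (by linarith) h7 2
    rw [sq_abs] at h8
    nlinarith
  obtain ⟨v, hv⟩ := hcont.exists_forall_le' (x₀ := 0) hfar
  refine ⟨xt I J v, fun x y h => xt_off v h, fun V => ?_⟩
  have h1 := hv fun i => V i.1 i.2
  have h2 : F (fun i => V i.1 i.2) = fE A c k n m V := by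
    rw [hF]
    refine fE_congr fun x hx y hy => ?_
    rw [xt_mem _ hx hy]
  rw [h2] at h1
  exact h1

/-- **The minimiser.** -/
def Um (A : ℤ → ℤ → ℝ) (c : ℝ) (k : ℕ) (n m : ℤ) : ℤ → ℤ → ℝ := by
  classical exact
    if hc : 0 ≤ c then (exists_min hc A k n m).choose else fun _ _ => 0

theorem Um_min {c : ℝ} (hc : 0 ≤ c) (A : ℤ → ℤ → ℝ) (k : ℕ) (n m : ℤ) (V : ℤ → ℤ → ℝ) :
    fE A c k n m (Um A c k n m) ≤ fE A c k n m V := by
  unfold Um
  rw [dif_pos hc]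
  exact (exists_min hc A k n m).choose_spec.2 V

end

end Vale.Agent.P141.H443
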