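import Vale.Agent.P141.H443.Plane4
import Vale.Agent.P141.H8.Step
import Vale.Agent.P141.PL.H95.Grid

/-!
# P141, line W, end lemma: the events of a moving plane kernel at the exit cells

A static function `G` is cut pointwise by the used cells: `cu ud G k y = [ud k y] G y`.  It changes
between the scales `k` and `k + 1` only at the exit points of scale `k` (`xc`: unused, parent used).

* `sumd_pt`: the sum over the event squares of the energies, as a sum over points;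
* `near_exit`: the energy of `cu ud G (k + 1)` near the exit points of scale `k`, summed over the
  scales `k < K`, on an interval of length `ℓ`, is at most `4 C (ℓ + 2 · 2 ^ (K + c0))`;
* `cu_evx`: off the event squares `evx` the cut function does not change;
* `exit_ev`: the event energy of the planes of one atom, summed over the shifts and over `x0`.
-/

namespace Vale.Agent.P141.H443

open Finset Vale.Agent.P141.PL Vale.Agent.P141.PL.H317

noncomputable section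

/-! ### Squares and points -/

theorem sum_iv_iv {k K : ℕ} (hk : k ≤ K) (R : ℤ) (f : ℤ → ℝ) :
    ∑ a ∈ iv (K - k) R, ∑ x ∈ iv k a, f x = ∑ x ∈ iv K R, f x := by
  classical
  have hmap : ∀ x ∈ iv K R, ix k x ∈ iv (K - k) R := by
    intro x hx
    rw [mem_iv] at hx ⊢
    rw [ix_ix, Nat.add_sub_cancel' hk]
    exact hx
  rw [← sum_fiberwise_of_maps_to hmap]
  refine sum_congr rfl fun a ha => sum_congr ?_ fun _ _ => rfl
  ext x
  rw [mem_filter, mem_iv, mem_iv]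
  constructor
  · intro h
    refine ⟨?_, h⟩
    rw [mem_iv] at ha
    rw [← ha, ← h, ix_ix, Nat.add_sub_cancel' hk]
  · exact fun h => h.2

open Classical in
/-- **The event energy as a sum over points.** -/
theorem sumd_pt (ev : ℕ → ℤ → ℤ → Prop) (F : ℕ → ℤ → ℤ → ℝ) (K : ℕ) (R S : ℤ) :
    sumd (fun j a b => if ev j a b then E2 (iv j a) (iv j b) (F j) else 0) K R S =
      ∑ j ∈ range K, ∑ x ∈ iv K R, ∑ y ∈ iv K S,
        if ev j (ix j x) (ix j y) then F j x y ^ 2 else 0 := by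
  unfold sumd
  refine sum_congr rfl fun j hj => ?_
  rw [mem_range] at hj
  rw [← sum_iv_iv hj.le R]
  refine sum_congr rfl fun a _ => ?_
  have h1 : ∀ x ∈ iv j a, ∑ y ∈ iv K S, (if ev j (ix j x) (ix j y) then F j x y ^ 2 else 0) =
      ∑ b ∈ iv (K - j) S, ∑ y ∈ iv j b, if ev j a b then F j x y ^ 2 else 0 := by
    intro x hx
    rw [← sum_iv_iv hj.le S]
    refine sum_congr rfl fun b _ => sum_congr rfl fun y hy => ?_
    rw [mem_iv.1 hx, mem_iv.1 hy]
  rw [sum_congr rfl h1, sum_comm]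
  refine sum_congr rfl fun b _ => ?_
  simp only
  split_ifs with h
  · rfl
  · simp

/-! ### The exit points -/

/-- the index of the cell of scale `k` -/
def ci (c0 : ℕ) (s : ℤ) (k : ℕ) (y : ℤ) : ℤ := (y + s) / 2 ^ (k + c0)

/-- the cell of scale `k` and index `m` -/
def ce (c0 : ℕ) (s : ℤ) (k : ℕ) (m : ℤ) : Finset ℤ :=
  Ico (2 ^ (k + c0) * m - s) (2 ^ (k + c0) * m - s + 2 ^ (k + c0))

/-- an exit point of scale `k` -/
def xc (ud : ℕ → ℤ → Prop) (k : ℕ) (y : ℤ) : Prop := ud (k + 1) y ∧ ¬ ud k y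

open Classical in
/-- the function cut to the used points -/
def cu (ud : ℕ → ℤ → Prop) (G : ℤ → ℝ) (k : ℕ) (y : ℤ) : ℝ := if ud k y then G y else 0

/-- near an exit point of scale `k` -/
def nr (ud : ℕ → ℤ → Prop) (w : ℤ) (k : ℕ) (z : ℤ) : Prop := ∃ y, |z - y| ≤ w * 2 ^ k ∧ xc ud k y

variable {c0 : ℕ} {s : ℤ} {ud : ℕ → ℤ → Prop} {Λ K : ℕ} {G : ℤ → ℝ} {C : ℝ}

theorem ci_bounds (c0 : ℕ) (s : ℤ) (k : ℕ) (y : ℤ) :
    2 ^ (k + c0) * ci c0 s k y - s ≤ y ∧ y < 2 ^ (k + c0) * ci c0 s k y - s + 2 ^ (k + c0) := by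
  have h2 : (0 : ℤ) < 2 ^ (k + c0) := by positivity
  have h3 := Int.mul_ediv_add_emod (y + s) (2 ^ (k + c0))
  have h4 := Int.emod_nonneg (y + s) h2.ne'
  have h5 := Int.emod_lt_of_pos (y + s) h2
  unfold ci
  constructor <;> linarith

theorem mem_ce {k : ℕ} {m y : ℤ} : y ∈ ce c0 s k m ↔ ci c0 s k y = m := by
  have h2 : (0 : ℤ) < 2 ^ (k + c0) := by positivity
  have hb := ci_bounds c0 s k y
  unfold ce
  rw [mem_Ico]
  constructor
  · intro h
    set v := ci c0 s k y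
    have h3 : v < m + 1 := by
      by_contra h'
      have := mul_le_mul_of_nonneg_left (not_lt.1 h') h2.le
      linarith [h.2, hb.1]
    have h4 : m < v + 1 := by
      by_contra h'
      have := mul_le_mul_of_nonneg_left (not_lt.1 h') h2.le
      linarith [h.1, hb.2]
    omega
  · intro h
    rw [← h]
    exact hb

theorem card_ce (k : ℕ) (m : ℤ) : ((ce c0 s k m).card : ℝ) = 2 ^ (k + c0) := by
  unfold ce
  rw [Int.card_Ico]
  have : (2 ^ (k + c0) * m - s + 2 ^ (k + c0) - (2 ^ (k + c0) * m - s) : ℤ) =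
      ((2 ^ (k + c0) : ℕ) : ℤ) := by push_cast; ring
  rw [this, Int.toNat_natCast]
  push_cast; rfl

theorem ci_succ (k : ℕ) (y : ℤ) : ci c0 s (k + 1) y = ci c0 s k y / 2 := by
  unfold ci
  rw [Int.ediv_ediv_of_nonneg (by positivity)]
  congr 1
  rw [show k + 1 + c0 = (k + c0) + 1 by omega, pow_succ]

/-- neighbouring cells -/
theorem ci_near {w : ℤ} (hw : w ≤ 2 ^ c0) {k : ℕ} {z y : ℤ} (h : |z - y| ≤ w * 2 ^ k) :
    ci c0 s k y - 1 ≤ ci c0 s k z ∧ ci c0 s k z ≤ ci c0 s k y + 1 := by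
  have h2 : (0 : ℤ) < 2 ^ (k + c0) := by positivity
  have h3 : |z - y| ≤ 2 ^ (k + c0) := by
    refine h.trans ?_
    rw [pow_add, mul_comm ((2 : ℤ) ^ k)]
    exact mul_le_mul_of_nonneg_right hw (by positivity)
  rw [abs_le] at h3
  have b1 := ci_bounds c0 s k z
  have b2 := ci_bounds c0 s k y
  set u := ci c0 s k z
  set v := ci c0 s k y
  constructor
  · by_contra h'
    push Not at h'
    have := mul_le_mul_of_nonneg_left (by omega : u ≤ v - 2) h2.le
    linarith [b1.2, b2.1, h3.1]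
  · by_contra h'
    push Not at h'
    have := mul_le_mul_of_nonneg_left (by omega : v + 2 ≤ u) h2.le
    linarith [b1.1, b2.2, h3.2]

theorem up_mono (hup : ∀ k < Λ, ∀ y, ud k y → ud (k + 1) y) {a b : ℕ} (hab : a ≤ b) (hb : b ≤ Λ)
    {y : ℤ} (h : ud a y) : ud b y := by
  induction b, hab using Nat.le_induction with
  | base => exact h
  | succ n hn ih => exact hup n (by omega) y (ih (by omega))

open Classical in
/-- a point is an exit point for one scale at most -/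
theorem card_xc_le (hup : ∀ k < Λ, ∀ y, ud k y → ud (k + 1) y) (hK : K ≤ Λ) (y : ℤ) :
    ((range K).filter fun k => xc ud k y).card ≤ 1 := by
  rw [card_le_one]
  intro a ha b hb
  rw [mem_filter, mem_range] at ha hb
  rcases lt_trichotomy a b with h | h | h
  · exact absurd (up_mono hup (by omega : a + 1 ≤ b) (by omega) ha.2.1) hb.2.2
  · exact h
  · exact absurd (up_mono hup (by omega : b + 1 ≤ a) (by omega) hb.2.1) ha.2.2

theorem sum_xc_le (hup : ∀ k < Λ, ∀ y, ud k y → ud (k + 1) y) (hK : K ≤ Λ) (W : Finset ℤ)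
    [∀ k, DecidablePred (xc ud k)] :
    ∑ k ∈ range K, ((W.filter (xc ud k)).card : ℝ) ≤ W.card := by
  classical
  have h1 : ∀ k, ((W.filter (xc ud k)).card : ℝ) = ∑ y ∈ W, if xc ud k y then (1 : ℝ) else 0 := by
    intro k
    rw [← sum_filter, sum_const, nsmul_eq_mul, mul_one]
  rw [sum_congr rfl fun k _ => h1 k, sum_comm]
  have h2 : ∀ y ∈ W, ∑ k ∈ range K, (if xc ud k y then (1 : ℝ) else 0) ≤ 1 := by
    intro y _
    rw [← sum_filter, sum_const, nsmul_eq_mul, mul_one]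
    refine Nat.cast_le_one.2 ?_
    convert card_xc_le (K := K) hup hK y
  refine (sum_le_sum h2).trans (le_of_eq ?_)
  rw [sum_const, nsmul_eq_mul, mul_one]

/-- the cells of the grid -/
structure Cells (c0 : ℕ) (s : ℤ) (ud : ℕ → ℤ → Prop) (Λ : ℕ) (G : ℤ → ℝ) (C : ℝ) : Prop where
  const : ∀ k y z, ci c0 s k z = ci c0 s k y → (ud k z ↔ ud k y)
  up : ∀ k < Λ, ∀ y, ud k y → ud (k + 1) y
  en : ∀ k y, ud k y → ∑ z ∈ ce c0 s k (ci c0 s k y), G z ^ 2 ≤ C * 2 ^ (k + c0)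

theorem cube_eq_ce (k : ℕ) (y : ℤ) :
    (Vale.Agent.P141.PL.H95.gr c0 s).cube k y = ce c0 s k (ci c0 s k y) := rfl

/-- from a region of the grid -/
theorem Cells.of {gd : ℕ → ℤ → Prop} {x : ℤ}
    (hR : H8.Rgn (Vale.Agent.P141.PL.H95.gr c0 s) gd Λ x ud)
    (hG : H8.En (Vale.Agent.P141.PL.H95.gr c0 s) ud G C) : Cells c0 s ud Λ G C where
  const k y z h := hR.const k y z (Vale.Agent.P141.PL.H95.mem_gr.2 h)
  up := hR.up
  en k y hy := by
    have h1 := hG k y hy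
    rw [H8.dot_sq, cube_eq_ce] at h1
    unfold H347.cd at h1
    rwa [cube_eq_ce, card_ce] at h1

/-- energy of the cut function on a cell -/
theorem Cells.cell (H : Cells c0 s ud Λ G C) (hC : 0 ≤ C) (k : ℕ) (m : ℤ) :
    ∑ z ∈ ce c0 s k m, cu ud G k z ^ 2 ≤ C * 2 ^ (k + c0) := by
  classical
  by_cases h : ∃ y ∈ ce c0 s k m, ud k y
  · obtain ⟨y, hy, hu⟩ := h
    have h1 := H.en k y hu
    rw [mem_ce.1 hy] at h1
    refine le_trans (sum_le_sum fun z _ => ?_) h1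
    unfold cu
    split_ifs
    · exact le_rfl
    · rw [zero_pow two_ne_zero]; exact sq_nonneg _
  · have h1 : ∑ z ∈ ce c0 s k m, cu ud G k z ^ 2 = 0 := by
      refine sum_eq_zero fun z hz => ?_
      unfold cu
      rw [if_neg fun hu => h ⟨z, hz, hu⟩, zero_pow two_ne_zero]
    rw [h1]; positivity

theorem Cells.xc_const (H : Cells c0 s ud Λ G C) {k : ℕ} {y z : ℤ}
    (h : ci c0 s k z = ci c0 s k y) : xc ud k z ↔ xc ud k y := by
  unfold xc
  rw [H.const k y z h, H.const (k + 1) y z (by rw [ci_succ, ci_succ, h])]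

open Classical in
/-- **The cut function near the exit points**, one scale. -/
theorem near_one (H : Cells c0 s ud Λ G C) (hC : 0 ≤ C) {w : ℤ} (hw : w ≤ 2 ^ c0) {k : ℕ}
    (hk : k < K) (a ℓ : ℤ) :
    ∑ z ∈ Ico a (a + ℓ), (if nr ud w k z then cu ud G (k + 1) z ^ 2 else 0) ≤
      4 * C * (((Ico (a - 2 ^ (K + c0)) (a + ℓ + 2 ^ (K + c0))).filter (xc ud k)).card : ℝ) := by
  set W := Ico (a - 2 ^ (K + c0)) (a + ℓ + 2 ^ (K + c0)) with hW
  set V := Ico (a - 2 ^ (k + c0)) (a + ℓ + 2 ^ (k + c0)) with hV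
  set M := (V.filter (xc ud k)).image (ci c0 s k) with hM
  have h2K : (2 : ℤ) * 2 ^ (k + c0) ≤ 2 ^ (K + c0) := by
    rw [← pow_succ']
    exact pow_le_pow_right₀ (by norm_num) (by omega)
  have h2k : (0 : ℤ) < 2 ^ (k + c0) := by positivity
  -- one point
  have hp : ∀ z ∈ Ico a (a + ℓ), (if nr ud w k z then cu ud G (k + 1) z ^ 2 else 0) ≤
      ∑ m ∈ M, ((if ci c0 s (k + 1) z = (m - 1) / 2 then cu ud G (k + 1) z ^ 2 else 0) +
        (if ci c0 s (k + 1) z = (m + 1) / 2 then cu ud G (k + 1) z ^ 2 else 0)) := by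
    intro z hz
    have hn : ∀ m ∈ M, 0 ≤ (if ci c0 s (k + 1) z = (m - 1) / 2 then
        cu ud G (k + 1) z ^ 2 else 0) +
        (if ci c0 s (k + 1) z = (m + 1) / 2 then cu ud G (k + 1) z ^ 2 else 0) := by
      intro m _
      have := sq_nonneg (cu ud G (k + 1) z)
      split_ifs <;> linarith
    split_ifs with h
    · obtain ⟨y, hy, hx⟩ := h
      have hc := ci_near (c0 := c0) (s := s) hw hy
      have h3 : |z - y| ≤ 2 ^ (k + c0) := by
        refine hy.trans ?_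
        rw [pow_add, mul_comm ((2 : ℤ) ^ k)]
        exact mul_le_mul_of_nonneg_right hw (by positivity)
      rw [abs_le] at h3
      rw [mem_Ico] at hz
      have hm : ci c0 s k y ∈ M := by
        refine mem_image_of_mem _ (mem_filter.2 ⟨?_, hx⟩)
        rw [hV, mem_Ico]
        constructor <;> linarith [hz.1, hz.2, h3.1, h3.2]
      refine le_trans ?_ (single_le_sum hn hm)
      have hs := sq_nonneg (cu ud G (k + 1) z)
      rw [ci_succ]
      have h4 : ci c0 s k z / 2 = (ci c0 s k y - 1) / 2 ∨ ci c0 s k z / 2 = (ci c0 s k y + 1) / 2 := by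
        omega
      rcases h4 with h4 | h4
      · rw [if_pos h4]
        split_ifs <;> linarith
      · rw [if_pos h4]
        split_ifs <;> linarith
    · exact sum_nonneg hn
  have hq : ∀ m1 : ℤ, ∑ z ∈ Ico a (a + ℓ),
      (if ci c0 s (k + 1) z = m1 then cu ud G (k + 1) z ^ 2 else 0) ≤ C * 2 ^ (k + 1 + c0) := by
    intro m1
    rw [← sum_filter]
    refine le_trans (sum_le_sum_of_subset_of_nonneg ?_ fun _ _ _ => sq_nonneg _)
      (H.cell hC (k + 1) m1)
    intro z hz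
    exact mem_ce.2 (mem_filter.1 hz).2
  refine (sum_le_sum hp).trans ?_
  rw [sum_comm]
  have h5 : ∑ m ∈ M, ∑ z ∈ Ico a (a + ℓ),
      ((if ci c0 s (k + 1) z = (m - 1) / 2 then cu ud G (k + 1) z ^ 2 else 0) +
        (if ci c0 s (k + 1) z = (m + 1) / 2 then cu ud G (k + 1) z ^ 2 else 0)) ≤
      ∑ _m ∈ M, 4 * C * 2 ^ (k + c0) := by
    refine sum_le_sum fun m _ => ?_
    rw [sum_add_distrib]
    refine (add_le_add (hq _) (hq _)).trans (le_of_eq ?_)
    rw [show k + 1 + c0 = (k + c0) + 1 by omega, pow_succ]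
    ring
  refine h5.trans ?_
  rw [← mul_sum]
  refine mul_le_mul_of_nonneg_left ?_ (by positivity)
  -- the cells are disjoint
  have h6 : ∀ m ∈ M, (2 : ℝ) ^ (k + c0) ≤
      (((W.filter (xc ud k)).filter fun y => ci c0 s k y = m).card : ℝ) := by
    intro m hm
    obtain ⟨y, hy, rfl⟩ := mem_image.1 hm
    rw [mem_filter, hV, mem_Ico] at hy
    rw [← card_ce (c0 := c0) (s := s) k (ci c0 s k y)]
    refine Nat.cast_le.2 (card_le_card ?_)
    intro z hz
    have hz' := mem_ce.1 hz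
    refine mem_filter.2 ⟨mem_filter.2 ⟨?_, (H.xc_const hz').2 hy.2⟩, hz'⟩
    have b1 := ci_bounds c0 s k z
    have b2 := ci_bounds c0 s k y
    rw [hz'] at b1
    rw [hW, mem_Ico]
    constructor <;> linarith [hy.1.1, hy.1.2]
  refine (sum_le_sum h6).trans ?_
  have h7 : M ⊆ (W.filter (xc ud k)).image (ci c0 s k) := by
    intro m hm
    obtain ⟨y, hy, rfl⟩ := mem_image.1 hm
    rw [mem_filter, hV, mem_Ico] at hy
    refine mem_image_of_mem _ (mem_filter.2 ⟨?_, hy.2⟩)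
    rw [hW, mem_Ico]
    constructor <;> linarith [hy.1.1, hy.1.2]
  refine (sum_le_sum_of_subset_of_nonneg h7 fun _ _ _ => Nat.cast_nonneg _).trans ?_
  rw [← Nat.cast_sum, ← card_eq_sum_card_image]

open Classical in
/-- **The cut function near the exit points**, all scales below `K`, on an interval. -/
theorem near_exit (H : Cells c0 s ud Λ G C) (hC : 0 ≤ C) {w : ℤ} (hw : w ≤ 2 ^ c0) (hK : K ≤ Λ)
    (a : ℤ) (ℓ : ℕ) :
    ∑ k ∈ range K, ∑ z ∈ Ico a (a + ℓ), (if nr ud w k z then cu ud G (k + 1) z ^ 2 else 0) ≤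
      4 * C * (ℓ + 2 * 2 ^ (K + c0)) := by
  refine (sum_le_sum fun k hk => near_one H hC hw (mem_range.1 hk) a ℓ).trans ?_
  rw [← mul_sum]
  refine mul_le_mul_of_nonneg_left ((sum_xc_le H.up hK _).trans ?_) (by positivity)
  rw [Int.card_Ico]
  have h1 : (a + (ℓ : ℤ) + 2 ^ (K + c0) - (a - 2 ^ (K + c0)) : ℤ) =
      ((ℓ + 2 * 2 ^ (K + c0) : ℕ) : ℤ) := by push_cast; ring
  rw [h1, Int.toNat_natCast]
  push_cast; exact le_rfl

/-! ### The events of the planes -/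

/-- the square meets an exit cell of its scale; the form is `t0 + q2 x + q3 y` -/
def evx (ud : ℕ → ℤ → Prop) (t0 q2 q3 : ℤ) (k : ℕ) (n m : ℤ) : Prop :=
  ∃ x ∈ iv k n, ∃ y ∈ iv k m, xc ud k (t0 + q2 * x + q3 * y)

/-- **Off the events the cut function does not change.** -/
theorem cu_evx (hup : ∀ k < Λ, ∀ y, ud k y → ud (k + 1) y) {t0 q2 q3 : ℤ} {k : ℕ} (hk : k < Λ)
    {n m : ℤ} (h : ¬ evx ud t0 q2 q3 k n m) {x y : ℤ} (hx : x ∈ iv k n) (hy : y ∈ iv k m) :
    cu ud G k (t0 + q2 * x + q3 * y) = cu ud G (k + 1) (t0 + q2 * x + q3 * y) := by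
  unfold cu
  by_cases h1 : ud k (t0 + q2 * x + q3 * y)
  · rw [if_pos h1, if_pos (hup k hk _ h1)]
  · rw [if_neg h1, if_neg fun h2 => h ⟨x, hx, y, hy, h2, h1⟩]

theorem iv_diff {k : ℕ} {x x' : ℤ} (h : ix k x = ix k x') : |x - x'| ≤ 2 ^ k := by
  have h1 := self_mem_iv k x
  have h2 := self_mem_iv k x'
  rw [h] at h1
  unfold iv at h1 h2
  rw [mem_Ico] at h1 h2
  rw [abs_le]
  constructor <;> linarith [h1.1, h1.2, h2.1, h2.2]

theorem nr_of_evx {t0 q2 q3 : ℤ} {k : ℕ} {x y : ℤ}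
    (h : evx ud t0 q2 q3 k (ix k x) (ix k y)) :
    nr ud (|q2| + |q3|) k (t0 + q2 * x + q3 * y) := by
  obtain ⟨x', hx', y', hy', hc⟩ := h
  refine ⟨_, ?_, hc⟩
  rw [mem_iv] at hx' hy'
  have h1 := iv_diff hx'.symm
  have h2 := iv_diff hy'.symm
  have e : t0 + q2 * x + q3 * y - (t0 + q2 * x' + q3 * y') = q2 * (x - x') + q3 * (y - y') := by
    ring
  rw [e]
  refine (abs_add_le _ _).trans ?_
  rw [abs_mul, abs_mul, add_mul]
  exact add_le_add (mul_le_mul_of_nonneg_left h1 (abs_nonneg _))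
    (mul_le_mul_of_nonneg_left h2 (abs_nonneg _))

open Classical in
/-- the sum over `x0` at a fixed point of the plane -/
theorem sum_x0_near (H : Cells c0 s ud Λ G C) (hC : 0 ≤ C) (hK : K ≤ Λ) {s0 q0 q2 q3 : ℤ}
    (h0 : q0 ≠ 0) (b0 : |q0| ≤ 2 ^ c0) (b23 : |q2| + |q3| ≤ 2 ^ c0) (r0 : ℤ) {X0 : Finset ℤ}
    (hX : X0 ⊆ iv K r0) (x y : ℤ) :
    ∑ x0 ∈ X0, ∑ k ∈ range K, (if evx ud (s0 + q0 * x0) q2 q3 k (ix k x) (ix k y) then
      cu ud G (k + 1) (s0 + q0 * x0 + q2 * x + q3 * y) ^ 2 else 0) ≤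
      12 * C * 2 ^ (K + c0) := by
  have h2K : (0 : ℤ) < 2 ^ K := by positivity
  -- the values of the form
  set f : ℤ → ℤ := fun x0 => s0 + q0 * x0 + q2 * x + q3 * y with hf
  obtain ⟨a, ha⟩ : ∃ a : ℤ, ∀ x0 ∈ X0, f x0 ∈ Ico a (a + (q0.natAbs * 2 ^ K : ℕ)) := by
    have e1 : ((q0.natAbs * 2 ^ K : ℕ) : ℤ) = |q0| * 2 ^ K := by push_cast; rfl
    rw [e1]
    rcases lt_or_gt_of_ne h0 with h | h
    · refine ⟨s0 + q0 * (2 ^ K * r0 + 2 ^ K) + q2 * x + q3 * y + 1, fun x0 hx0 => ?_⟩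
      have h1 := hX hx0
      unfold iv at h1
      rw [mem_Ico] at h1
      rw [abs_of_neg h, mem_Ico, hf]
      simp only
      constructor <;> nlinarith [h1.1, h1.2]
    · refine ⟨s0 + q0 * (2 ^ K * r0) + q2 * x + q3 * y, fun x0 hx0 => ?_⟩
      have h1 := hX hx0
      unfold iv at h1
      rw [mem_Ico] at h1
      rw [abs_of_pos h, mem_Ico, hf]
      simp only
      constructor <;> nlinarith [h1.1, h1.2]
  have hinj : Set.InjOn f X0 := by
    intro u _ v _ h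
    have h' : q0 * u = q0 * v := by
      have : s0 + q0 * u + q2 * x + q3 * y = s0 + q0 * v + q2 * x + q3 * y := h
      linarith
    exact mul_left_cancel₀ h0 h'
  rw [sum_comm]
  have h1 : ∀ k ∈ range K, ∑ x0 ∈ X0, (if evx ud (s0 + q0 * x0) q2 q3 k (ix k x) (ix k y) then
      cu ud G (k + 1) (s0 + q0 * x0 + q2 * x + q3 * y) ^ 2 else 0) ≤
      ∑ z ∈ Ico a (a + (q0.natAbs * 2 ^ K : ℕ)),
        if nr ud (|q2| + |q3|) k z then cu ud G (k + 1) z ^ 2 else 0 := by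
    intro k _
    have h2 : ∀ x0 ∈ X0, (if evx ud (s0 + q0 * x0) q2 q3 k (ix k x) (ix k y) then
        cu ud G (k + 1) (s0 + q0 * x0 + q2 * x + q3 * y) ^ 2 else 0) ≤
        if nr ud (|q2| + |q3|) k (f x0) then cu ud G (k + 1) (f x0) ^ 2 else 0 := by
      intro x0 _
      by_cases h : evx ud (s0 + q0 * x0) q2 q3 k (ix k x) (ix k y)
      · rw [if_pos h, if_pos (nr_of_evx h)]
      · rw [if_neg h]
        split_ifs
        · exact sq_nonneg _
        · exact le_rfl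
    refine (sum_le_sum h2).trans ?_
    rw [← sum_image (f := fun z => if nr ud (|q2| + |q3|) k z then cu ud G (k + 1) z ^ 2 else 0)
      hinj]
    refine sum_le_sum_of_subset_of_nonneg ?_ fun z _ _ => ?_
    · intro z hz
      obtain ⟨x0, hx0, rfl⟩ := mem_image.1 hz
      exact ha x0 hx0
    · split_ifs
      · exact sq_nonneg _
      · exact le_rfl
  refine (sum_le_sum h1).trans ((near_exit H hC b23 hK a _).trans ?_)
  have h3 : ((q0.natAbs * 2 ^ K : ℕ) : ℝ) ≤ 2 ^ (K + c0) := by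
    have h4 : ((q0.natAbs * 2 ^ K : ℕ) : ℤ) ≤ 2 ^ (K + c0) := by
      push_cast
      rw [pow_add, mul_comm ((2 : ℤ) ^ K)]
      exact mul_le_mul_of_nonneg_right b0 h2K.le
    exact_mod_cast h4
  have h5 : 0 ≤ 4 * C := by positivity
  nlinarith [mul_le_mul_of_nonneg_left h3 h5]

open Classical in
/-- **The event energy of the exits**, all planes of one atom. -/
theorem exit_ev (H : Cells c0 s ud Λ G C) (hC : 0 ≤ C) (hK : K ≤ Λ) {s0 q0 q2 q3 : ℤ}
    (h0 : q0 ≠ 0) (b0 : |q0| ≤ 2 ^ c0) (b23 : |q2| + |q3| ≤ 2 ^ c0) (r0 R S : ℤ) {X0 : Finset ℤ}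
    (hX : X0 ⊆ iv K r0) {Θ : Type*} (Th : Finset Θ) {e : Θ → ℤ → ℤ → ℝ} {F : ℝ}
    (he : ∀ x ∈ iv K R, ∀ y ∈ iv K S, ∑ t ∈ Th, e t x y ^ 2 ≤ F) (hF : 0 ≤ F)
    {A : Θ → ℤ → ℕ → ℤ → ℤ → ℝ}
    (hA : ∀ t ∈ Th, ∀ x0 ∈ X0, ∀ k < K, ∀ x ∈ iv K R, ∀ y ∈ iv K S, A t x0 k x y ^ 2 ≤
      e t x y ^ 2 * cu ud G (k + 1) (s0 + q0 * x0 + q2 * x + q3 * y) ^ 2) :
    ∑ t ∈ Th, ∑ x0 ∈ X0, sumd (fun k n m => if evx ud (s0 + q0 * x0) q2 q3 k n m then
      E2 (iv k n) (iv k m) (A t x0 k) else 0) K R S ≤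
      F * 4 ^ K * (12 * C * 2 ^ (K + c0)) := by
  have h1 : ∀ t ∈ Th, ∀ x0 ∈ X0, sumd (fun k n m => if evx ud (s0 + q0 * x0) q2 q3 k n m then
      E2 (iv k n) (iv k m) (A t x0 k) else 0) K R S ≤
      ∑ x ∈ iv K R, ∑ y ∈ iv K S, e t x y ^ 2 * ∑ k ∈ range K,
        (if evx ud (s0 + q0 * x0) q2 q3 k (ix k x) (ix k y) then
          cu ud G (k + 1) (s0 + q0 * x0 + q2 * x + q3 * y) ^ 2 else 0) := by
    intro t ht x0 hx0
    rw [sumd_pt, sum_comm]
    refine sum_le_sum fun x hx => ?_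
    rw [sum_comm]
    refine sum_le_sum fun y hy => ?_
    rw [mul_sum]
    refine sum_le_sum fun k hk => ?_
    split_ifs
    · exact hA t ht x0 hx0 k (mem_range.1 hk) x hx y hy
    · rw [mul_zero]
  refine (sum_le_sum fun t ht => sum_le_sum fun x0 hx0 => h1 t ht x0 hx0).trans ?_
  have h2 : ∑ t ∈ Th, ∑ x0 ∈ X0, ∑ x ∈ iv K R, ∑ y ∈ iv K S, e t x y ^ 2 * ∑ k ∈ range K,
        (if evx ud (s0 + q0 * x0) q2 q3 k (ix k x) (ix k y) then
          cu ud G (k + 1) (s0 + q0 * x0 + q2 * x + q3 * y) ^ 2 else 0) =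
      ∑ x ∈ iv K R, ∑ y ∈ iv K S, (∑ t ∈ Th, e t x y ^ 2) * ∑ x0 ∈ X0, ∑ k ∈ range K,
        (if evx ud (s0 + q0 * x0) q2 q3 k (ix k x) (ix k y) then
          cu ud G (k + 1) (s0 + q0 * x0 + q2 * x + q3 * y) ^ 2 else 0) := by
    have e1 : ∀ t ∈ Th, ∑ x0 ∈ X0, ∑ x ∈ iv K R, ∑ y ∈ iv K S, e t x y ^ 2 * ∑ k ∈ range K,
        (if evx ud (s0 + q0 * x0) q2 q3 k (ix k x) (ix k y) then
          cu ud G (k + 1) (s0 + q0 * x0 + q2 * x + q3 * y) ^ 2 else 0) =
        ∑ x ∈ iv K R, ∑ y ∈ iv K S, e t x y ^ 2 * ∑ x0 ∈ X0, ∑ k ∈ range K,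
        (if evx ud (s0 + q0 * x0) q2 q3 k (ix k x) (ix k y) then
          cu ud G (k + 1) (s0 + q0 * x0 + q2 * x + q3 * y) ^ 2 else 0) := by
      intro t _
      rw [sum_comm]
      refine sum_congr rfl fun x _ => ?_
      rw [sum_comm]
      refine sum_congr rfl fun y _ => ?_
      rw [mul_sum]
    rw [sum_congr rfl e1, sum_comm]
    refine sum_congr rfl fun x _ => ?_
    rw [sum_comm]
    refine sum_congr rfl fun y _ => ?_
    rw [sum_mul]
  rw [h2]
  have h3 : 0 ≤ 12 * C * 2 ^ (K + c0) := by positivity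
  have h4 : ∀ x ∈ iv K R, ∀ y ∈ iv K S, (∑ t ∈ Th, e t x y ^ 2) * ∑ x0 ∈ X0, ∑ k ∈ range K,
        (if evx ud (s0 + q0 * x0) q2 q3 k (ix k x) (ix k y) then
          cu ud G (k + 1) (s0 + q0 * x0 + q2 * x + q3 * y) ^ 2 else 0) ≤
      F * (12 * C * 2 ^ (K + c0)) := by
    intro x hx y hy
    refine mul_le_mul (he x hx y hy) (sum_x0_near H hC hK h0 b0 b23 r0 hX x y) ?_ hF
    exact sum_nonneg fun _ _ => sum_nonneg fun _ _ => by
      split_ifs
      · exact sq_nonneg _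
      · exact le_rfl
  refine (sum_le_sum fun x hx => sum_le_sum fun y hy => h4 x hx y hy).trans (le_of_eq ?_)
  rw [sum_const, sum_const, card_iv, card_iv, nsmul_eq_mul, nsmul_eq_mul,
    show (4 : ℝ) = 2 * 2 by norm_num, mul_pow]
  push_cast
  ring

end

end Vale.Agent.P141.H443
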