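import Vale.Agent.P141.H443.LsupO
import Vale.Agent.P141.H865.Ker3
import Vale.Agent.P141.H585.Bth0
import Vale.Agent.P141.H297.NbM
import Vale.Agent.P141.H911.Coef

/-!
# P141, line W, end lemma: `hL`, `hL'` of the trees of one fibre

The family of births `B : ι → Bth`, the gauge `G k x y = g k (s0 + q2 x + q3 y)`, the window sets
`WA`, `WB` (`H865.Ker3`).

* `La_box`, `Lb_box`: the mass of the active components of one box;
* `La_win`, `Lb_win`: the mass of the window sets;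
* `NA_bthO`, `NB_bthO`: the numbers of the births `bthO`;
* `nrc_win2`, `nrc_win3`: the births read by the window squares are near the slot points of the line;
* `hL_A`, `hL_A'`, `hL_B`, `hL_B'`: the hypotheses `hL`, `hL'` of `Reg1`.
-/

namespace Vale.Agent.P141.H443

open Finset Vale.Agent.P141.PL Vale.Agent.P141.PL.H317
open Vale.Agent.P141.PL.H315 (Tri avg avg_nonneg cube3 mem_cube3)
open Vale.Agent.P141.H337 (ivm ms card_ivm nrc nrc_of_le)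
open Vale.Agent.P141.H585
open Vale.Agent.P141.H911 (Th uT dd lc)
open Vale.Agent.P141.H865
open Vale.Agent.P141.H97b (wn mcA mcB)
open Vale.Agent.P141.H297 (nbO mem_nbO Th_split)
open Vale.Agent.P141.H998 (Bi lmM mB mB_nonneg sum_le_lmM thB)

noncomputable section

/-! ### One box -/

/-- height of edge `12` -/
def e12h (κ : ℝ) (u : Tri) (B : Bth) : ℝ := rC B.K B.q u ^ 2 * sd12 B.K B.q u / κ ^ 2
@[inherit_doc e12h] def e13h (κ : ℝ) (u : Tri) (B : Bth) : ℝ :=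
  rC B.K B.q u ^ 2 * sd13 B.K B.q u / κ ^ 2
@[inherit_doc e12h] def e23h (κ : ℝ) (u : Tri) (B : Bth) : ℝ :=
  rC B.K B.q u ^ 2 * sd23 B.K B.q u / κ ^ 2

/-- the mass of the first functions of one birth -/
def NA (κ Λ : ℝ) (u : Tri) (B : Bth) : ℝ :=
  B.a ^ 2 * (17408 * (B.cp / 2 * (e12h κ u B ^ 2 * (e23h κ u B ^ 2 * Λ)) * (2 * B.th) *
    e23h κ u B ^ 2 / B.et) * (2 * B.th * (2 * B.th) * (2 * B.th)) * Λ * 4 ^ B.K)

/-- the mass of the second functions of one birth -/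
def NB (κ Λ : ℝ) (u : Tri) (B : Bth) : ℝ :=
  B.b ^ 2 * (17408 * (e13h κ u B ^ 2 * (e23h κ u B ^ 2 * Λ) * (2 * B.th) *
    e23h κ u B ^ 2 / B.et) * (2 * B.th * (2 * B.th) * (2 * B.th)) * Λ * 4 ^ B.K)

/-- the data of a birth which enter the masses -/
structure BHyp (κ : ℝ) (u : Tri) (B : Bth) : Prop where
  vc : VC κ B.K B.q u B.v B.S1 B.S2 B.S3
  th : 0 ≤ B.th
  cp : 0 ≤ B.cp
  et : 0 < B.et ∨ e23h κ u B = 0

theorem NA_nonneg {κ Λ : ℝ} {u : Tri} {B : Bth} (h : BHyp κ u B) (hΛ : 0 ≤ Λ) :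
    0 ≤ NA κ Λ u B := by
  have h1 := h.th
  have h2 := h.cp
  unfold NA
  rcases h.et with h3 | h3
  · positivity
  · rw [h3]; simp

theorem NB_nonneg {κ Λ : ℝ} {u : Tri} {B : Bth} (h : BHyp κ u B) (hΛ : 0 ≤ Λ) :
    0 ≤ NB κ Λ u B := by
  have h1 := h.th
  unfold NB
  rcases h.et with h3 | h3
  · positivity
  · rw [h3]; simp

variable {ι : Type*} {c : Pt} {B : ι → Bth} {u : ι → Tri} {I : Finset ι}
  {G : ℕ → ℤ → ℤ → ℝ} {ex : ℕ → ℤ → ℤ → Prop} {g : ℕ → ℤ → ℝ} {c0 : ℕ} {s0 q2 q3 : ℤ}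
  {κ Λ : ℝ} {x1 n m : ℤ} {k : ℕ}

/-- the gauge of one fibre: a function of one form with small energies on intervals -/
structure GHyp (c : Pt) (c0 : ℕ) (Λ : ℝ) (s0 q2 q3 : ℤ) (g : ℕ → ℤ → ℝ) (G : ℕ → ℤ → ℤ → ℝ) :
    Prop where
  det : c.2.1 * q3 - c.2.2 * q2 ≠ 0
  c1 : c.1 ≠ 0
  b2 : |c.2.1| ≤ 4
  b3 : |c.2.2| ≤ 4
  n2 : q2 ≠ 0
  n3 : q3 ≠ 0
  b23 : |q2| + |q3| ≤ 2 ^ c0
  Λ0 : 0 ≤ Λ
  form : ∀ j x y, G j x y = g j (s0 + q2 * x + q3 * y)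
  en : ∀ j : ℕ, ∀ a : ℤ, ∑ z ∈ Ico a (a + 2 ^ (j + c0)), g j z ^ 2 ≤ Λ * 2 ^ j

theorem sum_nbO (F : ι → ℝ) (hF : ∀ i ∈ I, (Th c (B i).K (ptO k x1 n m) (B i).q) = ∅ → F i = 0)
    [DecidablePred fun i => k ≤ (B i).K] :
    ∑ i ∈ I.filter (fun i => k ≤ (B i).K), F i = ∑ i ∈ nbO c B I x1 k n m, F i := by
  classical
  symm
  refine sum_subset ?_ ?_
  · intro i hi
    rw [mem_nbO] at hi
    exact mem_filter.2 ⟨hi.1, hi.2.1⟩
  · intro i hi hn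
    rw [mem_filter] at hi
    refine hF i hi.1 ?_
    by_contra h
    exact hn (mem_nbO.2 ⟨hi.1, hi.2, nonempty_iff_ne_empty.2 h⟩)

/-- **The mass of the active components of one box, first side.** -/
theorem La_box (hI : ∀ i ∈ I, BHyp κ (u i) (B i)) (hG : GHyp c c0 Λ s0 q2 q3 g G) :
    ms (aO B G x1) (actO c B G ex I x1 k n m) (ivm k n) ≤
      ∑ i ∈ nbO c B I x1 k n m, NA κ Λ (u i) (B i) := by
  classical
  unfold ms
  rw [sum_actO, sum_plO (fun p => ∑ j ∈ acO (B p.1) G ex p.2.2 k n m,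
    avg (ivm k n) fun x => aO B G x1 (p, j) x ^ 2)]
  rw [sum_nbO (c := c) (x1 := x1) (n := n) (m := m) _ fun i _ h => by rw [h, sum_empty]]
  refine sum_le_sum fun i hi => ?_
  rw [mem_nbO] at hi
  have hb := hI i hi.1
  have h1 := La_atom (x1 := x1) (n := n) (m := m) (c := c) (p := ptO k x1 n m) (s0 := s0)
    (q2 := q2) (q3 := q3) (c0 := c0) (G := g) (A := fun θ => kA (B i) G θ)
    (us := fun _ _ _ _ => True) (ev := fun θ => evO (B i) ex θ) (cp := (B i).cp)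
    (ξ := (B i).xi) (η := (B i).et) hG.det hG.c1 hG.b2 hG.b3 hG.n3 hG.b23 hb.vc hb.th hi.2.1
    hG.Λ0 (fun j _ a => hG.en j a)
    (fun θ _ j _ x y => by unfold kA Bth.mn; rw [hG.form])
    (fun θ _ j _ n m h => by unfold evO at h; push Not at h; exact h.1) hb.cp hb.et
  have h2 : ∑ θ ∈ Th c (B i).K (ptO k x1 n m) (B i).q, (if al1 (B i) θ k x1 then
      ∑ j ∈ acO (B i) G ex θ k n m, avg (ivm k n) (fun x =>
        aO B G x1 ((i, cx (B i).K (ptO k x1 n m), θ), j) x ^ 2) else 0) =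
      (B i).a ^ 2 * ((2 ^ k : ℝ)⁻¹ * ∑ t ∈ Tal c (ptO k x1 n m) (B i).q (B i).K k (B i).th
        (B i).S1 x1, ∑ j ∈ acO (B i) G ex t k n m, ∑ x ∈ iv k n,
        (uT (B i).K (B i).q t (B i).v).1 (x1, x) ^ 2 *
          comA (kA (B i) G t j.1) (B i).cp j x ^ 2) := by
    unfold Tal
    rw [sum_filter, mul_sum, mul_sum]
    refine sum_congr rfl fun θ _ => ?_
    unfold al1
    split_ifs
    · rw [mul_sum, mul_sum]
      refine sum_congr rfl fun j _ => ?_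
      unfold avg
      rw [card_ivm, ← iv_eq_ivm, mul_sum, mul_sum, mul_sum]
      push_cast
      refine sum_congr rfl fun x _ => ?_
      unfold aO dA mcA
      simp only
      ring
    · rw [mul_zero, mul_zero]
  simp only
  rw [h2]
  unfold NA
  refine mul_le_mul_of_nonneg_left ?_ (sq_nonneg _)
  rw [inv_mul_le_iff₀ (by positivity)]
  refine le_trans h1 (le_of_eq ?_)
  unfold e12h e23h
  ring

/-- **The mass of the active components of one box, second side.** -/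
theorem Lb_box (hI : ∀ i ∈ I, BHyp κ (u i) (B i)) (hG : GHyp c c0 Λ s0 q2 q3 g G) :
    ms (bO B G x1) (actO c B G ex I x1 k n m) (ivm k m) ≤
      ∑ i ∈ nbO c B I x1 k n m, NB κ Λ (u i) (B i) := by
  classical
  unfold ms
  rw [sum_actO, sum_plO (fun p => ∑ j ∈ acO (B p.1) G ex p.2.2 k n m,
    avg (ivm k m) fun x => bO B G x1 (p, j) x ^ 2)]
  rw [sum_nbO (c := c) (x1 := x1) (n := n) (m := m) _ fun i _ h => by rw [h, sum_empty]]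
  refine sum_le_sum fun i hi => ?_
  rw [mem_nbO] at hi
  have hb := hI i hi.1
  have h1 := Lb_atom (x1 := x1) (n := n) (m := m) (c := c) (p := ptO k x1 n m) (s0 := s0)
    (q2 := q2) (q3 := q3) (c0 := c0) (G := g) (A := fun θ => kA (B i) G θ)
    (us := fun _ _ _ _ => True) (ev := fun θ => evO (B i) ex θ) (cp := (B i).cp)
    (ξ := (B i).xi) (η := (B i).et) hG.det hG.c1 hG.b2 hG.b3 hG.n2 hG.b23 hb.vc hb.th hi.2.1
    hG.Λ0 (fun j _ a => hG.en j a)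
    (fun θ _ j _ x y => by unfold kA Bth.mn; rw [hG.form])
    (fun θ _ j _ n m h => by unfold evO at h; push Not at h; exact h.2.1) hb.cp hb.et
  have h2 : ∑ θ ∈ Th c (B i).K (ptO k x1 n m) (B i).q, (if al1 (B i) θ k x1 then
      ∑ j ∈ acO (B i) G ex θ k n m, avg (ivm k m) (fun x =>
        bO B G x1 ((i, cx (B i).K (ptO k x1 n m), θ), j) x ^ 2) else 0) =
      (B i).b ^ 2 * ((2 ^ k : ℝ)⁻¹ * ∑ t ∈ Tal c (ptO k x1 n m) (B i).q (B i).K k (B i).th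
        (B i).S1 x1, ∑ j ∈ acO (B i) G ex t k n m, ∑ x ∈ iv k m,
        (uT (B i).K (B i).q t (B i).v).2.1 (x1, x) ^ 2 *
          comB (kA (B i) G t j.1) (B i).cp j x ^ 2) := by
    unfold Tal
    rw [sum_filter, mul_sum, mul_sum]
    refine sum_congr rfl fun θ _ => ?_
    unfold al1
    split_ifs
    · rw [mul_sum, mul_sum]
      refine sum_congr rfl fun j _ => ?_
      unfold avg
      rw [card_ivm, ← iv_eq_ivm, mul_sum, mul_sum, mul_sum]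
      push_cast
      refine sum_congr rfl fun x _ => ?_
      unfold bO dB mcB
      simp only
      ring
    · rw [mul_zero, mul_zero]
  simp only
  rw [h2]
  unfold NB
  refine mul_le_mul_of_nonneg_left ?_ (sq_nonneg _)
  rw [inv_mul_le_iff₀ (by positivity)]
  refine le_trans h1 (le_of_eq ?_)
  unfold e13h e23h
  ring

/-! ### The windows -/

theorem ms_bU_le {Ω : Type*} {a : Ω → ℤ → ℝ} {A : Finset Ω} {N : Finset ℤ} {A' : ℤ → Finset Ω}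
    (hA : ∀ w ∈ A, ∃ m ∈ N, w ∈ A' m) (J : Finset ℤ) : ms a A J ≤ ∑ m ∈ N, ms a (A' m) J := by
  classical
  have hp : ∀ w, 0 ≤ avg J fun x => a w x ^ 2 := fun w => avg_nonneg fun _ _ => sq_nonneg _
  unfold ms
  refine (sum_le_sum_of_subset_of_nonneg (t := N.biUnion A') ?_ fun w _ _ => hp w).trans
    (H97b.sum_bU_le _ _ hp)
  intro w hw
  obtain ⟨m, hm, h⟩ := hA w hw
  exact mem_biUnion.2 ⟨m, hm, h⟩

theorem card_wn (o x0 x1 : ℤ) (k : ℕ) (b : ℤ) : (wn o x0 x1 k b).card = 17 := by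
  unfold wn
  rw [Int.card_Icc]
  omega

/-- **The mass of the window sets, first side.** -/
theorem La_win (hI : ∀ i ∈ I, BHyp κ (u i) (B i)) (hG : GHyp c c0 Λ s0 q2 q3 g G)
    (C : ι → Finset Pt) (o x0 : ℤ) :
    ms (aO B G x1) (WA B G ex (QO c B I C) o x0 x1 k n) (ivm k n) ≤
      ∑ m ∈ wn o x0 x1 k n, ∑ i ∈ nbO c B I x1 k n m, NA κ Λ (u i) (B i) :=
  (ms_bU_le (fun _ hw => (mem_WA.1 hw).2) _).trans
    (sum_le_sum fun m _ => La_box (n := n) (m := m) hI hG)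

/-- **The mass of the window sets, second side.** -/
theorem Lb_win (hI : ∀ i ∈ I, BHyp κ (u i) (B i)) (hG : GHyp c c0 Λ s0 q2 q3 g G)
    (C : ι → Finset Pt) (o x0 : ℤ) :
    ms (bO B G x1) (WB B G ex (QO c B I C) o x0 x1 k m) (ivm k m) ≤
      ∑ n ∈ wn o x0 x1 k m, ∑ i ∈ nbO c B I x1 k n m, NB κ Λ (u i) (B i) :=
  (ms_bU_le (fun _ hw => (mem_WB.1 hw).2) _).trans
    (sum_le_sum fun n _ => Lb_box (n := n) (m := m) hI hG)

/-! ### The numbers of the births -/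

section numbers

variable {μ sg Lg : ℝ} {cf : Bi → ℝ} {E : Bi → Finset ℤ × Finset ℤ × Finset ℤ} {v : Bi → Tri}

/-- the constant of the first side -/
def cA (κ μ sg Lg Λ : ℝ) : ℝ := 557056 * (μ ^ 5 * Λ ^ 2 * Lg / (κ ^ 16 * sg ^ 6))

/-- the constant of the second side -/
def cB (κ μ sg Λ : ℝ) : ℝ := 1114112 * (μ ^ 4 * Λ ^ 2 / (κ ^ 12 * sg ^ 2))

theorem cA_nonneg (hμ : 0 ≤ μ) (hL : 0 ≤ Lg) : 0 ≤ cA κ μ sg Lg Λ := by
  unfold cA
  have h1 : 0 ≤ κ ^ 16 * sg ^ 6 := mul_nonneg (by positivity) (by positivity)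
  positivity

theorem cB_nonneg : 0 ≤ cB κ μ sg Λ := by
  unfold cB
  have h1 : 0 ≤ κ ^ 12 * sg ^ 2 := mul_nonneg (by positivity) (by positivity)
  positivity

theorem bHyp_bthO (hμ : 0 ≤ μ) (hs : 0 < sg) (hL : 0 ≤ Lg) {b : Bi} (hb : 0 < rB b)
    (hv : VC κ b.1.1 b.1.2 b.2 (v b) (E b).1 (E b).2.1 (E b).2.2) :
    BHyp κ b.2 (bthO κ μ sg Lg cf E v b) where
  vc := hv
  th := by
    show 0 ≤ μ / rC b.1.1 b.1.2 b.2 ^ 2
    positivity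
  cp := cp_nonneg hμ hL b
  et := Or.inl (xi_pos (κ := κ) (μ := μ) (Lg := Lg) (cf := cf) (E := E) (v := v) hs hb)

theorem NA_bthO (hκ : 0 < κ) (hμ : 0 ≤ μ) (hs : 0 < sg) (hL : 0 ≤ Lg) {b : Bi}
    (hb : 0 < rB b) : NA κ Λ b.2 (bthO κ μ sg Lg cf E v b) ≤ cA κ μ sg Lg Λ * mB cf b := by
  obtain ⟨h12, h13, h23⟩ := sB_pos hb
  have e : NA κ Λ b.2 (bthO κ μ sg Lg cf E v b) = cA κ μ sg Lg Λ *
      (|cf b| * (4 ^ b.1.1 * (rB b * (sB12 b * sB13 b * sB23 b)))) := by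
    unfold NA
    rw [a_sq]
    show |cf b| * (rB b * sB13 b * sB23 b / sB12 b) * (17408 * (μ * rB b ^ 2 * sB23 b ^ 2 / κ ^ 4 *
      Lg / (sg * rB b * sB23 b) ^ 4 / 2 * ((rB b ^ 2 * sB12 b / κ ^ 2) ^ 2 *
      ((rB b ^ 2 * sB23 b / κ ^ 2) ^ 2 * Λ)) * (2 * (μ / rB b ^ 2)) *
      (rB b ^ 2 * sB23 b / κ ^ 2) ^ 2 / ((sg * rB b * sB23 b) ^ 2 / 4)) *
      (2 * (μ / rB b ^ 2) * (2 * (μ / rB b ^ 2)) * (2 * (μ / rB b ^ 2))) * Λ * 4 ^ b.1.1) = _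
    unfold cA
    field_simp
    ring
  rw [e, mB_eq]
  refine mul_le_mul_of_nonneg_left ?_ (cA_nonneg hμ hL)
  refine mul_le_mul_of_nonneg_left ?_ (abs_nonneg _)
  exact mul_le_mul_of_nonneg_left (rB_mul b) (by positivity)

theorem NB_bthO (hκ : 0 < κ) (hs : 0 < sg) {b : Bi}
    (hb : 0 < rB b) : NB κ Λ b.2 (bthO κ μ sg Lg cf E v b) ≤ cB κ μ sg Λ * mB cf b := by
  obtain ⟨h12, h13, h23⟩ := sB_pos hb
  have e : NB κ Λ b.2 (bthO κ μ sg Lg cf E v b) = cB κ μ sg Λ *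
      (|cf b| * (4 ^ b.1.1 * (rB b * (sB12 b * sB13 b * sB23 b)))) := by
    unfold NB
    rw [b_sq]
    show |cf b| * (sB12 b / (rB b * sB13 b * sB23 b)) * (17408 * ((rB b ^ 2 * sB13 b / κ ^ 2) ^ 2 *
      ((rB b ^ 2 * sB23 b / κ ^ 2) ^ 2 * Λ) * (2 * (μ / rB b ^ 2)) *
      (rB b ^ 2 * sB23 b / κ ^ 2) ^ 2 / ((sg * rB b * sB23 b) ^ 2 / 4)) *
      (2 * (μ / rB b ^ 2) * (2 * (μ / rB b ^ 2)) * (2 * (μ / rB b ^ 2))) * Λ * 4 ^ b.1.1) = _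
    unfold cB
    field_simp
    ring
  rw [e, mB_eq]
  refine mul_le_mul_of_nonneg_left ?_ cB_nonneg
  refine mul_le_mul_of_nonneg_left ?_ (abs_nonneg _)
  exact mul_le_mul_of_nonneg_left (rB_mul b) (by positivity)

end numbers

/-! ### The births read by the window squares -/

theorem sum_win_le {o x0 x1 : ℤ} (ho : |o| ≤ 1) {k : ℕ} {n m u w : ℤ} (hu : u ∈ iv k n)
    (hm : m ∈ wn o x0 x1 k n) (hw : w ∈ iv k m) : |x0 + x1 + u + w| ≤ 11 * 2 ^ k := by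
  have h2 : (0 : ℤ) < 2 ^ k := by positivity
  have e0 := self_mem_iv k x0
  have e1 := self_mem_iv k x1
  unfold iv at e0 e1 hu hw
  rw [mem_Ico] at e0 e1 hu hw
  unfold wn H97b.mt at hm
  rw [mem_Icc] at hm
  rw [abs_le] at ho
  set a0 := ix k x0
  set a1 := ix k x1
  have s1 : -11 ≤ a0 + a1 + n + m := by linarith [hm.1, ho.1]
  have s2 : a0 + a1 + n + m ≤ 7 := by linarith [hm.2, ho.2]
  have t1 := mul_le_mul_of_nonneg_left s1 h2.le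
  have t2 := mul_le_mul_of_nonneg_left s2 h2.le
  rw [abs_le]
  constructor <;> nlinarith [e0.1, e0.2, e1.1, e1.2, hu.1, hu.2, hw.1, hw.2]

/-- **The births read by a window square are near every slot point** of the line of the second
coordinate. -/
theorem nrc_win2 {σ : Equiv.Perm (Fin 4)} {o x0 x1 : ℤ} (ho : |o| ≤ 1) {k K : ℕ} (hk : k ≤ K)
    {n m u : ℤ} (hu : u ∈ iv k n) (hm : m ∈ wn o x0 x1 k n) {q : Pt}
    (hT : (Th (lc σ 0) K (ptO k x1 n m) q).Nonempty) {a : ℤ} (ha : 64 ≤ a) (s : ℤ) :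
    nrc (lc σ 0) 7 s a K q (dd σ 3 0 * x0 + dd σ 3 1 * x1 + dd σ 3 2 * u) := by
  obtain ⟨θ, hθ⟩ := hT
  obtain ⟨x, hx, hx2, hx3⟩ := Th_split hθ
  refine nrc_of_le hx2 ((Vale.Agent.P141.PL.H95.gr 7 s).mem K _) ?_
  rw [hx3]
  have hk2 : (0 : ℤ) < 2 ^ k := by positivity
  have hK2 : (2 : ℤ) ^ k ≤ 2 ^ K := pow_le_pow_right₀ (by norm_num) hk
  have hw : 2 ^ k * m ∈ iv k m := by
    unfold iv; rw [mem_Ico]; constructor <;> linarith
  have hp : ((x1, u, 2 ^ k * m) : Pt) ∈ cube3 K (ptO k x1 n m) := mem_ptO hu hw hk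
  have e1 := Vale.Agent.P141.PL.H318.el_diff (c := lc σ 0) hx hp
  have e2 : PL.el (lc σ 0) (x1, u, 2 ^ k * m) -
      (dd σ 3 0 * x0 + dd σ 3 1 * x1 + dd σ 3 2 * u) =
      dd σ 0 3 * (x0 + x1 + u + 2 ^ k * m) := by
    show dd σ 0 1 * x1 + dd σ 0 2 * u + dd σ 0 3 * (2 ^ k * m) -
      (dd σ 3 0 * x0 + dd σ 3 1 * x1 + dd σ 3 2 * u) = _
    unfold H911.dd
    ring
  have e3 := sum_win_le ho hu hm hw
  have e4 : |dd σ 0 3| ≤ 3 := H911.dd_le σ 0 3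
  have e5 : |dd σ 0 3 * (x0 + x1 + u + 2 ^ k * m)| ≤ 33 * 2 ^ k := by
    rw [abs_mul]
    have := mul_le_mul e4 e3 (abs_nonneg _) (by norm_num)
    linarith
  have e6 : H318.csz (lc σ 0) ≤ 9 := by
    have h := H911.lc_le σ 0
    show |(lc σ 0).1| + |(lc σ 0).2.1| + |(lc σ 0).2.2| ≤ 9
    linarith [h.1, h.2.1, h.2.2]
  have e7 : H318.csz (lc σ 0) * (2 ^ K - 1) ≤ 9 * 2 ^ K := by
    have h1 : (0 : ℤ) ≤ 2 ^ K - 1 := by linarith
    have := mul_le_mul_of_nonneg_right e6 h1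
    linarith
  have e8 : PL.el (lc σ 0) x - (dd σ 3 0 * x0 + dd σ 3 1 * x1 + dd σ 3 2 * u) =
      (PL.el (lc σ 0) x - PL.el (lc σ 0) (x1, u, 2 ^ k * m)) +
      dd σ 0 3 * (x0 + x1 + u + 2 ^ k * m) := by rw [← e2]; ring
  rw [e8]
  refine (abs_add_le _ _).trans ?_
  have h9 := mul_le_mul_of_nonneg_right ha (by positivity : (0 : ℤ) ≤ 2 ^ K)
  linarith

/-- **The births read by a window square are near every slot point** of the line of the third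
coordinate. -/
theorem nrc_win3 {σ : Equiv.Perm (Fin 4)} {o x0 x1 : ℤ} (ho : |o| ≤ 1) {k K : ℕ} (hk : k ≤ K)
    {n m u : ℤ} (hu : u ∈ iv k m) (hm : n ∈ wn o x0 x1 k m) {q : Pt}
    (hT : (Th (lc σ 0) K (ptO k x1 n m) q).Nonempty) {a : ℤ} (ha : 64 ≤ a) (s : ℤ) :
    nrc (lc σ 0) 7 s a K q (dd σ 2 0 * x0 + dd σ 2 1 * x1 + dd σ 2 3 * u) := by
  obtain ⟨θ, hθ⟩ := hT
  obtain ⟨x, hx, hx2, hx3⟩ := Th_split hθ
  refine nrc_of_le hx2 ((Vale.Agent.P141.PL.H95.gr 7 s).mem K _) ?_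
  rw [hx3]
  have hk2 : (0 : ℤ) < 2 ^ k := by positivity
  have hK2 : (2 : ℤ) ^ k ≤ 2 ^ K := pow_le_pow_right₀ (by norm_num) hk
  have hw : 2 ^ k * n ∈ iv k n := by
    unfold iv; rw [mem_Ico]; constructor <;> linarith
  have hp : ((x1, 2 ^ k * n, u) : Pt) ∈ cube3 K (ptO k x1 n m) := mem_ptO hw hu hk
  have e1 := Vale.Agent.P141.PL.H318.el_diff (c := lc σ 0) hx hp
  have e2 : PL.el (lc σ 0) (x1, 2 ^ k * n, u) -
      (dd σ 2 0 * x0 + dd σ 2 1 * x1 + dd σ 2 3 * u) =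
      dd σ 0 2 * (x0 + x1 + u + 2 ^ k * n) := by
    show dd σ 0 1 * x1 + dd σ 0 2 * (2 ^ k * n) + dd σ 0 3 * u -
      (dd σ 2 0 * x0 + dd σ 2 1 * x1 + dd σ 2 3 * u) = _
    unfold H911.dd
    ring
  have e3 := sum_win_le ho hu hm hw
  have e4 : |dd σ 0 2| ≤ 3 := H911.dd_le σ 0 2
  have e5 : |dd σ 0 2 * (x0 + x1 + u + 2 ^ k * n)| ≤ 33 * 2 ^ k := by
    rw [abs_mul]
    have := mul_le_mul e4 e3 (abs_nonneg _) (by norm_num)
    linarith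
  have e6 : H318.csz (lc σ 0) ≤ 9 := by
    have h := H911.lc_le σ 0
    show |(lc σ 0).1| + |(lc σ 0).2.1| + |(lc σ 0).2.2| ≤ 9
    linarith [h.1, h.2.1, h.2.2]
  have e7 : H318.csz (lc σ 0) * (2 ^ K - 1) ≤ 9 * 2 ^ K := by
    have h1 : (0 : ℤ) ≤ 2 ^ K - 1 := by linarith
    have := mul_le_mul_of_nonneg_right e6 h1
    linarith
  have e8 : PL.el (lc σ 0) x - (dd σ 2 0 * x0 + dd σ 2 1 * x1 + dd σ 2 3 * u) =
      (PL.el (lc σ 0) x - PL.el (lc σ 0) (x1, 2 ^ k * n, u)) +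
      dd σ 0 2 * (x0 + x1 + u + 2 ^ k * n) := by rw [← e2]; ring
  rw [e8]
  refine (abs_add_le _ _).trans ?_
  have h9 := mul_le_mul_of_nonneg_right ha (by positivity : (0 : ℤ) ≤ 2 ^ K)
  linarith

/-! ### The hypotheses of the trees -/

section trees

variable {σ : Equiv.Perm (Fin 4)} {o x0 s a : ℤ} {μ sg Lg m1 : ℝ} {cf : Bi → ℝ}
  {E : Bi → Finset ℤ × Finset ℤ × Finset ℤ} {v : Bi → Tri} {D : Finset Bi}

/-- `hL`, tree of the second coordinate -/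
theorem hL_A (ho : |o| ≤ 1) (ha : 64 ≤ a) (hκ : 0 < κ) (hμ : 0 ≤ μ) (hs : 0 < sg) (hL : 0 ≤ Lg)
    (hD : ∀ b ∈ D, 0 < rB b)
    (hv : ∀ b ∈ D, VC κ b.1.1 b.1.2 b.2 (v b) (E b).1 (E b).2.1 (E b).2.2)
    (hG : GHyp (lc σ 0) c0 Λ s0 q2 q3 g G) (C : Bi → Finset Pt)
    (hy : ∃ w ∈ iv k n, lmM s a (lc σ 0) D cf k (dd σ 3 0 * x0 + dd σ 3 1 * x1 + dd σ 3 2 * w) ≤
      m1) :
    ms (aO (bthO κ μ sg Lg cf E v) G x1) (WA (bthO κ μ sg Lg cf E v) G ex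
      (QO (lc σ 0) (bthO κ μ sg Lg cf E v) D C) o x0 x1 k n) (ivm k n) ≤
      17 * (cA κ μ sg Lg Λ * m1) := by
  obtain ⟨w, hw, hy⟩ := hy
  have hI : ∀ b ∈ D, BHyp κ b.2 (bthO κ μ sg Lg cf E v b) := fun b hb =>
    bHyp_bthO hμ hs hL (hD b hb) (hv b hb)
  refine (La_win (u := fun b : Bi => b.2) hI hG C o x0).trans ?_
  have h1 : ∀ m ∈ wn o x0 x1 k n, ∑ i ∈ nbO (lc σ 0) (bthO κ μ sg Lg cf E v) D x1 k n m,
      NA κ Λ i.2 (bthO κ μ sg Lg cf E v i) ≤ cA κ μ sg Lg Λ * m1 := by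
    intro m hm
    refine (sum_le_sum fun b hb => NA_bthO hκ hμ hs hL (hD b (mem_nbO.1 hb).1)).trans ?_
    rw [← mul_sum]
    refine mul_le_mul_of_nonneg_left (le_trans ?_ hy) (cA_nonneg hμ hL)
    refine sum_le_lmM (fun b hb => (mem_nbO.1 hb).1) fun b hb => ?_
    have h7 : k ≤ b.1.1 := (mem_nbO.1 hb).2.1
    have h8 : (Th (lc σ 0) b.1.1 (ptO k x1 n m) b.1.2).Nonempty := (mem_nbO.1 hb).2.2
    exact ⟨h7, nrc_win2 ho h7 hw hm h8 ha s⟩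
  refine (sum_le_sum h1).trans (le_of_eq ?_)
  rw [sum_const, card_wn, nsmul_eq_mul]
  norm_num

/-- `hL'`, tree of the second coordinate -/
theorem hL_A' (ho : |o| ≤ 1) (ha : 64 ≤ a) (hκ : 0 < κ) (hμ : 0 ≤ μ) (hs : 0 < sg) (hL : 0 ≤ Lg)
    (hD : ∀ b ∈ D, 0 < rB b)
    (hv : ∀ b ∈ D, VC κ b.1.1 b.1.2 b.2 (v b) (E b).1 (E b).2.1 (E b).2.2)
    (hG : GHyp (lc σ 0) c0 Λ s0 q2 q3 g G) (C : Bi → Finset Pt)
    (hy : ∃ w ∈ iv k n, lmM s a (lc σ 0) D cf (k + 1)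
      (dd σ 3 0 * x0 + dd σ 3 1 * x1 + dd σ 3 2 * w) ≤ m1) :
    ms (aO (bthO κ μ sg Lg cf E v) G x1) (WA (bthO κ μ sg Lg cf E v) G ex
      (QO (lc σ 0) (bthO κ μ sg Lg cf E v) D C) o x0 x1 (k + 1) (n / 2)) (ivm k n) ≤
      34 * (cA κ μ sg Lg Λ * m1) := by
  obtain ⟨w, hw, hy⟩ := hy
  refine (ms_child _ _ k n).trans ?_
  have hw' : w ∈ iv (k + 1) (n / 2) := by
    rw [mem_iv] at hw ⊢
    rw [← hw, ← ix_ix k 1 w]
    unfold ix; norm_num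
  have h1 := hL_A (ex := ex) ho ha hκ hμ hs hL hD hv hG C ⟨w, hw', hy⟩
  linarith

/-- `hL`, tree of the third coordinate -/
theorem hL_B (ho : |o| ≤ 1) (ha : 64 ≤ a) (hκ : 0 < κ) (hμ : 0 ≤ μ) (hs : 0 < sg) (hL : 0 ≤ Lg)
    (hD : ∀ b ∈ D, 0 < rB b)
    (hv : ∀ b ∈ D, VC κ b.1.1 b.1.2 b.2 (v b) (E b).1 (E b).2.1 (E b).2.2)
    (hG : GHyp (lc σ 0) c0 Λ s0 q2 q3 g G) (C : Bi → Finset Pt)
    (hy : ∃ w ∈ iv k m, lmM s a (lc σ 0) D cf k (dd σ 2 0 * x0 + dd σ 2 1 * x1 + dd σ 2 3 * w) ≤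
      m1) :
    ms (bO (bthO κ μ sg Lg cf E v) G x1) (WB (bthO κ μ sg Lg cf E v) G ex
      (QO (lc σ 0) (bthO κ μ sg Lg cf E v) D C) o x0 x1 k m) (ivm k m) ≤
      17 * (cB κ μ sg Λ * m1) := by
  obtain ⟨w, hw, hy⟩ := hy
  have hI : ∀ b ∈ D, BHyp κ b.2 (bthO κ μ sg Lg cf E v b) := fun b hb =>
    bHyp_bthO hμ hs hL (hD b hb) (hv b hb)
  refine (Lb_win (u := fun b : Bi => b.2) hI hG C o x0).trans ?_
  have h1 : ∀ n ∈ wn o x0 x1 k m, ∑ i ∈ nbO (lc σ 0) (bthO κ μ sg Lg cf E v) D x1 k n m,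
      NB κ Λ i.2 (bthO κ μ sg Lg cf E v i) ≤ cB κ μ sg Λ * m1 := by
    intro n hn
    refine (sum_le_sum fun b hb => NB_bthO hκ hs (hD b (mem_nbO.1 hb).1)).trans ?_
    rw [← mul_sum]
    refine mul_le_mul_of_nonneg_left (le_trans ?_ hy) cB_nonneg
    refine sum_le_lmM (fun b hb => (mem_nbO.1 hb).1) fun b hb => ?_
    have h7 : k ≤ b.1.1 := (mem_nbO.1 hb).2.1
    have h8 : (Th (lc σ 0) b.1.1 (ptO k x1 n m) b.1.2).Nonempty := (mem_nbO.1 hb).2.2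
    exact ⟨h7, nrc_win3 ho h7 hw hn h8 ha s⟩
  refine (sum_le_sum h1).trans (le_of_eq ?_)
  rw [sum_const, card_wn, nsmul_eq_mul]
  norm_num

/-- `hL'`, tree of the third coordinate -/
theorem hL_B' (ho : |o| ≤ 1) (ha : 64 ≤ a) (hκ : 0 < κ) (hμ : 0 ≤ μ) (hs : 0 < sg) (hL : 0 ≤ Lg)
    (hD : ∀ b ∈ D, 0 < rB b)
    (hv : ∀ b ∈ D, VC κ b.1.1 b.1.2 b.2 (v b) (E b).1 (E b).2.1 (E b).2.2)
    (hG : GHyp (lc σ 0) c0 Λ s0 q2 q3 g G) (C : Bi → Finset Pt)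
    (hy : ∃ w ∈ iv k m, lmM s a (lc σ 0) D cf (k + 1)
      (dd σ 2 0 * x0 + dd σ 2 1 * x1 + dd σ 2 3 * w) ≤ m1) :
    ms (bO (bthO κ μ sg Lg cf E v) G x1) (WB (bthO κ μ sg Lg cf E v) G ex
      (QO (lc σ 0) (bthO κ μ sg Lg cf E v) D C) o x0 x1 (k + 1) (m / 2)) (ivm k m) ≤
      34 * (cB κ μ sg Λ * m1) := by
  obtain ⟨w, hw, hy⟩ := hy
  refine (ms_child _ _ k m).trans ?_
  have hw' : w ∈ iv (k + 1) (m / 2) := by
    rw [mem_iv] at hw ⊢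
    rw [← hw, ← ix_ix k 1 w]
    unfold ix; norm_num
  have h1 := hL_B (ex := ex) ho ha hκ hμ hs hL hD hv hG C ⟨w, hw', hy⟩
  linarith

end trees

/-- the gauge of one fibre: the static slot cut by the used cells -/
theorem gHyp_cu {s : ℤ} {ud : ℕ → ℤ → Prop} {N : ℕ} {G1 : ℤ → ℝ} {C : ℝ}
    (H : Cells 7 s ud N G1 C) (hC : 0 ≤ C) (σ : Equiv.Perm (Fin 4)) (x0 : ℤ)
    (hGf : ∀ j x y, G j x y = cu ud G1 j (dd σ 1 0 * x0 + dd σ 1 2 * x + dd σ 1 3 * y)) :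
    GHyp (lc σ 0) 7 (256 * C) (dd σ 1 0 * x0) (dd σ 1 2) (dd σ 1 3) (cu ud G1) G where
  det := H911.det_ne σ
  c1 := (H911.lc_ne σ 0).1
  b2 := (H911.lc_le σ 0).2.1.trans (by norm_num)
  b3 := (H911.lc_le σ 0).2.2.trans (by norm_num)
  n2 := H911.dd_ne σ (by decide)
  n3 := H911.dd_ne σ (by decide)
  b23 := by
    have h1 := H911.dd_le σ 1 2
    have h2 := H911.dd_le σ 1 3
    have h3 : (2 : ℤ) ^ 7 = 128 := by norm_num
    rw [h3]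
    linarith
  Λ0 := by positivity
  form := hGf
  en j b := by
    refine (H.two hC j b).trans (le_of_eq ?_)
    norm_num
    ring

end

end Vale.Agent.P141.H443
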