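import Vale.Agent.P141.H443.Plane4

/-!
# P141, line W, end lemma (E-FR): rows of the frames, the components, the reset sums

`A` a kernel, `c`, `ξ`, `us`, `K` as in `Plane3`.

* `fa_row`, `fb_col`: the rows of the frames, bounded by the rows and columns of `A`;
* `comA`, `comB`, `act`, `alive_eq`: the alive matrix `A - Rs` as a sum of components, functions
  of one variable indexed by `ℕ × ℤ × ℤ`; `act_inherit`: the active set changes at resets only;
* `massA`, `massB`: weighted mass of the active components on a subset of the square;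
* `us_of_reset`, `us_ref`: the reset squares and the reference squares are in use.
-/

namespace Vale.Agent.P141.H443

open Finset Vale.Agent.P141.PL Vale.Agent.P141.PL.H317

noncomputable section

variable {A : ℤ → ℤ → ℝ} {c ξ : ℝ} {us : ℕ → ℤ → ℤ → Prop} {K : ℕ}

/-! ### The rows of the frames -/

theorem sum_AU {c : ℝ} {A U : ℤ → ℤ → ℝ} {k : ℕ} {n m : ℤ}
    (hU : ∀ V, fE A c k n m U ≤ fE A c k n m V) {x : ℤ} (hx : x ∈ iv k n) :
    ∑ y ∈ iv k m, A x y * U x y = ∑ y ∈ iv k m, U x y ^ 2 +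
      2 * c * (4 ^ k)⁻¹ * ∑ x' ∈ iv k n, Gr (iv k m) U U x x' ^ 2 := by
  have h2 : ∀ y ∈ iv k m, A x y * U x y = U x y ^ 2 +
      2 * c * (4 ^ k)⁻¹ * (U3 (iv k n) (iv k m) U x y * U x y) := by
    intro y hy
    have := el hU hx hy
    linear_combination U x y * this
  rw [sum_congr rfl h2, sum_add_distrib, ← mul_sum]
  congr 2
  unfold U3
  have h3 : ∀ y, (∑ x' ∈ iv k n, Gr (iv k m) U U x x' * U x' y) * U x y =
      ∑ x' ∈ iv k n, Gr (iv k m) U U x x' * (U x y * U x' y) := by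
    intro y
    rw [sum_mul]
    exact sum_congr rfl fun x' _ => by ring
  simp only [h3]
  rw [sum_comm]
  refine sum_congr rfl fun x' _ => ?_
  rw [← mul_sum, sq]
  rfl

/-- **The rows of the first frame**: `∑ fa² ≤ (c/2) · (mean of A² on the row)`. -/
theorem fa_row (hc : 0 ≤ c) (A : ℤ → ℤ → ℝ) {k : ℕ} {n m x : ℤ} (hx : x ∈ iv k n) :
    ∑ x' ∈ iv k n, fa A c k n m x' x ^ 2 ≤
      c / 2 * ((2 ^ k : ℝ)⁻¹ * ∑ y ∈ iv k m, A x y ^ 2) := by
  set U := Um A c k n m with hU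
  have h1 := sum_AU (Um_min hc A k n m) hx
  rw [← hU] at h1
  set S := ∑ x' ∈ iv k n, Gr (iv k m) U U x x' ^ 2 with hS
  have h2 : 2 * c * (4 ^ k : ℝ)⁻¹ * S ≤ (1 / 4) * ∑ y ∈ iv k m, A x y ^ 2 := by
    have h3 : ∑ y ∈ iv k m, A x y * U x y - ∑ y ∈ iv k m, U x y ^ 2 ≤
        (1 / 4) * ∑ y ∈ iv k m, A x y ^ 2 := by
      rw [← sum_sub_distrib, mul_sum]
      refine sum_le_sum fun y _ => ?_
      nlinarith [sq_nonneg (A x y - 2 * U x y)]
    linarith
  have h4 : ∑ x' ∈ iv k n, fa A c k n m x' x ^ 2 =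
      2 * c * (2 ^ k : ℝ)⁻¹ * (2 * c * (4 ^ k : ℝ)⁻¹ * S) := by
    unfold fa
    rw [← hU, hS, mul_sum, mul_sum]
    refine sum_congr rfl fun x' _ => ?_
    have e1 : √(2 ^ k : ℝ) ^ 2 = 2 ^ k := Real.sq_sqrt (by positivity)
    have e2 : ((4 : ℝ) ^ k)⁻¹ * 2 ^ k = (2 ^ k)⁻¹ := by
      rw [show (4 : ℝ) = 2 * 2 by norm_num, mul_pow, mul_inv, mul_assoc,
        inv_mul_cancel₀ (by positivity : (2 : ℝ) ^ k ≠ 0), mul_one]
    calc (2 * c * (4 ^ k : ℝ)⁻¹ * √(2 ^ k) * Gr (iv k m) U U x x') ^ 2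
        = 2 * c * ((4 ^ k : ℝ)⁻¹ * √(2 ^ k) ^ 2) *
          (2 * c * (4 ^ k : ℝ)⁻¹ * Gr (iv k m) U U x x' ^ 2) := by ring
      _ = _ := by rw [e1, e2]
  rw [h4]
  have h5 := mul_le_mul_of_nonneg_left h2 (by positivity : 0 ≤ 2 * c * (2 ^ k : ℝ)⁻¹)
  refine h5.trans (le_of_eq ?_)
  ring

/-- **The columns of the second frame**: `∑ fb² ≤ (mean of A² on the column)`. -/
theorem fb_col (hc : 0 ≤ c) (A : ℤ → ℤ → ℝ) {k : ℕ} {n m y : ℤ} (hy : y ∈ iv k m) :
    ∑ x' ∈ iv k n, fb A c k n m x' y ^ 2 ≤ (2 ^ k : ℝ)⁻¹ * ∑ x ∈ iv k n, A x y ^ 2 := by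
  unfold fb
  have h1 : ∀ x' : ℤ, ((√(2 ^ k : ℝ))⁻¹ * Um A c k n m x' y) ^ 2 =
      (2 ^ k : ℝ)⁻¹ * Um A c k n m x' y ^ 2 := by
    intro x'
    rw [mul_pow, inv_pow, Real.sq_sqrt (by positivity)]
  simp only [h1]
  rw [← mul_sum]
  exact mul_le_mul_of_nonneg_left (col_le hc (Um_min hc A k n m) hy) (by positivity)

/-! ### The components -/

/-- the first function of a component; the index is `(scale, row, column cell)` -/
def comA (A : ℤ → ℤ → ℝ) (c : ℝ) (i : ℕ × ℤ × ℤ) (x : ℤ) : ℝ :=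
  if ix i.1 x = ix i.1 i.2.1 then fa A c i.1 (ix i.1 i.2.1) i.2.2 i.2.1 x else 0

/-- the second function of a component -/
def comB (A : ℤ → ℤ → ℝ) (c : ℝ) (i : ℕ × ℤ × ℤ) (y : ℤ) : ℝ :=
  if ix i.1 y = i.2.2 then fb A c i.1 (ix i.1 i.2.1) i.2.2 i.2.1 y else 0

/-- the components of a square of scale `r` -/
def cset (r : ℕ) (n m : ℤ) : Finset (ℕ × ℤ × ℤ) := (iv r n).image fun x => (r, x, m)

theorem sum_cset {M : Type*} [AddCommMonoid M] (r : ℕ) (n m : ℤ) (F : ℕ × ℤ × ℤ → M) :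
    ∑ i ∈ cset r n m, F i = ∑ x ∈ iv r n, F (r, x, m) := by
  unfold cset
  rw [sum_image]
  intro x _ y _ h
  simp only [Prod.mk.injEq] at h
  exact h.2.1

theorem mem_cset {r : ℕ} {n m : ℤ} {i : ℕ × ℤ × ℤ} :
    i ∈ cset r n m ↔ i.1 = r ∧ ix r i.2.1 = n ∧ i.2.2 = m := by
  unfold cset
  rw [mem_image]
  constructor
  · rintro ⟨x, hx, rfl⟩
    exact ⟨rfl, mem_iv.1 hx, rfl⟩
  · rintro ⟨h1, h2, h3⟩
    refine ⟨i.2.1, mem_iv.2 h2, ?_⟩
    rw [← h1, ← h3]

/-- the components of different squares are different -/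
theorem cset_disjoint {r r' : ℕ} {n n' m m' : ℤ} (h : (r, n, m) ≠ (r', n', m')) :
    Disjoint (cset r n m) (cset r' n' m') := by
  rw [disjoint_left]
  intro i h1 h2
  rw [mem_cset] at h1 h2
  apply h
  have e : r = r' := h1.1.symm.trans h2.1
  subst e
  rw [← h1.2.1, ← h1.2.2, ← h2.2.1, ← h2.2.2]

theorem comA_of_mem {r : ℕ} {n m x x' : ℤ} (hx : x ∈ iv r n) (hx' : x' ∈ iv r n) :
    comA A c (r, x', m) x = fa A c r n m x' x := by
  unfold comA
  have h1 := mem_iv.1 hx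
  have h2 := mem_iv.1 hx'
  simp only [h1, h2, if_true]

theorem comB_of_mem {r : ℕ} {n m y x' : ℤ} (hy : y ∈ iv r m) (hx' : x' ∈ iv r n) :
    comB A c (r, x', m) y = fb A c r n m x' y := by
  unfold comB
  have h1 := mem_iv.1 hy
  have h2 := mem_iv.1 hx'
  simp only [h1, h2, if_true]

/-- the reference square of `(k; n, m)`: its first coordinate -/
theorem ix_ref {k r : ℕ} (hkr : k ≤ r) {n x : ℤ} (hx : x ∈ iv k n) :
    ix r x = ix (r - k) n := by
  have h1 := ix_ix k (r - k) x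
  rw [mem_iv.1 hx] at h1
  rw [h1]
  congr 1
  omega

/-- **the active components** of the square `(k; n, m)` -/
def act (A : ℤ → ℤ → ℝ) (c ξ : ℝ) (us : ℕ → ℤ → ℤ → Prop) (K k : ℕ) (n m : ℤ) :
    Finset (ℕ × ℤ × ℤ) :=
  cset (rf A c ξ us K k n m) (ix (rf A c ξ us K k n m - k) n) (ix (rf A c ξ us K k n m - k) m)

/-- **The alive matrix is the sum of the active components.** -/
theorem alive_eq (hc : 0 ≤ c) {k : ℕ} (hk : k ≤ K) {n m x y : ℤ} (hx : x ∈ iv k n)
    (hy : y ∈ iv k m) :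
    A x y - Rs A c ξ us K k x y =
      ∑ i ∈ act A c ξ us K k n m, comA A c i x * comB A c i y := by
  set r := rf A c ξ us K k n m with hr
  have hb := rf_bounds (A := A) (c := c) (ξ := ξ) (us := us) hk n m
  rw [← hr] at hb
  have ex := ix_ref hb.1 hx
  have ey := ix_ref hb.1 hy
  have hx' : x ∈ iv r (ix (r - k) n) := mem_iv.2 ex
  have hy' : y ∈ iv r (ix (r - k) m) := mem_iv.2 ey
  rw [Rs_eq hx hy, ← hr, Ug_eq A c hx' hy', frame_eq hc A hx' hy']
  unfold act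
  rw [← hr, sum_cset]
  refine sum_congr rfl fun x' hx'' => ?_
  rw [comA_of_mem hx' hx'', comB_of_mem hy' hx'']

/-- The active set changes at the resets only. -/
theorem act_inherit {k : ℕ} (hk : k < K) {n m : ℤ} (h : rf A c ξ us K k n m ≠ k) :
    act A c ξ us K k n m = act A c ξ us K (k + 1) (n / 2) (m / 2) := by
  have h1 := rf_inherit hk n m h
  have hb := rf_bounds (A := A) (c := c) (ξ := ξ) (us := us) (by omega : k + 1 ≤ K) (n / 2) (m / 2)
  unfold act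
  rw [h1]
  set r := rf A c ξ us K (k + 1) (n / 2) (m / 2)
  have e : ∀ n : ℤ, ix (r - k) n = ix (r - (k + 1)) (n / 2) := by
    intro n
    have h2 : r - k = 1 + (r - (k + 1)) := by omega
    rw [h2, ← ix_ix 1 (r - (k + 1)) n]
    have h3 : ix 1 n = n / 2 := by unfold ix; norm_num
    rw [h3]
  rw [e n, e m]

/-! ### The masses -/

/-- **Mass of the first functions** of the active components. -/
theorem massA (hc : 0 ≤ c) {k : ℕ} (hk : k ≤ K) {n m : ℤ} {J : Finset ℤ} (hJ : J ⊆ iv k n)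
    {g : ℤ → ℝ} (hg : ∀ x ∈ J, 0 ≤ g x) :
    ∑ i ∈ act A c ξ us K k n m, ∑ x ∈ J, g x * comA A c i x ^ 2 ≤
      c / 2 * ∑ x ∈ J, g x * ((2 ^ rf A c ξ us K k n m : ℝ)⁻¹ *
        ∑ y ∈ iv (rf A c ξ us K k n m) (ix (rf A c ξ us K k n m - k) m), A x y ^ 2) := by
  set r := rf A c ξ us K k n m with hr
  have hb := rf_bounds (A := A) (c := c) (ξ := ξ) (us := us) hk n m
  rw [← hr] at hb
  unfold act
  rw [← hr, sum_cset, sum_comm, mul_sum]
  refine sum_le_sum fun x hx => ?_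
  have hx' : x ∈ iv r (ix (r - k) n) := mem_iv.2 (ix_ref hb.1 (hJ hx))
  have h1 := fa_row hc A (m := ix (r - k) m) hx'
  have h2 : ∑ x' ∈ iv r (ix (r - k) n), g x * comA A c (r, x', ix (r - k) m) x ^ 2 =
      g x * ∑ x' ∈ iv r (ix (r - k) n), fa A c r (ix (r - k) n) (ix (r - k) m) x' x ^ 2 := by
    rw [mul_sum]
    exact sum_congr rfl fun x' hx'' => by rw [comA_of_mem hx' hx'']
  rw [h2]
  refine (mul_le_mul_of_nonneg_left h1 (hg x hx)).trans (le_of_eq ?_)
  ring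

/-- **Mass of the second functions** of the active components. -/
theorem massB (hc : 0 ≤ c) {k : ℕ} (hk : k ≤ K) {n m : ℤ} {J : Finset ℤ} (hJ : J ⊆ iv k m)
    {g : ℤ → ℝ} (hg : ∀ y ∈ J, 0 ≤ g y) :
    ∑ i ∈ act A c ξ us K k n m, ∑ y ∈ J, g y * comB A c i y ^ 2 ≤
      ∑ y ∈ J, g y * ((2 ^ rf A c ξ us K k n m : ℝ)⁻¹ *
        ∑ x ∈ iv (rf A c ξ us K k n m) (ix (rf A c ξ us K k n m - k) n), A x y ^ 2) := by
  set r := rf A c ξ us K k n m with hr
  have hb := rf_bounds (A := A) (c := c) (ξ := ξ) (us := us) hk n m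
  rw [← hr] at hb
  unfold act
  rw [← hr, sum_cset, sum_comm]
  refine sum_le_sum fun y hy => ?_
  have hy' : y ∈ iv r (ix (r - k) m) := mem_iv.2 (ix_ref hb.1 (hJ hy))
  have h1 := fb_col hc A (n := ix (r - k) n) hy'
  have h2 : ∑ x' ∈ iv r (ix (r - k) n), g y * comB A c (r, x', ix (r - k) m) y ^ 2 =
      g y * ∑ x' ∈ iv r (ix (r - k) n), fb A c r (ix (r - k) n) (ix (r - k) m) x' y ^ 2 := by
    rw [mul_sum]
    exact sum_congr rfl fun x' hx'' => by rw [comB_of_mem hy' hx'']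
  rw [h2]
  exact mul_le_mul_of_nonneg_left h1 (hg y hy)

/-- **Mass of the first functions**, rows of `A` on the reference square bounded by `ρ`. -/
theorem massA_le (hc : 0 ≤ c) {k : ℕ} (hk : k ≤ K) {n m : ℤ} {J : Finset ℤ} (hJ : J ⊆ iv k n)
    {g ρ : ℤ → ℝ} (hg : ∀ x ∈ J, 0 ≤ g x)
    (hρ : ∀ x ∈ J, ∑ y ∈ iv (rf A c ξ us K k n m) (ix (rf A c ξ us K k n m - k) m), A x y ^ 2 ≤
      ρ x * 2 ^ rf A c ξ us K k n m) :
    ∑ i ∈ act A c ξ us K k n m, ∑ x ∈ J, g x * comA A c i x ^ 2 ≤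
      c / 2 * ∑ x ∈ J, g x * ρ x := by
  refine (massA hc hk hJ hg).trans ?_
  refine mul_le_mul_of_nonneg_left (sum_le_sum fun x hx => ?_) (by positivity)
  refine mul_le_mul_of_nonneg_left ?_ (hg x hx)
  rw [inv_mul_le_iff₀ (by positivity), mul_comm]
  exact hρ x hx

/-- **Mass of the second functions**, columns of `A` on the reference square bounded by `ρ`. -/
theorem massB_le (hc : 0 ≤ c) {k : ℕ} (hk : k ≤ K) {n m : ℤ} {J : Finset ℤ} (hJ : J ⊆ iv k m)
    {g ρ : ℤ → ℝ} (hg : ∀ y ∈ J, 0 ≤ g y)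
    (hρ : ∀ y ∈ J, ∑ x ∈ iv (rf A c ξ us K k n m) (ix (rf A c ξ us K k n m - k) n), A x y ^ 2 ≤
      ρ y * 2 ^ rf A c ξ us K k n m) :
    ∑ i ∈ act A c ξ us K k n m, ∑ y ∈ J, g y * comB A c i y ^ 2 ≤ ∑ y ∈ J, g y * ρ y := by
  refine (massB hc hk hJ hg).trans ?_
  refine sum_le_sum fun y hy => ?_
  refine mul_le_mul_of_nonneg_left ?_ (hg y hy)
  rw [inv_mul_le_iff₀ (by positivity), mul_comm]
  exact hρ y hy

/-- rows of a kernel of the form (edge) * (lift): line averages of the lift at most `Λ` -/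
theorem row_struct {h Λ : ℝ} {e2 e3 : ℤ → ℝ} {G : ℤ → ℤ → ℝ} {r : ℕ} {m x : ℤ}
    (h2 : 0 ≤ e2 x) (h3 : ∀ y, e3 y ≤ 1)
    (hA : ∀ y, A x y ^ 2 ≤ h ^ 2 * (e2 x * e3 y) * G x y ^ 2)
    (hG : ∑ y ∈ iv r m, G x y ^ 2 ≤ Λ * 2 ^ r) :
    ∑ y ∈ iv r m, A x y ^ 2 ≤ h ^ 2 * Λ * e2 x * 2 ^ r := by
  have h1 : ∑ y ∈ iv r m, A x y ^ 2 ≤ ∑ y ∈ iv r m, h ^ 2 * e2 x * G x y ^ 2 := by
    refine sum_le_sum fun y _ => (hA y).trans ?_
    have h4 : e2 x * e3 y ≤ e2 x := mul_le_of_le_one_right h2 (h3 y)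
    have h5 := mul_le_mul_of_nonneg_left h4 (sq_nonneg h)
    exact mul_le_mul_of_nonneg_right h5 (sq_nonneg _)
  rw [← mul_sum] at h1
  have h2' := mul_le_mul_of_nonneg_left hG (mul_nonneg (sq_nonneg h) h2)
  refine h1.trans (h2'.trans (le_of_eq ?_))
  ring

/-- the first active set: the components of the root square -/
theorem act_top (n m : ℤ) : act A c ξ us K K n m = cset K n m := by
  unfold act
  rw [rf_top, Nat.sub_self, ix_zero, ix_zero]

/-- a reset square (below the root) is a square in use -/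
theorem us_of_reset {k : ℕ} (hk : k < K) {n m : ℤ} (h : rf A c ξ us K k n m = k) :
    us k n m := by
  classical
  have h2 := rf_step (A := A) (c := c) (ξ := ξ) (us := us) hk n m
  by_contra hnu
  rw [if_neg (fun h => hnu h.1), h] at h2
  have := (rf_bounds (A := A) (c := c) (ξ := ξ) (us := us)
    (by omega : k + 1 ≤ K) (n / 2) (m / 2)).1
  omega

/-- the reference square is the root or a square in use -/
theorem us_ref {k : ℕ} (hk : k ≤ K) (n m : ℤ) :
    rf A c ξ us K k n m = K ∨ us (rf A c ξ us K k n m)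
      (ix (rf A c ξ us K k n m - k) n) (ix (rf A c ξ us K k n m - k) m) := by
  have key : ∀ d k, k + d = K → ∀ n m, rf A c ξ us K k n m = K ∨ us (rf A c ξ us K k n m)
      (ix (rf A c ξ us K k n m - k) n) (ix (rf A c ξ us K k n m - k) m) := by
    intro d
    induction d with
    | zero =>
      intro k hk n m
      have : k = K := by omega
      subst this
      exact Or.inl (rf_top n m)
    | succ d ih =>
      intro k hk n m
      by_cases hR : rf A c ξ us K k n m = k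
      · right
        rw [hR, Nat.sub_self, ix_zero, ix_zero]
        exact us_of_reset (by omega) hR
      · have h1 := ih (k + 1) (by omega) (n / 2) (m / 2)
        have h2 := rf_inherit (by omega : k < K) n m hR
        have hb := rf_bounds (A := A) (c := c) (ξ := ξ) (us := us)
          (by omega : k + 1 ≤ K) (n / 2) (m / 2)
        rw [h2]
        set r := rf A c ξ us K (k + 1) (n / 2) (m / 2)
        have e : ∀ n : ℤ, ix (r - k) n = ix (r - (k + 1)) (n / 2) := by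
          intro n
          have h2 : r - k = 1 + (r - (k + 1)) := by omega
          rw [h2, ← ix_ix 1 (r - (k + 1)) n]
          have h3 : ix 1 n = n / 2 := by unfold ix; norm_num
          rw [h3]
        rw [e n, e m]
        exact h1
  exact key (K - k) k (by omega) n m

end

end Vale.Agent.P141.H443
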