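import Vale.Agent.P141.H443.Frame
import Vale.Agent.P141.H150.Alive
import Vale.Agent.P141.H337.Ridge3

/-!
# P141, line W, end lemma: the alive mass at every fibre and every square (`hL` of `Tree1`)

One atom, its translates `θ` in the plane `el c θ = 0`, frame kernels `B θ` (reference square of
scale `r θ ≥ j`) and current plane kernels `A θ`, the square `J = (j; n, m)`.  For the shifts
`θ ∈ T` whose current kernel is visible on `J` (`ξ 4 ^ j ≤ E2`) the total mass of the components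
on `J` is at most `C M h / ξ · D1 D2 D3 · Λ · 4 ^ k`.

* `massA_cset`, `massB_cset`: masses of the components of any reference square;
* `card_cl_win`: the number of the cells of the shifts of a window;
* `lsup_a`, `lsup_b`: the two sides, one atom, one square;
* `ms_cover4`, `ms_child`: sums over the atoms and the squares of a window; children.
-/

namespace Vale.Agent.P141.H443

open Finset Vale.Agent.P141.PL Vale.Agent.P141.PL.H317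
open Vale.Agent.P141.PL.H315 (Tri avg avg_nonneg)
open Vale.Agent.P141.H337 (ivm ms card_ivm)
open Vale.Agent.P141.H150 (InPl cl shift_sum card_cl_le)

noncomputable section

/-! ### Masses of the components of a reference square -/

theorem massA_cset {A : ℤ → ℤ → ℝ} {c : ℝ} (hc : 0 ≤ c) {k r : ℕ} (hkr : k ≤ r) {n m' : ℤ}
    {J : Finset ℤ} (hJ : J ⊆ iv k n) {g : ℤ → ℝ} (hg : ∀ x ∈ J, 0 ≤ g x) :
    ∑ i ∈ cset r (ix (r - k) n) m', ∑ x ∈ J, g x * comA A c i x ^ 2 ≤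
      c / 2 * ∑ x ∈ J, g x * ((2 ^ r : ℝ)⁻¹ * ∑ y ∈ iv r m', A x y ^ 2) := by
  rw [sum_cset, sum_comm, mul_sum]
  refine sum_le_sum fun x hx => ?_
  have hx' : x ∈ iv r (ix (r - k) n) := mem_iv.2 (ix_ref hkr (hJ hx))
  have h1 := fa_row hc A (m := m') hx'
  have h2 : ∑ x' ∈ iv r (ix (r - k) n), g x * comA A c (r, x', m') x ^ 2 =
      g x * ∑ x' ∈ iv r (ix (r - k) n), fa A c r (ix (r - k) n) m' x' x ^ 2 := by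
    rw [mul_sum]
    exact sum_congr rfl fun x' hx'' => by rw [comA_of_mem hx' hx'']
  rw [h2]
  refine (mul_le_mul_of_nonneg_left h1 (hg x hx)).trans (le_of_eq ?_)
  ring

theorem massB_cset {A : ℤ → ℤ → ℝ} {c : ℝ} (hc : 0 ≤ c) {k r : ℕ} (hkr : k ≤ r) {n' m : ℤ}
    {J : Finset ℤ} (hJ : J ⊆ iv k m) {g : ℤ → ℝ} (hg : ∀ y ∈ J, 0 ≤ g y) :
    ∑ i ∈ cset r n' (ix (r - k) m), ∑ y ∈ J, g y * comB A c i y ^ 2 ≤
      ∑ y ∈ J, g y * ((2 ^ r : ℝ)⁻¹ * ∑ x ∈ iv r n', A x y ^ 2) := by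
  rw [sum_cset, sum_comm]
  refine sum_le_sum fun y hy => ?_
  have hy' : y ∈ iv r (ix (r - k) m) := mem_iv.2 (ix_ref hkr (hJ hy))
  have h1 := fb_col hc A (n := n') hy'
  have h2 : ∑ x' ∈ iv r n', g y * comB A c (r, x', ix (r - k) m) y ^ 2 =
      g y * ∑ x' ∈ iv r n', fb A c r n' (ix (r - k) m) x' y ^ 2 := by
    rw [mul_sum]
    exact sum_congr rfl fun x' hx'' => by rw [comB_of_mem hy' hx'']
  rw [h2]
  exact mul_le_mul_of_nonneg_left h1 (hg y hy)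

/-! ### The number of the cells of the shifts -/

theorem card_cl_win {p1 p2 p3 : ℤ} (hp : p1 ≠ 0) (b2 : |p2| ≤ 4) (b3 : |p3| ≤ 4)
    {T : Finset (ℤ × ℤ × ℤ)} (hT : InPl p1 p2 p3 T) {j k : ℕ} (hjk : j ≤ k) {a2 a3 : ℤ}
    (hb : ∀ t ∈ T, (a2 ≤ t.2.1 ∧ t.2.1 < a2 + 2 ^ (k + 1)) ∧
      (a3 ≤ t.2.2 ∧ t.2.2 < a3 + 2 ^ (k + 1))) :
    ((T.image (cl j)).card : ℝ) * 4 ^ j ≤ 2176 * 4 ^ k := by
  classical
  rcases T.eq_empty_or_nonempty with rfl | ⟨t0, ht0⟩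
  · rw [image_empty, card_empty, Nat.cast_zero, zero_mul]; positivity
  set S : Finset (ℤ × ℤ × ℤ) := T.image fun t => (t.1 - t0.1, t.2.1 - t0.2.1, t.2.2 - t0.2.2)
    with hS
  have hSP : InPl p1 p2 p3 S := by
    intro s hs
    obtain ⟨t, ht, rfl⟩ := mem_image.1 hs
    have e1 := hT t ht
    have e2 := hT t0 ht0
    show p1 * (t.1 - t0.1) + p2 * (t.2.1 - t0.2.1) + p3 * (t.2.2 - t0.2.2) = 0
    linear_combination e1 - e2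
  have hSb : ∀ s ∈ S, (-2 ^ (k + 1) ≤ s.2.1 ∧ s.2.1 < 2 ^ (k + 1)) ∧
      (-2 ^ (k + 1) ≤ s.2.2 ∧ s.2.2 < 2 ^ (k + 1)) := by
    intro s hs
    obtain ⟨t, ht, rfl⟩ := mem_image.1 hs
    have e1 := hb t ht
    have e2 := hb t0 ht0
    refine ⟨⟨?_, ?_⟩, ?_, ?_⟩ <;> simp only <;> linarith [e1.1.1, e1.1.2, e1.2.1, e1.2.2,
      e2.1.1, e2.1.2, e2.2.1, e2.2.2]
  have h1 := card_cl_le hp b2 b3 hSP (by omega : j ≤ k + 1) hSb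
  have h2j : (0 : ℤ) < 2 ^ j := by positivity
  -- every cell of `T` comes from a cell of `S` and a carry
  set G : (ℤ × ℤ × ℤ) × (ℤ × ℤ × ℤ) → ℤ × ℤ × ℤ := fun w =>
    (w.1.1 + t0.1 / 2 ^ j + w.2.1, w.1.2.1 + t0.2.1 / 2 ^ j + w.2.2.1,
      w.1.2.2 + t0.2.2 / 2 ^ j + w.2.2.2) with hG
  have carry : ∀ a b : ℤ, ∃ e ∈ Icc (0 : ℤ) 1, (a + b) / 2 ^ j = a / 2 ^ j + b / 2 ^ j + e := by
    intro a b
    have d1 := H150.div_bounds j a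
    have d2 := H150.div_bounds j b
    have d3 := H150.div_bounds j (a + b)
    refine ⟨(a + b) / 2 ^ j - a / 2 ^ j - b / 2 ^ j, ?_, by ring⟩
    rw [mem_Icc]
    set u := a / 2 ^ j
    set v := b / 2 ^ j
    set w := (a + b) / 2 ^ j
    constructor
    · by_contra h
      have h' : w - u - v ≤ -1 := by omega
      have := mul_le_mul_of_nonneg_left h' h2j.le
      nlinarith [d1.1, d2.1, d3.2]
    · by_contra h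
      have h' : 2 ≤ w - u - v := by omega
      have := mul_le_mul_of_nonneg_left h' h2j.le
      nlinarith [d1.2, d2.2, d3.1]
  have hsub : T.image (cl j) ⊆
      ((S.image (cl j)) ×ˢ (Icc (0 : ℤ) 1 ×ˢ Icc (0 : ℤ) 1 ×ˢ Icc (0 : ℤ) 1)).image G := by
    intro a ha
    obtain ⟨t, ht, rfl⟩ := mem_image.1 ha
    obtain ⟨e1, he1, q1⟩ := carry (t.1 - t0.1) t0.1
    obtain ⟨e2, he2, q2⟩ := carry (t.2.1 - t0.2.1) t0.2.1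
    obtain ⟨e3, he3, q3⟩ := carry (t.2.2 - t0.2.2) t0.2.2
    rw [sub_add_cancel] at q1 q2 q3
    refine mem_image.2 ⟨(cl j (t.1 - t0.1, t.2.1 - t0.2.1, t.2.2 - t0.2.2), (e1, e2, e3)), ?_, ?_⟩
    · refine mem_product.2 ⟨mem_image_of_mem _ (mem_image_of_mem _ ht), ?_⟩
      exact mem_product.2 ⟨he1, mem_product.2 ⟨he2, he3⟩⟩
    · rw [hG]
      unfold cl
      simp only
      rw [q1, q2, q3]
  have h3 : (T.image (cl j)).card ≤ (S.image (cl j)).card * 8 := by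
    refine (card_le_card hsub).trans (card_image_le.trans (le_of_eq ?_))
    rw [card_product, card_product, card_product, Int.card_Icc]
    rfl
  have h4 : ((T.image (cl j)).card : ℝ) ≤ (S.image (cl j)).card * 8 := by exact_mod_cast h3
  calc ((T.image (cl j)).card : ℝ) * 4 ^ j ≤ ((S.image (cl j)).card * 8) * 4 ^ j :=
        mul_le_mul_of_nonneg_right h4 (by positivity)
    _ = 8 * ((S.image (cl j)).card * 4 ^ j) := by ring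
    _ ≤ 8 * (68 * 4 ^ (k + 1)) := mul_le_mul_of_nonneg_left h1 (by norm_num)
    _ = _ := by ring

/-- `H150.alive_mass` for shifts in a window -/
theorem alive_mass_win {p1 p2 p3 q2 q3 : ℤ} (hD : p2 * q3 - p3 * q2 ≠ 0) (hp : p1 ≠ 0)
    (b2 : |p2| ≤ 4) (b3 : |p3| ≤ 4)
    {T : Finset (ℤ × ℤ × ℤ)} (hT : InPl p1 p2 p3 T) {j k : ℕ} (hjk : j ≤ k) {a2 a3 : ℤ}
    (hb : ∀ t ∈ T, (a2 ≤ t.2.1 ∧ t.2.1 < a2 + 2 ^ (k + 1)) ∧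
      (a3 ≤ t.2.2 ∧ t.2.2 < a3 + 2 ^ (k + 1)))
    {f1 f2 f3 : ℤ → ℝ} (h1 : ∀ a, 0 ≤ f1 a)
    (h2 : ∀ a, 0 ≤ f2 a) (h3 : ∀ a, 0 ≤ f3 a) (g : ℤ → ℝ) {x1 c0 : ℤ} {n1 n2 n3 : ℤ}
    (hx1 : x1 ∈ ivm j n1) {D1 D2 D3 Λ : ℝ} (D10 : 0 ≤ D1) (D20 : 0 ≤ D2) (D30 : 0 ≤ D3)
    {N : Finset ℤ}
    (d1 : ∀ t ∈ T, ∑ y ∈ Ico (2 ^ j * n1 + t.1) (2 ^ j * n1 + t.1 + 2 ^ j), f1 y ≤ D1 * 2 ^ j)
    (d2 : ∀ t ∈ T, ∑ y ∈ Ico (2 ^ j * n2 + t.2.1) (2 ^ j * n2 + t.2.1 + 2 ^ j), f2 y ≤ D2 * 2 ^ j)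
    (d3 : ∀ t ∈ T, ∑ y ∈ Ico (2 ^ j * n3 + t.2.2) (2 ^ j * n3 + t.2.2 + 2 ^ j), f3 y ≤ D3 * 2 ^ j)
    (hN : ∀ x ∈ ivm j n2, ∀ y ∈ ivm j n3, c0 + q2 * x + q3 * y ∈ N)
    (hg : ∑ n ∈ N, g n ^ 2 ≤ Λ * 2 ^ j)
    {mass : ℤ × ℤ × ℤ → ℝ} {M h ξ : ℝ} (hM : 0 ≤ M) (hξ : 0 < ξ)
    (hm : ∀ t ∈ T, mass t ≤ M * f1 (x1 + t.1))
    (hE : ∀ t ∈ T, ξ * 4 ^ j ≤ h ^ 2 * ∑ x ∈ ivm j n2, ∑ y ∈ ivm j n3,
      f2 (x + t.2.1) * f3 (y + t.2.2) * g (c0 + q2 * x + q3 * y) ^ 2) :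
    ∑ t ∈ T, mass t ≤ 17408 * (M * h ^ 2 / ξ) * (D1 * D2 * D3) * Λ * 4 ^ k := by
  classical
  have h4 : (0 : ℝ) < 4 ^ j := by positivity
  have hs : ∑ t ∈ T, ∑ x ∈ ivm j n2, ∑ y ∈ ivm j n3,
        f1 (x1 + t.1) * f2 (x + t.2.1) * f3 (y + t.2.2) * g (c0 + q2 * x + q3 * y) ^ 2 ≤
      17408 * (D1 * D2 * D3) * Λ * 4 ^ k * 4 ^ j := by
    refine (shift_sum hD hT h1 h2 h3 g hx1 d1 d2 d3 hN).trans ?_
    have hc := card_cl_win hp b2 b3 hT hjk hb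
    have hS : 0 ≤ ∑ n ∈ N, g n ^ 2 := sum_nonneg fun _ _ => sq_nonneg _
    have e4 : (4 : ℝ) ^ j = 2 ^ j * 2 ^ j := by rw [← mul_pow]; norm_num
    have h5 : 8 * (D1 * 2 ^ j * (D2 * 2 ^ j) * (D3 * 2 ^ j)) * ∑ n ∈ N, g n ^ 2 ≤
        8 * (D1 * D2 * D3) * Λ * (4 ^ j * 4 ^ j) := by
      have h6 : 0 ≤ 8 * (D1 * 2 ^ j * (D2 * 2 ^ j) * (D3 * 2 ^ j)) := by positivity
      refine (mul_le_mul_of_nonneg_left hg h6).trans (le_of_eq ?_)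
      rw [e4]; ring
    have h7 : 0 ≤ 8 * (D1 * D2 * D3) * Λ := by
      have hΛ : 0 ≤ Λ := by
        by_contra h
        push Not at h
        have : Λ * 2 ^ j < 0 := mul_neg_of_neg_of_pos h (by positivity)
        linarith
      positivity
    calc ((T.image (cl j)).card : ℝ) *
          (8 * (D1 * 2 ^ j * (D2 * 2 ^ j) * (D3 * 2 ^ j)) * ∑ n ∈ N, g n ^ 2)
        ≤ (T.image (cl j)).card * (8 * (D1 * D2 * D3) * Λ * (4 ^ j * 4 ^ j)) :=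
          mul_le_mul_of_nonneg_left h5 (Nat.cast_nonneg _)
      _ = (8 * (D1 * D2 * D3) * Λ * 4 ^ j) * ((T.image (cl j)).card * 4 ^ j) := by ring
      _ ≤ (8 * (D1 * D2 * D3) * Λ * 4 ^ j) * (2176 * 4 ^ k) :=
          mul_le_mul_of_nonneg_left hc (by positivity)
      _ = _ := by ring
  have h5 : ∀ t ∈ T, mass t ≤ M * h ^ 2 / (ξ * 4 ^ j) *
      ∑ x ∈ ivm j n2, ∑ y ∈ ivm j n3,
        f1 (x1 + t.1) * f2 (x + t.2.1) * f3 (y + t.2.2) * g (c0 + q2 * x + q3 * y) ^ 2 := by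
    intro t ht
    refine (hm t ht).trans ?_
    have h6 : ∑ x ∈ ivm j n2, ∑ y ∈ ivm j n3,
        f1 (x1 + t.1) * f2 (x + t.2.1) * f3 (y + t.2.2) * g (c0 + q2 * x + q3 * y) ^ 2 =
        f1 (x1 + t.1) * ∑ x ∈ ivm j n2, ∑ y ∈ ivm j n3,
          f2 (x + t.2.1) * f3 (y + t.2.2) * g (c0 + q2 * x + q3 * y) ^ 2 := by
      rw [mul_sum]
      refine sum_congr rfl fun x _ => ?_
      rw [mul_sum]
      exact sum_congr rfl fun y _ => by ring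
    rw [h6]
    have h7 : 0 ≤ M * f1 (x1 + t.1) / (ξ * 4 ^ j) :=
      div_nonneg (mul_nonneg hM (h1 _)) (by positivity)
    calc M * f1 (x1 + t.1) = M * f1 (x1 + t.1) / (ξ * 4 ^ j) * (ξ * 4 ^ j) := by
          field_simp
      _ ≤ M * f1 (x1 + t.1) / (ξ * 4 ^ j) * (h ^ 2 * ∑ x ∈ ivm j n2, ∑ y ∈ ivm j n3,
          f2 (x + t.2.1) * f3 (y + t.2.2) * g (c0 + q2 * x + q3 * y) ^ 2) :=
          mul_le_mul_of_nonneg_left (hE t ht) h7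
      _ = _ := by ring
  refine (sum_le_sum h5).trans ?_
  rw [← mul_sum]
  have h8 : 0 ≤ M * h ^ 2 / (ξ * 4 ^ j) := by positivity
  refine (mul_le_mul_of_nonneg_left hs h8).trans (le_of_eq ?_)
  field_simp

/-! ### One atom, one square -/

/-- shifted sums -/
theorem sum_shift (f : ℤ → ℝ) (j : ℕ) (n t : ℤ) :
    ∑ x ∈ iv j n, f (x + t) = ∑ y ∈ Ico (2 ^ j * n + t) (2 ^ j * n + t + 2 ^ j), f y := by
  refine sum_bij (fun x _ => x + t) ?_ ?_ ?_ ?_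
  · intro x hx
    unfold iv at hx
    rw [mem_Ico] at hx ⊢
    constructor <;> linarith [hx.1, hx.2]
  · intro x _ y _ h
    linarith
  · intro y hy
    rw [mem_Ico] at hy
    refine ⟨y - t, ?_, by ring⟩
    unfold iv
    rw [mem_Ico]
    constructor <;> linarith [hy.1, hy.2]
  · intro x _; rfl

theorem iv_eq_ivm (j : ℕ) (n : ℤ) : iv j n = ivm j n := rfl

section

variable {c : ℤ × ℤ × ℤ} {q2 q3 : ℤ} {T : Finset (ℤ × ℤ × ℤ)} {j k : ℕ} {a2 a3 : ℤ}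
  {f1 f2 f3 : ℤ → ℝ} {h12 h13 h23 ρ cp ξ : ℝ}
  {g : ℤ → ℝ} {x1 s0 n1 n m : ℤ} {D1 D2 D3 Λ : ℝ} {N : Finset ℤ} {r : ℤ × ℤ × ℤ → ℕ}
  {m' n' : ℤ × ℤ × ℤ → ℤ} {dd : ℤ × ℤ × ℤ → ℤ → ℝ} {A B : ℤ × ℤ × ℤ → ℤ → ℤ → ℝ}

/-- **The alive mass, first side**: the functions `dd θ · comA (B θ)` on `iv j n`; the frames come
from the kernels `B θ`, the current kernels are `A θ`. -/
theorem lsup_a (hD : c.2.1 * q3 - c.2.2 * q2 ≠ 0) (hc1 : c.1 ≠ 0) (b2 : |c.2.1| ≤ 4)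
    (b3 : |c.2.2| ≤ 4) (hT : InPl c.1 c.2.1 c.2.2 T) (hjk : j ≤ k)
    (hb : ∀ t ∈ T, (a2 ≤ t.2.1 ∧ t.2.1 < a2 + 2 ^ (k + 1)) ∧
      (a3 ≤ t.2.2 ∧ t.2.2 < a3 + 2 ^ (k + 1)))
    (p1 : ∀ a, 0 ≤ f1 a) (p2 : ∀ a, 0 ≤ f2 a) (p3 : ∀ a, 0 ≤ f3 a)
    (hx1 : x1 ∈ iv j n1) (D10 : 0 ≤ D1) (D20 : 0 ≤ D2) (D30 : 0 ≤ D3)
    (d1 : ∀ t ∈ T, ∑ y ∈ Ico (2 ^ j * n1 + t.1) (2 ^ j * n1 + t.1 + 2 ^ j), f1 y ≤ D1 * 2 ^ j)
    (d2 : ∀ t ∈ T, ∑ y ∈ Ico (2 ^ j * n + t.2.1) (2 ^ j * n + t.2.1 + 2 ^ j), f2 y ≤ D2 * 2 ^ j)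
    (d3 : ∀ t ∈ T, ∑ y ∈ Ico (2 ^ j * m + t.2.2) (2 ^ j * m + t.2.2 + 2 ^ j), f3 y ≤ D3 * 2 ^ j)
    (hN : ∀ x ∈ iv j n, ∀ y ∈ iv j m, s0 + q2 * x + q3 * y ∈ N)
    (hg : ∑ w ∈ N, g w ^ 2 ≤ Λ * 2 ^ j) (hcp : 0 ≤ cp) (hξ : 0 < ξ) (hρ : 0 ≤ ρ)
    (hdd : ∀ t ∈ T, ∀ x ∈ iv j n, dd t x ^ 2 ≤ h12 ^ 2 * f1 (x1 + t.1))
    (hr : ∀ t ∈ T, j ≤ r t)
    (hrow : ∀ t ∈ T, ∀ x ∈ iv j n, (2 ^ r t : ℝ)⁻¹ * ∑ y ∈ iv (r t) (m' t), B t x y ^ 2 ≤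
      ρ * f2 (x + t.2.1))
    (hA : ∀ t ∈ T, ∀ x ∈ iv j n, ∀ y ∈ iv j m, A t x y ^ 2 ≤
      h23 ^ 2 * (f2 (x + t.2.1) * f3 (y + t.2.2)) * g (s0 + q2 * x + q3 * y) ^ 2)
    (hvis : ∀ t ∈ T, ξ * 4 ^ j ≤ E2 (iv j n) (iv j m) (A t)) :
    ∑ t ∈ T, ∑ i ∈ cset (r t) (ix (r t - j) n) (m' t), ∑ x ∈ iv j n,
        dd t x ^ 2 * comA (B t) cp i x ^ 2 ≤
      17408 * (cp / 2 * (h12 ^ 2 * ρ) * (D2 * 2 ^ j) * h23 ^ 2 / ξ) * (D1 * D2 * D3) *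
        Λ * 4 ^ k := by
  refine alive_mass_win (p1 := c.1) hD hc1 b2 b3 hT hjk hb p1 p2 p3 g (c0 := s0) (n2 := n)
    (n3 := m) hx1 D10 D20 D30 d1 d2 d3 hN hg (by positivity) hξ ?_ ?_
  · intro t ht
    refine (massA_cset hcp (hr t ht) (Subset.refl _) fun x _ => sq_nonneg _).trans ?_
    have h1 : ∀ x ∈ iv j n, dd t x ^ 2 *
        ((2 ^ r t : ℝ)⁻¹ * ∑ y ∈ iv (r t) (m' t), B t x y ^ 2) ≤
        h12 ^ 2 * ρ * f1 (x1 + t.1) * f2 (x + t.2.1) := by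
      intro x hx
      have h7 : 0 ≤ (2 ^ r t : ℝ)⁻¹ * ∑ y ∈ iv (r t) (m' t), B t x y ^ 2 :=
        mul_nonneg (by positivity) (sum_nonneg fun _ _ => sq_nonneg _)
      refine (mul_le_mul (hdd t ht x hx) (hrow t ht x hx) h7
        (mul_nonneg (sq_nonneg _) (p1 _))).trans (le_of_eq ?_)
      ring
    have h8 := sum_le_sum h1
    rw [← mul_sum, sum_shift] at h8
    have h9 : 0 ≤ h12 ^ 2 * ρ * f1 (x1 + t.1) := mul_nonneg (by positivity) (p1 _)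
    have h10 := h8.trans (mul_le_mul_of_nonneg_left (d2 t ht) h9)
    refine (mul_le_mul_of_nonneg_left h10 (by positivity)).trans (le_of_eq ?_)
    ring
  · intro t ht
    refine (hvis t ht).trans ?_
    unfold E2
    rw [mul_sum]
    refine sum_le_sum fun x hx => ?_
    rw [mul_sum]
    refine sum_le_sum fun y hy => (hA t ht x hx y hy).trans (le_of_eq ?_)
    ring

/-- **The alive mass, second side**: the functions `dd θ · comB (B θ)` on `iv j m`. -/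
theorem lsup_b (hD : c.2.1 * q3 - c.2.2 * q2 ≠ 0) (hc1 : c.1 ≠ 0) (b2 : |c.2.1| ≤ 4)
    (b3 : |c.2.2| ≤ 4) (hT : InPl c.1 c.2.1 c.2.2 T) (hjk : j ≤ k)
    (hb : ∀ t ∈ T, (a2 ≤ t.2.1 ∧ t.2.1 < a2 + 2 ^ (k + 1)) ∧
      (a3 ≤ t.2.2 ∧ t.2.2 < a3 + 2 ^ (k + 1)))
    (p1 : ∀ a, 0 ≤ f1 a) (p2 : ∀ a, 0 ≤ f2 a) (p3 : ∀ a, 0 ≤ f3 a)
    (hx1 : x1 ∈ iv j n1) (D10 : 0 ≤ D1) (D20 : 0 ≤ D2) (D30 : 0 ≤ D3)
    (d1 : ∀ t ∈ T, ∑ y ∈ Ico (2 ^ j * n1 + t.1) (2 ^ j * n1 + t.1 + 2 ^ j), f1 y ≤ D1 * 2 ^ j)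
    (d2 : ∀ t ∈ T, ∑ y ∈ Ico (2 ^ j * n + t.2.1) (2 ^ j * n + t.2.1 + 2 ^ j), f2 y ≤ D2 * 2 ^ j)
    (d3 : ∀ t ∈ T, ∑ y ∈ Ico (2 ^ j * m + t.2.2) (2 ^ j * m + t.2.2 + 2 ^ j), f3 y ≤ D3 * 2 ^ j)
    (hN : ∀ x ∈ iv j n, ∀ y ∈ iv j m, s0 + q2 * x + q3 * y ∈ N)
    (hg : ∑ w ∈ N, g w ^ 2 ≤ Λ * 2 ^ j) (hcp : 0 ≤ cp) (hξ : 0 < ξ) (hρ : 0 ≤ ρ)
    (hdd : ∀ t ∈ T, ∀ y ∈ iv j m, dd t y ^ 2 ≤ h13 ^ 2 * f1 (x1 + t.1))
    (hr : ∀ t ∈ T, j ≤ r t)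
    (hcol : ∀ t ∈ T, ∀ y ∈ iv j m, (2 ^ r t : ℝ)⁻¹ * ∑ x ∈ iv (r t) (n' t), B t x y ^ 2 ≤
      ρ * f3 (y + t.2.2))
    (hA : ∀ t ∈ T, ∀ x ∈ iv j n, ∀ y ∈ iv j m, A t x y ^ 2 ≤
      h23 ^ 2 * (f2 (x + t.2.1) * f3 (y + t.2.2)) * g (s0 + q2 * x + q3 * y) ^ 2)
    (hvis : ∀ t ∈ T, ξ * 4 ^ j ≤ E2 (iv j n) (iv j m) (A t)) :
    ∑ t ∈ T, ∑ i ∈ cset (r t) (n' t) (ix (r t - j) m), ∑ y ∈ iv j m,
        dd t y ^ 2 * comB (B t) cp i y ^ 2 ≤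
      17408 * (h13 ^ 2 * ρ * (D3 * 2 ^ j) * h23 ^ 2 / ξ) * (D1 * D2 * D3) * Λ * 4 ^ k := by
  refine alive_mass_win (p1 := c.1) hD hc1 b2 b3 hT hjk hb p1 p2 p3 g (c0 := s0) (n2 := n)
    (n3 := m) hx1 D10 D20 D30 d1 d2 d3 hN hg (by positivity) hξ ?_ ?_
  · intro t ht
    refine (massB_cset hcp (hr t ht) (Subset.refl _) fun x _ => sq_nonneg _).trans ?_
    have h1 : ∀ y ∈ iv j m, dd t y ^ 2 *
        ((2 ^ r t : ℝ)⁻¹ * ∑ x ∈ iv (r t) (n' t), B t x y ^ 2) ≤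
        h13 ^ 2 * ρ * f1 (x1 + t.1) * f3 (y + t.2.2) := by
      intro y hy
      have h7 : 0 ≤ (2 ^ r t : ℝ)⁻¹ * ∑ x ∈ iv (r t) (n' t), B t x y ^ 2 :=
        mul_nonneg (by positivity) (sum_nonneg fun _ _ => sq_nonneg _)
      refine (mul_le_mul (hdd t ht y hy) (hcol t ht y hy) h7
        (mul_nonneg (sq_nonneg _) (p1 _))).trans (le_of_eq ?_)
      ring
    have h8 := sum_le_sum h1
    rw [← mul_sum, sum_shift] at h8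
    have h9 : 0 ≤ h13 ^ 2 * ρ * f1 (x1 + t.1) := mul_nonneg (by positivity) (p1 _)
    have h10 := h8.trans (mul_le_mul_of_nonneg_left (d3 t ht) h9)
    refine h10.trans (le_of_eq ?_)
    ring
  · intro t ht
    refine (hvis t ht).trans ?_
    unfold E2
    rw [mul_sum]
    refine sum_le_sum fun x hx => ?_
    rw [mul_sum]
    refine sum_le_sum fun y hy => (hA t ht x hx y hy).trans (le_of_eq ?_)
    ring

end

/-! ### Sums over the atoms and the windows -/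

/-- a set of indices covered by four sums -/
theorem ms_cover4 {Ω U : Type*} {a : Ω → ℤ → ℝ} {A : Finset Ω} {S : Finset U} {N : Finset ℤ}
    {T : U → ℤ → Finset (ℤ × ℤ × ℤ)} {C : U → ℤ → ℤ × ℤ × ℤ → Finset (ℕ × ℤ × ℤ)}
    {mk : U → ℤ × ℤ × ℤ → ℕ × ℤ × ℤ → Ω}
    (hc : ∀ w ∈ A, ∃ u ∈ S, ∃ m ∈ N, ∃ t ∈ T u m, ∃ i ∈ C u m t, mk u t i = w) (J : Finset ℤ) :
    ms a A J ≤ ∑ u ∈ S, ∑ m ∈ N, ∑ t ∈ T u m, ∑ i ∈ C u m t,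
      avg J fun x => a (mk u t i) x ^ 2 := by
  classical
  set V := S.sigma fun u => N.sigma fun m => (T u m).sigma fun t => C u m t with hV
  have h1 : A ⊆ V.image fun w => mk w.1 w.2.2.1 w.2.2.2 := by
    intro w hw
    obtain ⟨u, hu, m, hm, t, ht, i, hi, rfl⟩ := hc w hw
    refine mem_image.2 ⟨⟨u, m, t, i⟩, ?_, rfl⟩
    rw [hV]
    simp only [mem_sigma]
    exact ⟨hu, hm, ht, hi⟩
  have hp : ∀ w, 0 ≤ avg J fun x => a w x ^ 2 := fun w => avg_nonneg fun _ _ => sq_nonneg _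
  unfold ms
  refine (sum_le_sum_of_subset_of_nonneg h1 fun w _ _ => hp w).trans ?_
  have h2 : ∑ w ∈ V.image (fun w => mk w.1 w.2.2.1 w.2.2.2), avg J (fun x => a w x ^ 2) ≤
      ∑ w ∈ V, avg J fun x => a (mk w.1 w.2.2.1 w.2.2.2) x ^ 2 := by
    rw [← sum_fiberwise_of_maps_to (s := V) (t := V.image fun w => mk w.1 w.2.2.1 w.2.2.2)
      (g := fun w => mk w.1 w.2.2.1 w.2.2.2) fun w hw => mem_image_of_mem _ hw]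
    refine sum_le_sum fun w hw => ?_
    obtain ⟨v, hv, rfl⟩ := mem_image.1 hw
    have hm : v ∈ V.filter (fun w => mk w.1 w.2.2.1 w.2.2.2 = mk v.1 v.2.2.1 v.2.2.2) :=
      mem_filter.2 ⟨hv, rfl⟩
    exact single_le_sum (f := fun w : (u : U) × (m : ℤ) × (t : ℤ × ℤ × ℤ) × ℕ × ℤ × ℤ =>
      avg J fun x => a (mk w.1 w.2.2.1 w.2.2.2) x ^ 2) (fun w _ => hp _) hm
  refine h2.trans (le_of_eq ?_)
  rw [hV, sum_sigma]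
  refine sum_congr rfl fun u _ => ?_
  rw [sum_sigma]
  refine sum_congr rfl fun m _ => ?_
  rw [sum_sigma]

/-- the mass on a child -/
theorem ms_child {Ω : Type*} (a : Ω → ℤ → ℝ) (A : Finset Ω) (k : ℕ) (b : ℤ) :
    ms a A (ivm k b) ≤ 2 * ms a A (ivm (k + 1) (b / 2)) := by
  unfold ms
  rw [mul_sum]
  refine sum_le_sum fun i _ => ?_
  unfold avg
  rw [card_ivm, card_ivm, pow_succ]
  have h1 : ∑ x ∈ ivm k b, a i x ^ 2 ≤ ∑ x ∈ ivm (k + 1) (b / 2), a i x ^ 2 := by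
    refine sum_le_sum_of_subset_of_nonneg ?_ fun _ _ _ => sq_nonneg _
    intro x hx
    rw [H337.mem_ivm] at hx ⊢
    rw [pow_succ, ← Int.ediv_ediv_of_nonneg (by positivity), hx]
  push_cast
  rw [mul_inv]
  have h2 : (0 : ℝ) < (2 ^ k)⁻¹ := by positivity
  nlinarith [mul_le_mul_of_nonneg_left h1 h2.le]

end

end Vale.Agent.P141.H443
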