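import Vale.Agent.P141.H443.Lsup
import Vale.Agent.P141.H443.Exit
import Vale.Agent.P141.H150.MvA
import Vale.Agent.P141.H585.Ev

/-!
# P141, line W, end lemma: the alive mass of one atom at every fibre, in numbers

The atom is of vertex type (`VC`), the plane kernels are
`A θ k = (uT K q θ (mnA th E1 E2 E3 K k v)).2.2 · G k (s0 + q2 x + q3 y)`, moving process `Mv`.

* `line_le`, `form_mem`, `Cells.two`: line energies of a function from its energies on intervals;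
* `lvS_same`: the carriers do not change while a component is inherited;
* `La_atom`, `Lb_atom`: the alive mass of one atom, one `x1`, one square.
-/

namespace Vale.Agent.P141.H443

open Finset Vale.Agent.P141.PL Vale.Agent.P141.PL.H317
open Vale.Agent.P141.PL.H315 (Tri)
open Vale.Agent.P141.H150 (InPl)
open Vale.Agent.P141.H150.Mv (st st_bounds st_inherit alive_energy actH actH_none actH_some)
open Vale.Agent.P141.H585
open Vale.Agent.P141.H911 (Th uT)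
open Vale.Agent.P141.PL.H560 (cs cs_of_mem cs_of_not_mem)

noncomputable section

/-! ### Lines -/

theorem lin_bd (d : ℤ) (k : ℕ) (n : ℤ) :
    ∃ a : ℤ, ∀ x ∈ iv k n, a ≤ d * x ∧ d * x ≤ a + |d| * (2 ^ k - 1) := by
  rcases le_or_gt 0 d with h | h
  · refine ⟨d * (2 ^ k * n), fun x hx => ?_⟩
    unfold iv at hx
    rw [mem_Ico] at hx
    rw [abs_of_nonneg h]
    constructor
    · exact mul_le_mul_of_nonneg_left hx.1 h
    · have := mul_le_mul_of_nonneg_left (by linarith [hx.2] : x ≤ 2 ^ k * n + (2 ^ k - 1)) h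
      linarith
  · refine ⟨d * (2 ^ k * n + (2 ^ k - 1)), fun x hx => ?_⟩
    unfold iv at hx
    rw [mem_Ico] at hx
    rw [abs_of_neg h]
    have h' : 0 ≤ -d := by linarith
    constructor
    · have := mul_le_mul_of_nonneg_left (by linarith [hx.2] : x ≤ 2 ^ k * n + (2 ^ k - 1)) h'
      linarith
    · have := mul_le_mul_of_nonneg_left hx.1 h'
      linarith

theorem form_mem {c0 : ℕ} {q2 q3 : ℤ} (b : |q2| + |q3| ≤ 2 ^ c0) (s0 : ℤ) (k : ℕ) (n m : ℤ) :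
    ∃ a : ℤ, ∀ x ∈ iv k n, ∀ y ∈ iv k m,
      s0 + q2 * x + q3 * y ∈ Ico a (a + 2 ^ (k + c0)) := by
  obtain ⟨a2, h2⟩ := lin_bd q2 k n
  obtain ⟨a3, h3⟩ := lin_bd q3 k m
  refine ⟨s0 + a2 + a3, fun x hx y hy => ?_⟩
  have e2 := h2 x hx
  have e3 := h3 y hy
  have hk : (0 : ℤ) < 2 ^ k := by positivity
  have h1 : (|q2| + |q3|) * (2 ^ k - 1) ≤ 2 ^ c0 * (2 ^ k - 1) :=
    mul_le_mul_of_nonneg_right b (by linarith)
  have h0 : (0 : ℤ) < 2 ^ c0 := by positivity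
  rw [mem_Ico, pow_add]
  constructor <;> nlinarith

theorem line_le {c0 k : ℕ} {G : ℤ → ℝ} {L : ℝ}
    (h : ∀ a : ℤ, ∑ z ∈ Ico a (a + 2 ^ (k + c0)), G z ^ 2 ≤ L) {d : ℤ} (hd : d ≠ 0)
    (bd : |d| ≤ 2 ^ c0) (t n : ℤ) : ∑ y ∈ iv k n, G (t + d * y) ^ 2 ≤ L := by
  obtain ⟨a, ha⟩ := lin_bd d k n
  have hinj : Set.InjOn (fun y => t + d * y) (iv k n : Set ℤ) := by
    intro u _ v _ huv
    have : d * u = d * v := by
      have h1 : t + d * u = t + d * v := huv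
      linarith
    exact mul_left_cancel₀ hd this
  rw [← sum_image (f := fun z => G z ^ 2) hinj]
  refine (sum_le_sum_of_subset_of_nonneg ?_ fun _ _ _ => sq_nonneg _).trans (h (t + a))
  intro z hz
  obtain ⟨y, hy, rfl⟩ := mem_image.1 hz
  have h1 := ha y hy
  have hk : (0 : ℤ) < 2 ^ k := by positivity
  have h2 : |d| * (2 ^ k - 1) ≤ 2 ^ c0 * (2 ^ k - 1) :=
    mul_le_mul_of_nonneg_right bd (by linarith)
  have h0 : (0 : ℤ) < 2 ^ c0 := by positivity
  rw [mem_Ico, pow_add]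
  constructor <;> nlinarith

/-- an interval of the length of a cell meets two cells -/
theorem Cells.two {c0 : ℕ} {s : ℤ} {ud : ℕ → ℤ → Prop} {Λ : ℕ} {G : ℤ → ℝ} {C : ℝ}
    (H : Cells c0 s ud Λ G C) (hC : 0 ≤ C) (k : ℕ) (a : ℤ) :
    ∑ z ∈ Ico a (a + 2 ^ (k + c0)), cu ud G k z ^ 2 ≤ 2 * C * 2 ^ c0 * 2 ^ k := by
  classical
  set m := ci c0 s k a with hm
  have hsub : Ico a (a + 2 ^ (k + c0)) ⊆ ce c0 s k m ∪ ce c0 s k (m + 1) := by
    intro z hz
    have hb := ci_bounds c0 s k a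
    rw [← hm] at hb
    rw [mem_Ico] at hz
    rw [mem_union]
    unfold ce
    rw [mem_Ico, mem_Ico]
    by_cases h : z < 2 ^ (k + c0) * m - s + 2 ^ (k + c0)
    · left; constructor <;> linarith [hb.1]
    · right; constructor <;> linarith [hb.2]
  refine (sum_le_sum_of_subset_of_nonneg hsub fun _ _ _ => sq_nonneg _).trans ?_
  have h1 := sum_union_inter (s₁ := ce c0 s k m) (s₂ := ce c0 s k (m + 1))
    (f := fun z => cu ud G k z ^ 2)
  have h2 : 0 ≤ ∑ z ∈ ce c0 s k m ∩ ce c0 s k (m + 1), cu ud G k z ^ 2 :=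
    sum_nonneg fun _ _ => sq_nonneg _
  have h3 := H.cell hC k m
  have h4 := H.cell hC k (m + 1)
  have e : (2 : ℝ) ^ (k + c0) = 2 ^ c0 * 2 ^ k := by rw [pow_add]; ring
  rw [e] at h3 h4
  nlinarith

/-! ### Windows of the offsets -/

theorem Th_win {c p q : Pt} {K : ℕ} : ∃ a2 a3 : ℤ, ∀ t ∈ Th c K p q,
    (a2 ≤ t.2.1 ∧ t.2.1 < a2 + 2 ^ (K + 1)) ∧ (a3 ≤ t.2.2 ∧ t.2.2 < a3 + 2 ^ (K + 1)) := by
  refine ⟨2 ^ K * (q.2.1 / 2 ^ K) - 2 ^ K * (p.2.1 / 2 ^ K) - 2 ^ K + 1,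
    2 ^ K * (q.2.2 / 2 ^ K) - 2 ^ K * (p.2.2 / 2 ^ K) - 2 ^ K + 1, fun t ht => ?_⟩
  unfold Th at ht
  rw [mem_filter, mem_product, mem_product] at ht
  have h2 := ht.1.2.1
  have h3 := ht.1.2.2
  unfold H911.win at h2 h3
  rw [mem_Ioo] at h2 h3
  rw [pow_succ]
  refine ⟨⟨?_, ?_⟩, ?_, ?_⟩ <;> linarith [h2.1, h2.2, h3.1, h3.2]

theorem Th_inPl {c p q : Pt} {K : ℕ} : InPl c.1 c.2.1 c.2.2 (Th c K p q) := by
  intro t ht
  exact H911.el_of_mem ht

/-! ### The carriers along an inherited component -/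

section carriers

variable {A : ℕ → ℤ → ℤ → ℝ} {c ξ η : ℝ} {us ev : ℕ → ℤ → ℤ → Prop} {K : ℕ}

/-- **The carrier of the second vertex does not change while a component is inherited.** -/
theorem lvS_same2 {th : ℝ} {E : Finset ℤ} {t : ℤ}
    (hev : ∀ k < K, ∀ n m, ¬ ev k n m → ¬ evt th E K t k n) (d : ℕ) :
    ∀ (k : ℕ) (n m : ℤ), k ≤ K → st A c ξ η us ev K k n m = some (k + d) → ∀ x ∈ iv k n,
      (x + t ∈ lvS th E K (k + d) ↔ x + t ∈ lvS th E K k) := by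
  induction d with
  | zero => intro k n m _ _ x _; rfl
  | succ d ih =>
    intro k n m hk h x hx
    have hb := st_bounds hk n m h
    have hlt : k < K := by omega
    obtain ⟨h1, h2⟩ := st_inherit hlt h (by omega)
    have e : k + (d + 1) = (k + 1) + d := by omega
    rw [e] at h1 ⊢
    have hx' : x ∈ iv (k + 1) (n / 2) := by
      rw [mem_iv] at hx ⊢
      rw [← hx, ← ix_ix k 1 x]
      unfold ix; norm_num
    rw [ih (k + 1) (n / 2) (m / 2) hlt h1 x hx']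
    exact mem_of_not_evt (hev k hlt n m h2) hx

/-- **The carrier of the third vertex does not change while a component is inherited.** -/
theorem lvS_same3 {th : ℝ} {E : Finset ℤ} {t : ℤ}
    (hev : ∀ k < K, ∀ n m, ¬ ev k n m → ¬ evt th E K t k m) (d : ℕ) :
    ∀ (k : ℕ) (n m : ℤ), k ≤ K → st A c ξ η us ev K k n m = some (k + d) → ∀ y ∈ iv k m,
      (y + t ∈ lvS th E K (k + d) ↔ y + t ∈ lvS th E K k) := by
  induction d with
  | zero => intro k n m _ _ x _; rfl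
  | succ d ih =>
    intro k n m hk h x hx
    have hb := st_bounds hk n m h
    have hlt : k < K := by omega
    obtain ⟨h1, h2⟩ := st_inherit hlt h (by omega)
    have e : k + (d + 1) = (k + 1) + d := by omega
    rw [e] at h1 ⊢
    have hx' : x ∈ iv (k + 1) (m / 2) := by
      rw [mem_iv] at hx ⊢
      rw [← hx, ← ix_ix k 1 x]
      unfold ix; norm_num
    rw [ih (k + 1) (n / 2) (m / 2) hlt h1 x hx']
    exact mem_of_not_evt (hev k hlt n m h2) hx

end carriers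

/-! ### One atom -/

/-- a translated and cut edge -/
theorem cs_ed {Q : Finset (ℤ × ℤ)} {h : ℝ} {E E' : Finset ℤ} {d : ℤ × ℤ → ℝ}
    (hd : Ed h E E' fun x y => d (x, y)) (t t' x y : ℤ) :
    cs Q (t, t') d (x, y) ^ 2 ≤ h ^ 2 * (id1 E (x + t) * id1 E' (y + t')) := by
  by_cases hq : (x + t, y + t') ∈ Q
  · rw [cs_of_mem hq]
    have h1 : |d (x + t, y + t')| ≤ h * (id1 E (x + t) * id1 E' (y + t')) := hd (x + t) (y + t')
    have h2 := pow_le_pow_left₀ (abs_nonneg _) h1 2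
    rw [sq_abs, mul_pow, mul_pow, id1_sq, id1_sq] at h2
    exact h2
  · rw [cs_of_not_mem hq]
    have := mul_nonneg (sq_nonneg h) (mul_nonneg (id1_nonneg E (x + t)) (id1_nonneg E' (y + t')))
    simpa using this

section atom

variable {κ μ sig : ℝ} {K k : ℕ} {c p q : Pt} {u v : Tri} {E1 E2' E3 : Finset ℤ} {th Λ : ℝ}
  {c0 : ℕ} {G : ℕ → ℤ → ℝ} {s0 q2 q3 : ℤ} {A : Pt → ℕ → ℤ → ℤ → ℝ}
  {us ev : Pt → ℕ → ℤ → ℤ → Prop} {cp ξ η : ℝ} {x1 n m : ℤ}

open Classical in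
/-- the offsets of an atom which are alive for `x1` at the scale `k` -/
def Tal (c p q : Pt) (K k : ℕ) (th : ℝ) (E1 : Finset ℤ) (x1 : ℤ) : Finset Pt :=
  (Th c K p q).filter fun t => x1 + t.1 ∈ lvS th E1 K k

/-- **The alive mass of one atom, first side**, one `x1`, one square. -/
theorem La_atom (hD : c.2.1 * q3 - c.2.2 * q2 ≠ 0) (hc1 : c.1 ≠ 0) (b2 : |c.2.1| ≤ 4)
    (b3 : |c.2.2| ≤ 4) (h3 : q3 ≠ 0) (b23 : |q2| + |q3| ≤ 2 ^ c0)
    (hv : VC κ K q u v E1 E2' E3) (hth : 0 ≤ th) (hk : k ≤ K) (hΛ : 0 ≤ Λ)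
    (hG : ∀ j ≤ K, ∀ a : ℤ, ∑ z ∈ Ico a (a + 2 ^ (j + c0)), G j z ^ 2 ≤ Λ * 2 ^ j)
    (hA : ∀ t ∈ Th c K p q, ∀ j ≤ K, ∀ x y, A t j x y =
      (uT K q t (mnA th E1 E2' E3 K j v)).2.2 (x, y) * G j (s0 + q2 * x + q3 * y))
    (hev : ∀ t ∈ Th c K p q, ∀ j < K, ∀ n m, ¬ ev t j n m → ¬ evt th E2' K t.2.1 j n)
    (hcp : 0 ≤ cp) (hη : 0 < η ∨ rC K q u ^ 2 * sd23 K q u / κ ^ 2 = 0) :
    ∑ t ∈ Tal c p q K k th E1 x1, ∑ i ∈ actH (A t) cp ξ η (us t) (ev t) K k n m, ∑ x ∈ iv k n,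
        (uT K q t v).1 (x1, x) ^ 2 * comA (A t i.1) cp i x ^ 2 ≤
      17408 * (cp / 2 * ((rC K q u ^ 2 * sd12 K q u / κ ^ 2) ^ 2 *
        ((rC K q u ^ 2 * sd23 K q u / κ ^ 2) ^ 2 * Λ)) * (2 * th * 2 ^ k) *
        (rC K q u ^ 2 * sd23 K q u / κ ^ 2) ^ 2 / η) * (2 * th * (2 * th) * (2 * th)) *
        Λ * 4 ^ K := by
  classical
  set h12 := rC K q u ^ 2 * sd12 K q u / κ ^ 2 with hh12
  set h23 := rC K q u ^ 2 * sd23 K q u / κ ^ 2 with hh23
  have h120 : 0 ≤ h12 := hgt_nonneg κ K q u (sd12_nonneg K q u)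
  have h230 : 0 ≤ h23 := hgt_nonneg κ K q u (sd23_nonneg K q u)
  -- the kernels
  have ed : ∀ t : Pt, ∀ j, ∀ x y, (uT K q t (mnA th E1 E2' E3 K j v)).2.2 (x, y) ^ 2 ≤
      h23 ^ 2 * (id1 (lvS th E2' K j) (x + t.2.1) * id1 (lvS th E3 K j) (y + t.2.2)) :=
    fun t j x y => cs_ed (mn_ed23 hv th j) _ _ _ _
  have hline : ∀ j ≤ K, ∀ x m', ∑ y ∈ iv j m', G j (s0 + q2 * x + q3 * y) ^ 2 ≤ Λ * 2 ^ j :=
    fun j hj x m' => line_le (hG j hj) h3 ((le_add_of_nonneg_left (abs_nonneg q2)).trans b23)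
      (s0 + q2 * x) m'
  -- rows of the kernels
  have hrow0 : ∀ t ∈ Th c K p q, ∀ j ≤ K, ∀ x m', (2 ^ j : ℝ)⁻¹ * ∑ y ∈ iv j m', A t j x y ^ 2 ≤
      h23 ^ 2 * Λ * id1 (lvS th E2' K j) (x + t.2.1) := by
    intro t ht j hj x m'
    rw [inv_mul_le_iff₀ (by positivity)]
    have h4 : ∑ y ∈ iv j m', A t j x y ^ 2 ≤ ∑ y ∈ iv j m',
        h23 ^ 2 * id1 (lvS th E2' K j) (x + t.2.1) * G j (s0 + q2 * x + q3 * y) ^ 2 := by
      refine sum_le_sum fun y _ => ?_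
      rw [hA t ht j hj, mul_pow]
      refine mul_le_mul_of_nonneg_right ((ed t j x y).trans ?_) (sq_nonneg _)
      refine mul_le_mul_of_nonneg_left ?_ (sq_nonneg _)
      exact mul_le_of_le_one_right (id1_nonneg _ _) (id1_le _ _)
    rw [← mul_sum] at h4
    have h5 : 0 ≤ h23 ^ 2 * id1 (lvS th E2' K j) (x + t.2.1) :=
      mul_nonneg (sq_nonneg _) (id1_nonneg _ _)
    refine h4.trans ((mul_le_mul_of_nonneg_left (hline j hj x m') h5).trans (le_of_eq ?_))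
    ring
  -- the alive offsets
  set S := Tal c p q K k th E1 x1 with hS
  have hSub : ∀ t ∈ S, t ∈ Th c K p q ∧ x1 + t.1 ∈ lvS th E1 K k := by
    intro t ht
    exact mem_filter.1 ht
  set r : Pt → ℕ := fun t => (st (A t) cp ξ η (us t) (ev t) K k n m).getD K with hr
  set T := S.filter fun t => st (A t) cp ξ η (us t) (ev t) K k n m ≠ none with hT
  have hst : ∀ t ∈ T, st (A t) cp ξ η (us t) (ev t) K k n m = some (r t) := by
    intro t ht
    have h1 := (mem_filter.1 ht).2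
    obtain ⟨r', hr'⟩ := Option.ne_none_iff_exists'.1 h1
    rw [hr]
    simp only
    rw [hr', Option.getD_some]
  have hsum : ∑ t ∈ S, ∑ i ∈ actH (A t) cp ξ η (us t) (ev t) K k n m, ∑ x ∈ iv k n,
        (uT K q t v).1 (x1, x) ^ 2 * comA (A t i.1) cp i x ^ 2 =
      ∑ t ∈ T, ∑ i ∈ cset (r t) (ix (r t - k) n) (ix (r t - k) m), ∑ x ∈ iv k n,
        (uT K q t v).1 (x1, x) ^ 2 * comA (A t (r t)) cp i x ^ 2 := by
    rw [hT, sum_filter]
    refine sum_congr rfl fun t ht => ?_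
    by_cases h : st (A t) cp ξ η (us t) (ev t) K k n m = none
    · rw [actH_none h, sum_empty, if_neg (not_not.2 h)]
    · rw [if_pos h]
      have h1 := hst t (mem_filter.2 ⟨ht, h⟩)
      rw [actH_some h1]
      refine sum_congr rfl fun i hi => sum_congr rfl fun x _ => ?_
      rw [(mem_cset.1 hi).1]
  rw [hsum]
  have hTS : ∀ t ∈ T, t ∈ Th c K p q ∧ x1 + t.1 ∈ lvS th E1 K k := fun t ht =>
    hSub t (mem_filter.1 ht).1
  have hrb : ∀ t ∈ T, k ≤ r t ∧ r t ≤ K := fun t ht => st_bounds hk n m (hst t ht)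
  have hrow : ∀ t ∈ T, ∀ x ∈ iv k n, (2 ^ r t : ℝ)⁻¹ * ∑ y ∈ iv (r t) (ix (r t - k) m),
      A t (r t) x y ^ 2 ≤ h23 ^ 2 * Λ * id1 (lvS th E2' K k) (x + t.2.1) := by
    intro t ht x hx
    refine (hrow0 t (hTS t ht).1 (r t) (hrb t ht).2 x _).trans (le_of_eq ?_)
    congr 1
    have h1 := hst t ht
    have e : r t = k + (r t - k) := by have := (hrb t ht).1; omega
    rw [e] at h1
    have h2 := lvS_same2 (hev t (hTS t ht).1) (r t - k) k n m hk h1 x hx
    rw [← e] at h2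
    unfold id1
    simp only [h2]
  rcases hη with hη | hη
  · obtain ⟨a2, a3, hw⟩ := Th_win (c := c) (p := p) (q := q) (K := K)
    obtain ⟨a, ha⟩ := form_mem b23 s0 k n m
    refine lsup_a (k := K) (n1 := ix k x1) (f1 := id1 (lvS th E1 K k))
      (f2 := id1 (lvS th E2' K k)) (f3 := id1 (lvS th E3 K k)) (A := fun t => A t k)
      (B := fun t => A t (r t)) (dd := fun t x => (uT K q t v).1 (x1, x))
      hD hc1 b2 b3 (Th_inPl.mono fun t ht => (hTS t ht).1) hk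
      (fun t ht => hw t (hTS t ht).1) (id1_nonneg _) (id1_nonneg _) (id1_nonneg _)
      (self_mem_iv k x1) (by positivity) (by positivity) (by positivity)
      (fun t _ => sum_lvS_le hth le_rfl hk _) (fun t _ => sum_lvS_le hth le_rfl hk _)
      (fun t _ => sum_lvS_le hth le_rfl hk _) ha (hG k hk a) hcp hη (by positivity) ?_
      (fun t ht => (hrb t ht).1) hrow ?_ ?_
    · intro t ht x _
      have h1 : Ed h12 E1 E2' fun x y => v.1 (x, y) := by
        intro x y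
        show |v.1 (x, y)| ≤ h12 * (id1 E1 x * id1 E2' y)
        by_cases h0 : v.1 (x, y) = 0
        · rw [h0, abs_zero]
          exact mul_nonneg h120 (mul_nonneg (id1_nonneg _ _) (id1_nonneg _ _))
        · obtain ⟨e1, e2⟩ := hv.sup12 x y h0
          unfold id1
          rw [if_pos e1, if_pos e2, mul_one, mul_one]
          exact hv.hgt12 _
      refine (cs_ed h1 _ _ _ _).trans ?_
      have h2 : id1 (lvS th E1 K k) (x1 + t.1) = 1 := if_pos (hTS t ht).2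
      rw [h2]
      refine mul_le_mul_of_nonneg_left ?_ (sq_nonneg _)
      exact mul_le_one₀ (id1_le _ _) (id1_nonneg _ _) (id1_le _ _)
    · intro t ht x _ y _
      rw [hA t (hTS t ht).1 k hk, mul_pow]
      exact mul_le_mul_of_nonneg_right (ed t k x y) (sq_nonneg _)
    · intro t ht
      have h1 : st (A t) cp ξ η (us t) (ev t) K k n m ≠ none := by rw [hst t ht]; simp
      exact (alive_energy hk h1).2
  · have h0 : ∑ t ∈ T, ∑ i ∈ cset (r t) (ix (r t - k) n) (ix (r t - k) m), ∑ x ∈ iv k n,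
        (uT K q t v).1 (x1, x) ^ 2 * comA (A t (r t)) cp i x ^ 2 ≤ 0 := by
      refine sum_nonpos fun t ht => ?_
      refine (massA_cset hcp (hrb t ht).1 (Subset.refl _) fun x _ => sq_nonneg _).trans ?_
      refine mul_nonpos_of_nonneg_of_nonpos (by positivity) (sum_nonpos fun x hx => ?_)
      refine mul_nonpos_of_nonneg_of_nonpos (sq_nonneg _) ((hrow t ht x hx).trans (le_of_eq ?_))
      rw [hη]; ring
    refine h0.trans (le_of_eq ?_)
    rw [hη]; ring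

/-- **The alive mass of one atom, second side**, one `x1`, one square. -/
theorem Lb_atom (hD : c.2.1 * q3 - c.2.2 * q2 ≠ 0) (hc1 : c.1 ≠ 0) (b2 : |c.2.1| ≤ 4)
    (b3 : |c.2.2| ≤ 4) (h2 : q2 ≠ 0) (b23 : |q2| + |q3| ≤ 2 ^ c0)
    (hv : VC κ K q u v E1 E2' E3) (hth : 0 ≤ th) (hk : k ≤ K) (hΛ : 0 ≤ Λ)
    (hG : ∀ j ≤ K, ∀ a : ℤ, ∑ z ∈ Ico a (a + 2 ^ (j + c0)), G j z ^ 2 ≤ Λ * 2 ^ j)
    (hA : ∀ t ∈ Th c K p q, ∀ j ≤ K, ∀ x y, A t j x y =
      (uT K q t (mnA th E1 E2' E3 K j v)).2.2 (x, y) * G j (s0 + q2 * x + q3 * y))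
    (hev : ∀ t ∈ Th c K p q, ∀ j < K, ∀ n m, ¬ ev t j n m → ¬ evt th E3 K t.2.2 j m)
    (hcp : 0 ≤ cp) (hη : 0 < η ∨ rC K q u ^ 2 * sd23 K q u / κ ^ 2 = 0) :
    ∑ t ∈ Tal c p q K k th E1 x1, ∑ i ∈ actH (A t) cp ξ η (us t) (ev t) K k n m, ∑ y ∈ iv k m,
        (uT K q t v).2.1 (x1, y) ^ 2 * comB (A t i.1) cp i y ^ 2 ≤
      17408 * ((rC K q u ^ 2 * sd13 K q u / κ ^ 2) ^ 2 *
        ((rC K q u ^ 2 * sd23 K q u / κ ^ 2) ^ 2 * Λ) * (2 * th * 2 ^ k) *
        (rC K q u ^ 2 * sd23 K q u / κ ^ 2) ^ 2 / η) * (2 * th * (2 * th) * (2 * th)) *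
        Λ * 4 ^ K := by
  classical
  set h13 := rC K q u ^ 2 * sd13 K q u / κ ^ 2 with hh13
  set h23 := rC K q u ^ 2 * sd23 K q u / κ ^ 2 with hh23
  have h130 : 0 ≤ h13 := hgt_nonneg κ K q u (sd13_nonneg K q u)
  have h230 : 0 ≤ h23 := hgt_nonneg κ K q u (sd23_nonneg K q u)
  -- the kernels
  have ed : ∀ t : Pt, ∀ j, ∀ x y, (uT K q t (mnA th E1 E2' E3 K j v)).2.2 (x, y) ^ 2 ≤
      h23 ^ 2 * (id1 (lvS th E2' K j) (x + t.2.1) * id1 (lvS th E3 K j) (y + t.2.2)) :=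
    fun t j x y => cs_ed (mn_ed23 hv th j) _ _ _ _
  have hline : ∀ j ≤ K, ∀ y n', ∑ x ∈ iv j n', G j (s0 + q2 * x + q3 * y) ^ 2 ≤ Λ * 2 ^ j := by
    intro j hj y n'
    have h := line_le (hG j hj) h2 ((le_add_of_nonneg_right (abs_nonneg q3)).trans b23)
      (s0 + q3 * y) n'
    refine le_trans (le_of_eq (sum_congr rfl fun x _ => ?_)) h
    congr 2
    ring
  -- columns of the kernels
  have hcol0 : ∀ t ∈ Th c K p q, ∀ j ≤ K, ∀ y n', (2 ^ j : ℝ)⁻¹ * ∑ x ∈ iv j n', A t j x y ^ 2 ≤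
      h23 ^ 2 * Λ * id1 (lvS th E3 K j) (y + t.2.2) := by
    intro t ht j hj y n'
    rw [inv_mul_le_iff₀ (by positivity)]
    have h4 : ∑ x ∈ iv j n', A t j x y ^ 2 ≤ ∑ x ∈ iv j n',
        h23 ^ 2 * id1 (lvS th E3 K j) (y + t.2.2) * G j (s0 + q2 * x + q3 * y) ^ 2 := by
      refine sum_le_sum fun x _ => ?_
      rw [hA t ht j hj, mul_pow]
      refine mul_le_mul_of_nonneg_right ((ed t j x y).trans ?_) (sq_nonneg _)
      refine mul_le_mul_of_nonneg_left ?_ (sq_nonneg _)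
      exact mul_le_of_le_one_left (id1_nonneg _ _) (id1_le _ _)
    rw [← mul_sum] at h4
    have h5 : 0 ≤ h23 ^ 2 * id1 (lvS th E3 K j) (y + t.2.2) :=
      mul_nonneg (sq_nonneg _) (id1_nonneg _ _)
    refine h4.trans ((mul_le_mul_of_nonneg_left (hline j hj y n') h5).trans (le_of_eq ?_))
    ring
  -- the alive offsets
  set S := Tal c p q K k th E1 x1 with hS
  have hSub : ∀ t ∈ S, t ∈ Th c K p q ∧ x1 + t.1 ∈ lvS th E1 K k := by
    intro t ht
    exact mem_filter.1 ht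
  set r : Pt → ℕ := fun t => (st (A t) cp ξ η (us t) (ev t) K k n m).getD K with hr
  set T := S.filter fun t => st (A t) cp ξ η (us t) (ev t) K k n m ≠ none with hT
  have hst : ∀ t ∈ T, st (A t) cp ξ η (us t) (ev t) K k n m = some (r t) := by
    intro t ht
    have h1 := (mem_filter.1 ht).2
    obtain ⟨r', hr'⟩ := Option.ne_none_iff_exists'.1 h1
    rw [hr]
    simp only
    rw [hr', Option.getD_some]
  have hsum : ∑ t ∈ S, ∑ i ∈ actH (A t) cp ξ η (us t) (ev t) K k n m, ∑ y ∈ iv k m,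
        (uT K q t v).2.1 (x1, y) ^ 2 * comB (A t i.1) cp i y ^ 2 =
      ∑ t ∈ T, ∑ i ∈ cset (r t) (ix (r t - k) n) (ix (r t - k) m), ∑ y ∈ iv k m,
        (uT K q t v).2.1 (x1, y) ^ 2 * comB (A t (r t)) cp i y ^ 2 := by
    rw [hT, sum_filter]
    refine sum_congr rfl fun t ht => ?_
    by_cases h : st (A t) cp ξ η (us t) (ev t) K k n m = none
    · rw [actH_none h, sum_empty, if_neg (not_not.2 h)]
    · rw [if_pos h]
      have h1 := hst t (mem_filter.2 ⟨ht, h⟩)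
      rw [actH_some h1]
      refine sum_congr rfl fun i hi => sum_congr rfl fun x _ => ?_
      rw [(mem_cset.1 hi).1]
  rw [hsum]
  have hTS : ∀ t ∈ T, t ∈ Th c K p q ∧ x1 + t.1 ∈ lvS th E1 K k := fun t ht =>
    hSub t (mem_filter.1 ht).1
  have hrb : ∀ t ∈ T, k ≤ r t ∧ r t ≤ K := fun t ht => st_bounds hk n m (hst t ht)
  have hcol : ∀ t ∈ T, ∀ y ∈ iv k m, (2 ^ r t : ℝ)⁻¹ * ∑ x ∈ iv (r t) (ix (r t - k) n),
      A t (r t) x y ^ 2 ≤ h23 ^ 2 * Λ * id1 (lvS th E3 K k) (y + t.2.2) := by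
    intro t ht y hy
    refine (hcol0 t (hTS t ht).1 (r t) (hrb t ht).2 y _).trans (le_of_eq ?_)
    congr 1
    have h1 := hst t ht
    have e : r t = k + (r t - k) := by have := (hrb t ht).1; omega
    rw [e] at h1
    have h2 := lvS_same3 (hev t (hTS t ht).1) (r t - k) k n m hk h1 y hy
    rw [← e] at h2
    unfold id1
    simp only [h2]
  rcases hη with hη | hη
  · obtain ⟨a2, a3, hw⟩ := Th_win (c := c) (p := p) (q := q) (K := K)
    obtain ⟨a, ha⟩ := form_mem b23 s0 k n m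
    refine lsup_b (k := K) (n1 := ix k x1) (f1 := id1 (lvS th E1 K k))
      (f2 := id1 (lvS th E2' K k)) (f3 := id1 (lvS th E3 K k)) (A := fun t => A t k)
      (B := fun t => A t (r t)) (dd := fun t x => (uT K q t v).2.1 (x1, x))
      hD hc1 b2 b3 (Th_inPl.mono fun t ht => (hTS t ht).1) hk
      (fun t ht => hw t (hTS t ht).1) (id1_nonneg _) (id1_nonneg _) (id1_nonneg _)
      (self_mem_iv k x1) (by positivity) (by positivity) (by positivity)
      (fun t _ => sum_lvS_le hth le_rfl hk _) (fun t _ => sum_lvS_le hth le_rfl hk _)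
      (fun t _ => sum_lvS_le hth le_rfl hk _) ha (hG k hk a) hcp hη (by positivity) ?_
      (fun t ht => (hrb t ht).1) hcol ?_ ?_
    · intro t ht x _
      have h1 : Ed h13 E1 E3 fun x y => v.2.1 (x, y) := by
        intro x y
        show |v.2.1 (x, y)| ≤ h13 * (id1 E1 x * id1 E3 y)
        by_cases h0 : v.2.1 (x, y) = 0
        · rw [h0, abs_zero]
          exact mul_nonneg h130 (mul_nonneg (id1_nonneg _ _) (id1_nonneg _ _))
        · obtain ⟨e1, e2⟩ := hv.sup13 x y h0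
          unfold id1
          rw [if_pos e1, if_pos e2, mul_one, mul_one]
          exact hv.hgt13 _
      refine (cs_ed h1 _ _ _ _).trans ?_
      have h2 : id1 (lvS th E1 K k) (x1 + t.1) = 1 := if_pos (hTS t ht).2
      rw [h2]
      refine mul_le_mul_of_nonneg_left ?_ (sq_nonneg _)
      exact mul_le_one₀ (id1_le _ _) (id1_nonneg _ _) (id1_le _ _)
    · intro t ht x _ y _
      rw [hA t (hTS t ht).1 k hk, mul_pow]
      exact mul_le_mul_of_nonneg_right (ed t k x y) (sq_nonneg _)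
    · intro t ht
      have h1 : st (A t) cp ξ η (us t) (ev t) K k n m ≠ none := by rw [hst t ht]; simp
      exact (alive_energy hk h1).2
  · have h0 : ∑ t ∈ T, ∑ i ∈ cset (r t) (ix (r t - k) n) (ix (r t - k) m), ∑ y ∈ iv k m,
        (uT K q t v).2.1 (x1, y) ^ 2 * comB (A t (r t)) cp i y ^ 2 ≤ 0 := by
      refine sum_nonpos fun t ht => ?_
      refine (massB_cset hcp (hrb t ht).1 (Subset.refl _) fun x _ => sq_nonneg _).trans ?_
      refine sum_nonpos fun y hy => ?_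
      refine mul_nonpos_of_nonneg_of_nonpos (sq_nonneg _) ((hcol t ht y hy).trans (le_of_eq ?_))
      rw [hη]; ring
    refine h0.trans (le_of_eq ?_)
    rw [hη]; ring

end atom

end

end Vale.Agent.P141.H443
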