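import Vale.Agent.P141.H443.Frame

/-!
# P141, line W, end lemma (E-FR): on/off phases of the plane process

The components are kept only while the kernel is locally visible.  The state `ps k n m` of the
square `(k; n, m)` is the scale of the root of its phase (`≤ K`, the square is ON) or `K + 1` (OFF):
an OFF square in use with local energy `≥ ξ` starts a phase, an ON square in use with local energy
`< ξ / 2` ends it.

* `on_energy`, `off_energy`, `on_parent`, `on_root`: the states;
* `nbk_le`: the area of the squares where the state changes is at most `4 E2 / ξ`.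
-/

namespace Vale.Agent.P141.H443

open Finset Vale.Agent.P141.PL Vale.Agent.P141.PL.H317

noncomputable section

open Classical in
/-- the state after `j` steps -/
def pss (A : ℤ → ℤ → ℝ) (ξ : ℝ) (us : ℕ → ℤ → ℤ → Prop) (K : ℕ) (j : ℕ) : ℤ → ℤ → ℕ :=
  Nat.rec (fun n m => if us K n m ∧ ξ * 4 ^ K ≤ E2 (iv K n) (iv K m) A then K else K + 1)
    (fun i p n m =>
      if us (K - (i + 1)) n m then
        (if p (n / 2) (m / 2) ≤ K then
          (if E2 (iv (K - (i + 1)) n) (iv (K - (i + 1)) m) A < ξ / 2 * 4 ^ (K - (i + 1)) then K + 1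
            else p (n / 2) (m / 2))
          else (if ξ * 4 ^ (K - (i + 1)) ≤ E2 (iv (K - (i + 1)) n) (iv (K - (i + 1)) m) A then
            K - (i + 1) else K + 1))
      else p (n / 2) (m / 2)) j

/-- **The state** of the square `(k; n, m)`, `k ≤ K`. -/
def ps (A : ℤ → ℤ → ℝ) (ξ : ℝ) (us : ℕ → ℤ → ℤ → Prop) (K k : ℕ) (n m : ℤ) : ℕ :=
  pss A ξ us K (K - k) n m

variable {A : ℤ → ℤ → ℝ} {ξ : ℝ} {us : ℕ → ℤ → ℤ → Prop} {K : ℕ}

open Classical in
theorem ps_top (n m : ℤ) : ps A ξ us K K n m =
    if us K n m ∧ ξ * 4 ^ K ≤ E2 (iv K n) (iv K m) A then K else K + 1 := by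
  unfold ps
  rw [Nat.sub_self]
  rfl

open Classical in
theorem ps_step {k : ℕ} (hk : k < K) (n m : ℤ) : ps A ξ us K k n m =
    if us k n m then
      (if ps A ξ us K (k + 1) (n / 2) (m / 2) ≤ K then
        (if E2 (iv k n) (iv k m) A < ξ / 2 * 4 ^ k then K + 1
          else ps A ξ us K (k + 1) (n / 2) (m / 2))
        else (if ξ * 4 ^ k ≤ E2 (iv k n) (iv k m) A then k else K + 1))
    else ps A ξ us K (k + 1) (n / 2) (m / 2) := by
  unfold ps
  have h1 : K - k = (K - (k + 1)) + 1 := by omega
  have h2 : K - ((K - (k + 1)) + 1) = k := by omega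
  rw [h1]
  show (if us (K - ((K - (k + 1)) + 1)) n m then _ else _) = _
  rw [h2]
  rfl

theorem ps_bounds {k : ℕ} (hk : k ≤ K) (n m : ℤ) :
    k ≤ ps A ξ us K k n m ∧ ps A ξ us K k n m ≤ K + 1 := by
  classical
  have key : ∀ d k, k + d = K → ∀ n m, k ≤ ps A ξ us K k n m ∧ ps A ξ us K k n m ≤ K + 1 := by
    intro d
    induction d with
    | zero =>
      intro k hk n m
      have : k = K := by omega
      subst this
      rw [ps_top]
      split_ifs <;> omega
    | succ d ih =>
      intro k hk n m
      have h1 := ih (k + 1) (by omega) (n / 2) (m / 2)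
      rw [ps_step (by omega)]
      split_ifs <;> omega
  exact key (K - k) k (by omega) n m

/-- the square is ON: at its own scale, or its parent is ON with the same root -/
theorem on_parent {k : ℕ} (hk : k < K) {n m : ℤ} (h : ps A ξ us K k n m ≤ K)
    (h' : ps A ξ us K k n m ≠ k) :
    ps A ξ us K (k + 1) (n / 2) (m / 2) = ps A ξ us K k n m := by
  classical
  rw [ps_step hk] at h h' ⊢
  split_ifs at h h' ⊢ <;> omega

/-- ON squares in use are visible -/
theorem on_energy {k : ℕ} (hk : k ≤ K) (hξ : 0 ≤ ξ) {n m : ℤ} (hu : us k n m)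
    (h : ps A ξ us K k n m ≤ K) : ξ / 2 * 4 ^ k ≤ E2 (iv k n) (iv k m) A := by
  classical
  have h4 : (0 : ℝ) < 4 ^ k := by positivity
  rcases Nat.lt_or_ge k K with hlt | hge
  · rw [ps_step hlt, if_pos hu] at h
    split_ifs at h with h1 h2 h3
    · omega
    · exact not_lt.1 h2
    · have : ξ / 2 * 4 ^ k ≤ ξ * 4 ^ k := by nlinarith [mul_nonneg hξ h4.le]
      linarith
    · omega
  · have : k = K := by omega
    subst this
    rw [ps_top] at h
    split_ifs at h with h1
    · have : ξ / 2 * 4 ^ k ≤ ξ * 4 ^ k := by nlinarith [mul_nonneg hξ h4.le]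
      linarith [h1.2]
    · omega

/-- OFF squares in use are not visible -/
theorem off_energy {k : ℕ} (hk : k ≤ K) (hξ : 0 ≤ ξ) {n m : ℤ} (hu : us k n m)
    (h : ¬ ps A ξ us K k n m ≤ K) : E2 (iv k n) (iv k m) A < ξ * 4 ^ k ∨ ξ = 0 := by
  classical
  rcases hξ.lt_or_eq with hpos | h0
  swap
  · exact Or.inr h0.symm
  left
  have h4 : (0 : ℝ) < 4 ^ k := by positivity
  rcases Nat.lt_or_ge k K with hlt | hge
  · rw [ps_step hlt, if_pos hu] at h
    split_ifs at h with h1 h2 h3
    · have : ξ / 2 * 4 ^ k ≤ ξ * 4 ^ k := by nlinarith [mul_pos hpos h4]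
      linarith
    · exact absurd h1 h
    · omega
    · exact not_le.1 h3
  · have : k = K := by omega
    subst this
    rw [ps_top] at h
    split_ifs at h with h1
    · omega
    · by_contra hcon
      exact h1 ⟨hu, not_lt.1 hcon⟩

/-- a phase starts at a square in use with energy `≥ ξ` -/
theorem birth_us {k : ℕ} (hk : k ≤ K) {n m : ℤ} (h : ps A ξ us K k n m = k) :
    us k n m ∧ ξ * 4 ^ k ≤ E2 (iv k n) (iv k m) A := by
  classical
  rcases Nat.lt_or_ge k K with hlt | hge
  · have hb := (ps_bounds (A := A) (ξ := ξ) (us := us) (by omega : k + 1 ≤ K) (n / 2) (m / 2)).1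
    rw [ps_step hlt] at h
    split_ifs at h with h1 h2 h3 h4
    · omega
    · omega
    · exact ⟨h1, h4⟩
    · omega
    · omega
  · have : k = K := by omega
    subst this
    rw [ps_top] at h
    split_ifs at h with h1
    · exact h1
    · omega

/-- the root of the phase of an ON square starts the phase -/
theorem on_root {k : ℕ} (hk : k ≤ K) {n m : ℤ} (h : ps A ξ us K k n m ≤ K) :
    ps A ξ us K (ps A ξ us K k n m) (ix (ps A ξ us K k n m - k) n)
      (ix (ps A ξ us K k n m - k) m) = ps A ξ us K k n m := by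
  have key : ∀ d k, k + d = K → ∀ n m, ps A ξ us K k n m ≤ K →
      ps A ξ us K (ps A ξ us K k n m) (ix (ps A ξ us K k n m - k) n)
      (ix (ps A ξ us K k n m - k) m) = ps A ξ us K k n m := by
    intro d
    induction d with
    | zero =>
      intro k hk n m h
      have : k = K := by omega
      subst this
      have hb := (ps_bounds (A := A) (ξ := ξ) (us := us) (le_refl k) n m).1
      have e : ps A ξ us k k n m = k := by omega
      rw [e, Nat.sub_self, ix_zero, ix_zero, e]
    | succ d ih =>
      intro k hk n m h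
      by_cases h' : ps A ξ us K k n m = k
      · rw [h', Nat.sub_self, ix_zero, ix_zero, h']
      · have h1 := on_parent (by omega : k < K) h h'
        have h2 := ih (k + 1) (by omega) (n / 2) (m / 2) (by rw [h1]; exact h)
        rw [h1] at h2
        set r := ps A ξ us K k n m
        have hb := (ps_bounds (A := A) (ξ := ξ) (us := us)
          (by omega : k + 1 ≤ K) (n / 2) (m / 2)).1
        rw [h1] at hb
        have e : ∀ n : ℤ, ix (r - k) n = ix (r - (k + 1)) (n / 2) := by
          intro n
          have h2 : r - k = 1 + (r - (k + 1)) := by omega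
          rw [h2, ← ix_ix 1 (r - (k + 1)) n]
          have h3 : ix 1 n = n / 2 := by unfold ix; norm_num
          rw [h3]
        rw [e n, e m]
        exact h2
  exact key (K - k) k (by omega) n m h

/-- the state changes at the square `(k; n, m)`, `k < K` -/
def Sch (A : ℤ → ℤ → ℝ) (ξ : ℝ) (us : ℕ → ℤ → ℤ → Prop) (K k : ℕ) (n m : ℤ) : Prop :=
  ps A ξ us K k n m ≠ ps A ξ us K (k + 1) (n / 2) (m / 2)

open Classical in
/-- the area of the squares strictly below `(k; n, m)` where the state changes -/
def nbk (A : ℤ → ℤ → ℝ) (ξ : ℝ) (us : ℕ → ℤ → ℤ → Prop) (K k : ℕ) : ℤ → ℤ → ℝ :=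
  Nat.rec (fun _ _ => 0) (fun i R n m => ch4 n m fun a b =>
    (if Sch A ξ us K i a b then 4 ^ i else 0) + R a b) k

open Classical in
theorem nbk_succ (k : ℕ) (n m : ℤ) : nbk A ξ us K (k + 1) n m = ch4 n m fun a b =>
    (if Sch A ξ us K k a b then 4 ^ k else 0) + nbk A ξ us K k a b := rfl

theorem nbk_nonneg (k : ℕ) : ∀ n m : ℤ, 0 ≤ nbk A ξ us K k n m := by
  classical
  induction k with
  | zero => intro n m; exact le_rfl
  | succ k ih =>
    intro n m
    rw [nbk_succ]
    have h : ∀ a b : ℤ, 0 ≤ (if Sch A ξ us K k a b then (4 : ℝ) ^ k else 0) +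
        nbk A ξ us K k a b := by
      intro a b
      have := ih a b
      split_ifs <;> positivity
    unfold ch4
    exact add_nonneg (add_nonneg (add_nonneg (h _ _) (h _ _)) (h _ _)) (h _ _)

/-- the state changes at squares in use only -/
theorem Sch_us {k : ℕ} (hk : k < K) {n m : ℤ} (h : Sch A ξ us K k n m) : us k n m := by
  classical
  by_contra hu
  apply h
  rw [ps_step hk, if_neg hu]

/-- no change below a square which is not in use -/
theorem nbk_unused (hus : ∀ k < K, ∀ n m, us k n m → us (k + 1) (n / 2) (m / 2)) (k : ℕ)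
    (hk : k ≤ K) : ∀ n m : ℤ, ¬ us k n m → nbk A ξ us K k n m = 0 := by
  classical
  induction k with
  | zero => intro n m _; rfl
  | succ k ih =>
    intro n m hu
    rw [nbk_succ]
    have h : ∀ a b : ℤ, a / 2 = n → b / 2 = m →
        (if Sch A ξ us K k a b then (4 : ℝ) ^ k else 0) + nbk A ξ us K k a b = 0 := by
      intro a b ha hb
      have h1 : ¬ us k a b := fun h => hu (by have := hus k (by omega) a b h; rwa [ha, hb] at this)
      rw [if_neg fun h => h1 (Sch_us (by omega) h), ih (by omega) a b h1, zero_add]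
    rw [ch4_congr (g := fun _ _ => (0 : ℝ)) fun a b ha hb => h a b ha hb]
    unfold ch4; ring

/-- **Packing of the changes of the state.** -/
theorem nbk_le (hξ : 0 < ξ) (hus : ∀ k < K, ∀ n m, us k n m → us (k + 1) (n / 2) (m / 2)) (k : ℕ)
    (hk : k ≤ K) : ∀ n m : ℤ, us k n m →
      (ps A ξ us K k n m ≤ K → nbk A ξ us K k n m ≤ 3 * 4 ^ k) ∧
      (¬ ps A ξ us K k n m ≤ K → nbk A ξ us K k n m ≤ 4 / ξ * E2 (iv k n) (iv k m) A) := by
  classical
  induction k with
  | zero =>
    intro n m _
    refine ⟨fun _ => ?_, fun _ => ?_⟩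
    · show (0 : ℝ) ≤ _
      positivity
    · show (0 : ℝ) ≤ _
      have := E2_nonneg (iv 0 n) (iv 0 m) A
      positivity
  | succ k ih =>
    intro n m hu
    have ih' := ih (by omega)
    have hkK : k < K := by omega
    have hE0 : ∀ a b : ℤ, 0 ≤ 4 / ξ * E2 (iv k a) (iv k b) A := fun a b =>
      mul_nonneg (by positivity) (E2_nonneg _ _ _)
    refine ⟨fun hon => ?_, fun hoff => ?_⟩
    · rw [nbk_succ]
      have e : 3 * (4 : ℝ) ^ (k + 1) = ch4 n m fun _ _ => 3 * 4 ^ k := by
        unfold ch4; ring
      rw [e]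
      refine ch4_mono fun a b ha hb => ?_
      have hs := ps_step (A := A) (ξ := ξ) (us := us) hkK a b
      rw [ha, hb, if_pos hon] at hs
      by_cases huc : us k a b
      · rw [if_pos huc] at hs
        by_cases hE : E2 (iv k a) (iv k b) A < ξ / 2 * 4 ^ k
        · rw [if_pos hE] at hs
          have h1 := (ih' a b huc).2 (by omega)
          have h2 : 4 / ξ * E2 (iv k a) (iv k b) A ≤ 4 / ξ * (ξ / 2 * 4 ^ k) :=
            mul_le_mul_of_nonneg_left hE.le (by positivity)
          have h3 : 4 / ξ * (ξ / 2 * 4 ^ k) = 2 * 4 ^ k := by field_simp; ring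
          have h4 : (if Sch A ξ us K k a b then (4 : ℝ) ^ k else 0) ≤ 4 ^ k := by
            split_ifs <;> [exact le_rfl; positivity]
          linarith
        · rw [if_neg hE] at hs
          have hns : ¬ Sch A ξ us K k a b := fun h => h (by rw [hs, ha, hb])
          rw [if_neg hns, zero_add]
          exact (ih' a b huc).1 (by rw [hs]; exact hon)
      · have hns : ¬ Sch A ξ us K k a b := fun h => huc (Sch_us hkK h)
        rw [if_neg hns, zero_add, nbk_unused hus k (by omega) a b huc]
        positivity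
    · rw [nbk_succ, E2_children]
      have e : 4 / ξ * (ch4 n m fun a b => E2 (iv k a) (iv k b) A) =
          ch4 n m fun a b => 4 / ξ * E2 (iv k a) (iv k b) A := by
        unfold ch4; ring
      rw [e]
      refine ch4_mono fun a b ha hb => ?_
      have hs := ps_step (A := A) (ξ := ξ) (us := us) hkK a b
      rw [ha, hb, if_neg hoff] at hs
      by_cases huc : us k a b
      · rw [if_pos huc] at hs
        by_cases hE : ξ * 4 ^ k ≤ E2 (iv k a) (iv k b) A
        · rw [if_pos hE] at hs
          have h1 := (ih' a b huc).1 (by rw [hs]; omega)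
          have h2 : 4 / ξ * (ξ * 4 ^ k) ≤ 4 / ξ * E2 (iv k a) (iv k b) A :=
            mul_le_mul_of_nonneg_left hE (by positivity)
          have h3 : 4 / ξ * (ξ * 4 ^ k) = 4 * 4 ^ k := by field_simp
          have h4 : (if Sch A ξ us K k a b then (4 : ℝ) ^ k else 0) ≤ 4 ^ k := by
            split_ifs <;> [exact le_rfl; positivity]
          linarith
        · rw [if_neg hE] at hs
          have hb1 := (ps_bounds (A := A) (ξ := ξ) (us := us)
            (by omega : k + 1 ≤ K) n m)
          have hns : ¬ Sch A ξ us K k a b := fun h => h (by rw [hs, ha, hb]; omega)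
          rw [if_neg hns, zero_add]
          exact (ih' a b huc).2 (by omega)
      · have hns : ¬ Sch A ξ us K k a b := fun h => huc (Sch_us hkK h)
        rw [if_neg hns, zero_add, nbk_unused hus k (by omega) a b huc]
        exact hE0 a b

/-- **Packing of the changes of the state**, the first phase included. -/
theorem nbk_root (hξ : 0 < ξ) (hus : ∀ k < K, ∀ n m, us k n m → us (k + 1) (n / 2) (m / 2))
    (n m : ℤ) : (if ps A ξ us K K n m = K then (4 : ℝ) ^ K else 0) + nbk A ξ us K K n m ≤
      4 / ξ * E2 (iv K n) (iv K m) A := by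
  classical
  have h0 : 0 ≤ 4 / ξ * E2 (iv K n) (iv K m) A := mul_nonneg (by positivity) (E2_nonneg _ _ _)
  by_cases hu : us K n m
  · split_ifs with h
    · have h1 := (nbk_le (A := A) hξ hus K le_rfl n m hu).1 h.le
      have h2 := (birth_us le_rfl h).2
      have h3 : 4 / ξ * (ξ * 4 ^ K) ≤ 4 / ξ * E2 (iv K n) (iv K m) A :=
        mul_le_mul_of_nonneg_left h2 (by positivity)
      have h4 : 4 / ξ * (ξ * 4 ^ K) = 4 * 4 ^ K := by field_simp
      linarith
    · have hb := ps_bounds (A := A) (ξ := ξ) (us := us) (le_refl K) n m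
      have h1 := (nbk_le (A := A) hξ hus K le_rfl n m hu).2 (by omega)
      linarith
  · rw [nbk_unused hus K le_rfl n m hu, add_zero]
    split_ifs with h
    · exact absurd (birth_us le_rfl h).1 hu
    · exact h0

end

end Vale.Agent.P141.H443
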