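import Vale.Agent.P141.H443.Plane1

/-!
# P141, line W, end lemma (E3): stationarity, strong convexity, frames, cap
-/

namespace Vale.Agent.P141.H443

open Finset Vale.Agent.P141.PL Vale.Agent.P141.PL.H317

noncomputable section

theorem quartic_zero {a b c d : ℝ} (h : ∀ s : ℝ, 0 ≤ a * s + b * s ^ 2 + c * s ^ 3 + d * s ^ 4) :
    a = 0 := by
  by_contra ha
  have ha' : 0 < |a| := abs_pos.2 ha
  set M : ℝ := |a| + |b| + |c| + |d| with hM
  have hb := abs_nonneg b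
  have hc := abs_nonneg c
  have hd := abs_nonneg d
  have hM0 : 0 < M := by positivity
  set s : ℝ := -a / M with hs
  have hs1 : |s| ≤ 1 := by
    rw [hs, abs_div, abs_neg, abs_of_pos hM0, div_le_one hM0]
    linarith
  have h1 := h s
  have h2 : b * s ^ 2 ≤ |b| * s ^ 2 := mul_le_mul_of_nonneg_right (le_abs_self b) (sq_nonneg s)
  have h3 : c * s ^ 3 ≤ |c| * s ^ 2 := by
    have : c * s ^ 3 ≤ |c * s ^ 3| := le_abs_self _
    rw [abs_mul, abs_pow] at this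
    refine this.trans (mul_le_mul_of_nonneg_left ?_ hc)
    rw [← sq_abs s, pow_succ]
    exact mul_le_of_le_one_right (sq_nonneg _) hs1
  have h4 : d * s ^ 4 ≤ |d| * s ^ 2 := by
    have : d * s ^ 4 ≤ |d * s ^ 4| := le_abs_self _
    rw [abs_mul, abs_pow] at this
    refine this.trans (mul_le_mul_of_nonneg_left ?_ hd)
    rw [← sq_abs s]
    exact pow_le_pow_of_le_one (abs_nonneg _) hs1 (by norm_num)
  have h5 : a * s = -(M * s ^ 2) := by
    rw [hs]; field_simp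
  have h6 : 0 < s ^ 2 := by
    have : s ≠ 0 := by
      rw [hs]; exact div_ne_zero (neg_ne_zero.2 ha) hM0.ne'
    positivity
  have h7 : M * s ^ 2 = |a| * s ^ 2 + |b| * s ^ 2 + |c| * s ^ 2 + |d| * s ^ 2 := by
    rw [hM]; ring
  have h8 : 0 < |a| * s ^ 2 := mul_pos ha' h6
  linarith

theorem Gr_symm (J : Finset ℤ) (V W : ℤ → ℤ → ℝ) (x x' : ℤ) : Gr J V W x x' = Gr J W V x' x :=
  sum_congr rfl fun _ _ => mul_comm _ _

/-- the inner product of `U Uᵀ` and `Z Uᵀ` -/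
def P3 (I J : Finset ℤ) (U Z : ℤ → ℤ → ℝ) : ℝ :=
  ∑ x ∈ I, ∑ x' ∈ I, Gr J U U x x' * Gr J Z U x x'

theorem P3_self (I J : Finset ℤ) (U : ℤ → ℤ → ℝ) : P3 I J U U = T4 I J U := by
  unfold P3 T4
  exact sum_congr rfl fun x _ => sum_congr rfl fun x' _ => (sq _).symm

theorem P3_sub (I J : Finset ℤ) (U V W : ℤ → ℤ → ℝ) :
    P3 I J U (fun x y => V x y - W x y) = P3 I J U V - P3 I J U W := by
  unfold P3
  rw [← sum_sub_distrib]
  refine sum_congr rfl fun x _ => ?_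
  rw [← sum_sub_distrib]
  refine sum_congr rfl fun x' _ => ?_
  have : Gr J (fun x y => V x y - W x y) U x x' = Gr J V U x x' - Gr J W U x x' := by
    unfold Gr
    rw [← sum_sub_distrib]
    exact sum_congr rfl fun y _ => by ring
  rw [this]; ring

/-- the third power of a kernel -/
def U3 (I J : Finset ℤ) (U : ℤ → ℤ → ℝ) (x y : ℤ) : ℝ := ∑ x' ∈ I, Gr J U U x x' * U x' y

theorem P3_eq (I J : Finset ℤ) (U Z : ℤ → ℤ → ℝ) :
    P3 I J U Z = ∑ x ∈ I, ∑ y ∈ J, Z x y * U3 I J U x y := by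
  unfold P3
  refine sum_congr rfl fun x _ => ?_
  have h : ∀ x', Gr J U U x x' * Gr J Z U x x' =
      ∑ y ∈ J, Z x y * (Gr J U U x x' * U x' y) := by
    intro x'
    rw [show Gr J Z U x x' = ∑ y ∈ J, Z x y * U x' y from rfl, mul_sum]
    exact sum_congr rfl fun y _ => by ring
  simp only [h]
  rw [sum_comm]
  refine sum_congr rfl fun y _ => ?_
  unfold U3
  rw [mul_sum]

theorem P3_swap (I J : Finset ℤ) (U Z : ℤ → ℤ → ℝ) :
    ∑ x ∈ I, ∑ x' ∈ I, Gr J U U x x' * Gr J U Z x x' = P3 I J U Z := by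
  unfold P3
  rw [sum_comm]
  refine sum_congr rfl fun x _ => sum_congr rfl fun x' _ => ?_
  rw [Gr_symm J U U x' x, Gr_symm J U Z x' x]

/-- **Euler–Lagrange, weak form.** -/
theorem el_weak {c : ℝ} {A U : ℤ → ℤ → ℝ} {k : ℕ} {n m : ℤ}
    (hU : ∀ V, fE A c k n m U ≤ fE A c k n m V) (Z : ℤ → ℤ → ℝ) :
    ∑ x ∈ iv k n, ∑ y ∈ iv k m, (A x y - U x y) * Z x y =
      2 * c * (4 ^ k)⁻¹ * P3 (iv k n) (iv k m) U Z := by
  set I := iv k n
  set J := iv k m
  set β : ℝ := c * (4 ^ k)⁻¹ with hβ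
  set D : ℝ := ∑ x ∈ I, ∑ y ∈ J, (A x y - U x y) * Z x y with hD
  -- expansion of the energy
  have hE : ∀ s : ℝ, E2 I J (fun x y => A x y - (U x y + s * Z x y)) =
      E2 I J (fun x y => A x y - U x y) - 2 * s * D + s ^ 2 * E2 I J Z := by
    intro s
    unfold E2
    rw [hD, mul_sum, mul_sum, ← sum_sub_distrib, ← sum_add_distrib]
    refine sum_congr rfl fun x _ => ?_
    rw [mul_sum, mul_sum, ← sum_sub_distrib, ← sum_add_distrib]
    exact sum_congr rfl fun y _ => by ring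
  have hG : ∀ (s : ℝ) (x x' : ℤ), Gr J (fun x y => U x y + s * Z x y)
      (fun x y => U x y + s * Z x y) x x' =
      Gr J U U x x' + s * (Gr J U Z x x' + Gr J Z U x x') + s ^ 2 * Gr J Z Z x x' := by
    intro s x x'
    unfold Gr
    rw [mul_sum, ← sum_add_distrib, mul_sum, ← sum_add_distrib, ← sum_add_distrib]
    exact sum_congr rfl fun y _ => by ring
  set b : ℝ := ∑ x ∈ I, ∑ x' ∈ I, ((Gr J U Z x x' + Gr J Z U x x') ^ 2 +
    2 * Gr J U U x x' * Gr J Z Z x x') with hb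
  set c3 : ℝ := ∑ x ∈ I, ∑ x' ∈ I, 2 * (Gr J U Z x x' + Gr J Z U x x') * Gr J Z Z x x' with hc3
  have hT : ∀ s : ℝ, T4 I J (fun x y => U x y + s * Z x y) =
      T4 I J U + s * (4 * P3 I J U Z) + s ^ 2 * b + s ^ 3 * c3 + s ^ 4 * T4 I J Z := by
    intro s
    have h1 : 4 * P3 I J U Z = ∑ x ∈ I, ∑ x' ∈ I,
        2 * Gr J U U x x' * (Gr J U Z x x' + Gr J Z U x x') := by
      have h2 := P3_swap I J U Z
      have h3 : ∑ x ∈ I, ∑ x' ∈ I, 2 * Gr J U U x x' * (Gr J U Z x x' + Gr J Z U x x') =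
          2 * ∑ x ∈ I, ∑ x' ∈ I, Gr J U U x x' * Gr J U Z x x' +
          2 * ∑ x ∈ I, ∑ x' ∈ I, Gr J U U x x' * Gr J Z U x x' := by
        rw [mul_sum, mul_sum, ← sum_add_distrib]
        refine sum_congr rfl fun x _ => ?_
        rw [mul_sum, mul_sum, ← sum_add_distrib]
        exact sum_congr rfl fun x' _ => by ring
      rw [h3, h2]
      show 4 * P3 I J U Z = 2 * P3 I J U Z + 2 * P3 I J U Z
      ring
    rw [h1]
    unfold T4
    rw [hb, hc3, mul_sum, mul_sum, mul_sum, mul_sum, ← sum_add_distrib, ← sum_add_distrib,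
      ← sum_add_distrib, ← sum_add_distrib]
    refine sum_congr rfl fun x _ => ?_
    rw [mul_sum, mul_sum, mul_sum, mul_sum, ← sum_add_distrib, ← sum_add_distrib,
      ← sum_add_distrib, ← sum_add_distrib]
    refine sum_congr rfl fun x' _ => ?_
    rw [hG]
    ring
  have key : ∀ s : ℝ, 0 ≤ (-2 * D + 4 * β * P3 I J U Z) * s + (E2 I J Z + β * b) * s ^ 2 +
      (β * c3) * s ^ 3 + (β * T4 I J Z) * s ^ 4 := by
    intro s
    have h1 := hU fun x y => U x y + s * Z x y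
    unfold fE at h1
    rw [hE s, hT s] at h1
    have : c * (4 ^ k)⁻¹ = β := rfl
    rw [this] at h1
    linarith
  have h2 := quartic_zero key
  have h3 : 2 * c * (4 ^ k)⁻¹ = 2 * β := by rw [hβ]; ring
  rw [h3]
  linarith

/-- **Euler–Lagrange.** -/
theorem el {c : ℝ} {A U : ℤ → ℤ → ℝ} {k : ℕ} {n m : ℤ}
    (hU : ∀ V, fE A c k n m U ≤ fE A c k n m V) {x y : ℤ} (hx : x ∈ iv k n) (hy : y ∈ iv k m) :
    A x y - U x y = 2 * c * (4 ^ k)⁻¹ * U3 (iv k n) (iv k m) U x y := by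
  classical
  have h := el_weak hU fun x' y' => if x' = x then (if y' = y then (1 : ℝ) else 0) else 0
  rw [P3_eq] at h
  have h1 : ∀ F : ℤ → ℤ → ℝ, ∑ x' ∈ iv k n, ∑ y' ∈ iv k m,
      F x' y' * (if x' = x then (if y' = y then (1 : ℝ) else 0) else 0) = F x y := by
    intro F
    rw [sum_eq_single_of_mem x hx, sum_eq_single_of_mem y hy]
    · simp
    · intro y' _ hne
      simp [hne]
    · intro x' _ hne
      simp [hne]
  have h2 : ∀ F : ℤ → ℤ → ℝ, ∑ x' ∈ iv k n, ∑ y' ∈ iv k m,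
      (if x' = x then (if y' = y then (1 : ℝ) else 0) else 0) * F x' y' = F x y := by
    intro F
    rw [← h1 F]
    exact sum_congr rfl fun _ _ => sum_congr rfl fun _ _ => mul_comm _ _
  rw [h1, h2] at h
  exact h

theorem P3_le (I J : Finset ℤ) (U V : ℤ → ℤ → ℝ) :
    4 * P3 I J U V ≤ T4 I J V + 3 * T4 I J U := by
  have h1 : 2 * P3 I J U V ≤ T4 I J U + ∑ x ∈ I, ∑ x' ∈ I, Gr J V U x x' * Gr J V U x x' := by
    unfold P3 T4
    rw [mul_sum, ← sum_add_distrib]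
    refine sum_le_sum fun x _ => ?_
    rw [mul_sum, ← sum_add_distrib]
    exact sum_le_sum fun x' _ => by nlinarith [sq_nonneg (Gr J U U x x' - Gr J V U x x')]
  rw [sum_Gr_mul] at h1
  have h2 : 2 * ∑ y ∈ J, ∑ y' ∈ J, Gc I V V y y' * Gc I U U y y' ≤ T4 I J V + T4 I J U := by
    rw [T4_cols, T4_cols, mul_sum, ← sum_add_distrib]
    refine sum_le_sum fun x _ => ?_
    rw [mul_sum, ← sum_add_distrib]
    exact sum_le_sum fun x' _ => by nlinarith [sq_nonneg (Gc I V V x x' - Gc I U U x x')]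
  linarith

/-- **Strong convexity.** -/
theorem strong {c : ℝ} (hc : 0 ≤ c) {A U : ℤ → ℤ → ℝ} {k : ℕ} {n m : ℤ}
    (hU : ∀ V, fE A c k n m U ≤ fE A c k n m V) (V : ℤ → ℤ → ℝ) :
    fE A c k n m U + E2 (iv k n) (iv k m) (fun x y => V x y - U x y) ≤ fE A c k n m V := by
  set I := iv k n
  set J := iv k m
  have h1 := el_weak hU fun x y => V x y - U x y
  rw [P3_sub, P3_self] at h1
  have h2 : E2 I J (fun x y => A x y - V x y) = E2 I J (fun x y => A x y - U x y) -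
      2 * ∑ x ∈ I, ∑ y ∈ J, (A x y - U x y) * (V x y - U x y) +
      E2 I J (fun x y => V x y - U x y) := by
    unfold E2
    rw [mul_sum, ← sum_sub_distrib, ← sum_add_distrib]
    refine sum_congr rfl fun x _ => ?_
    rw [mul_sum, ← sum_sub_distrib, ← sum_add_distrib]
    exact sum_congr rfl fun y _ => by ring
  have h3 := mul_le_mul_of_nonneg_left (P3_le I J U V) (by positivity : 0 ≤ c * (4 ^ k : ℝ)⁻¹)
  unfold fE
  rw [h2, h1]
  have e : c * (4 ^ k : ℝ)⁻¹ * (4 * P3 I J U V) = 4 * (c * (4 ^ k)⁻¹ * P3 I J U V) := by ring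
  nlinarith

/-! ### Rows and columns -/

theorem sq_le_of_le_mul {I : Finset ℤ} {f g : ℤ → ℝ}
    (h : ∑ x ∈ I, g x ^ 2 ≤ ∑ x ∈ I, f x * g x) : ∑ x ∈ I, g x ^ 2 ≤ ∑ x ∈ I, f x ^ 2 := by
  have h1 : ∑ x ∈ I, f x * g x ≤ ∑ x ∈ I, (f x ^ 2 + g x ^ 2) / 2 :=
    sum_le_sum fun x _ => by nlinarith [sq_nonneg (f x - g x)]
  rw [← sum_div, sum_add_distrib] at h1
  linarith

/-- the rows of the minimiser -/
theorem row_le {c : ℝ} (hc : 0 ≤ c) {A U : ℤ → ℤ → ℝ} {k : ℕ} {n m : ℤ}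
    (hU : ∀ V, fE A c k n m U ≤ fE A c k n m V) {x : ℤ} (hx : x ∈ iv k n) :
    ∑ y ∈ iv k m, U x y ^ 2 ≤ ∑ y ∈ iv k m, A x y ^ 2 := by
  refine sq_le_of_le_mul ?_
  have h1 : ∑ y ∈ iv k m, A x y * U x y = ∑ y ∈ iv k m, U x y ^ 2 +
      2 * c * (4 ^ k)⁻¹ * ∑ x' ∈ iv k n, Gr (iv k m) U U x x' ^ 2 := by
    have h2 : ∀ y ∈ iv k m, A x y * U x y = U x y ^ 2 +
        2 * c * (4 ^ k)⁻¹ * (U3 (iv k n) (iv k m) U x y * U x y) := by
      intro y hy
      have := el hU hx hy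
      linear_combination U x y * this
    rw [sum_congr rfl h2, sum_add_distrib, ← mul_sum]
    congr 2
    unfold U3
    have h3 : ∀ y, (∑ x' ∈ iv k n, Gr (iv k m) U U x x' * U x' y) * U x y =
        ∑ x' ∈ iv k n, Gr (iv k m) U U x x' * (U x y * U x' y) := by
      intro y
      rw [sum_mul]
      exact sum_congr rfl fun x' _ => by ring
    simp only [h3]
    rw [sum_comm]
    refine sum_congr rfl fun x' _ => ?_
    rw [← mul_sum, sq]
    rfl
  rw [h1]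
  have : 0 ≤ 2 * c * (4 ^ k : ℝ)⁻¹ * ∑ x' ∈ iv k n, Gr (iv k m) U U x x' ^ 2 :=
    mul_nonneg (by positivity) (sum_nonneg fun _ _ => sq_nonneg _)
  linarith

/-- the columns of the minimiser -/
theorem col_le {c : ℝ} (hc : 0 ≤ c) {A U : ℤ → ℤ → ℝ} {k : ℕ} {n m : ℤ}
    (hU : ∀ V, fE A c k n m U ≤ fE A c k n m V) {y : ℤ} (hy : y ∈ iv k m) :
    ∑ x ∈ iv k n, U x y ^ 2 ≤ ∑ x ∈ iv k n, A x y ^ 2 := by
  refine sq_le_of_le_mul ?_
  have h1 : ∑ x ∈ iv k n, A x y * U x y = ∑ x ∈ iv k n, U x y ^ 2 +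
      2 * c * (4 ^ k)⁻¹ * ∑ y' ∈ iv k m, Gc (iv k n) U U y y' ^ 2 := by
    have h2 : ∀ x ∈ iv k n, A x y * U x y = U x y ^ 2 +
        2 * c * (4 ^ k)⁻¹ * (U3 (iv k n) (iv k m) U x y * U x y) := by
      intro x hx
      have := el hU hx hy
      linear_combination U x y * this
    rw [sum_congr rfl h2, sum_add_distrib, ← mul_sum]
    congr 2
    have h3 : ∀ x, U3 (iv k n) (iv k m) U x y * U x y =
        ∑ x' ∈ iv k n, ∑ y' ∈ iv k m, (U x y * U x y') * (U x' y * U x' y') := by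
      intro x
      unfold U3 Gr
      rw [sum_mul]
      refine sum_congr rfl fun x' _ => ?_
      rw [sum_mul, sum_mul]
      exact sum_congr rfl fun y' _ => by ring
    simp only [h3]
    have h4 : ∀ y', Gc (iv k n) U U y y' ^ 2 =
        ∑ x ∈ iv k n, ∑ x' ∈ iv k n, (U x y * U x y') * (U x' y * U x' y') := by
      intro y'
      unfold Gc
      rw [sq, sum_mul_sum]
    simp only [h4]
    rw [sum_comm (s := iv k m)]
    refine sum_congr rfl fun x _ => ?_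
    rw [sum_comm]
  rw [h1]
  have : 0 ≤ 2 * c * (4 ^ k : ℝ)⁻¹ * ∑ y' ∈ iv k m, Gc (iv k n) U U y y' ^ 2 :=
    mul_nonneg (by positivity) (sum_nonneg fun _ _ => sq_nonneg _)
  linarith

end

end Vale.Agent.P141.H443
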