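import Vale.Agent.P141.H443.Plane2

/-!
# P141, line W, end lemma (E3): the cap, the frames, the references, the packing of the resets

Main results (`A` a kernel, root square `(K; ·, ·)`, `us` the squares in use, `rf us K k n m` =
scale of the reference of the square `(k; n, m)`, `Rs us K k` = residual at scale `k`):

* `frame_eq`, `fa_le`, `fb_le`: `A - Um = ∑ fa fb` on a square, pointwise bounds of the frames;
* `cap_Rs`: operator norm of the residual on every square;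
* `rf_top`, `rf_step`, `close`: the references;
* `pack`: `ξ ∑ (area of the reset squares) ≤ ∑ A²`.
-/

namespace Vale.Agent.P141.H443

open Finset Vale.Agent.P141.PL Vale.Agent.P141.PL.H317

noncomputable section

/-! ### Caps -/

theorem form_sq_le (I J : Finset ℤ) (u v : ℤ → ℝ) (U : ℤ → ℤ → ℝ) :
    (∑ x ∈ I, ∑ y ∈ J, u x * v y * U x y) ^ 2 ≤
      √(T4 I J U) * (∑ x ∈ I, u x ^ 2) * ∑ y ∈ J, v y ^ 2 := by
  have h1 : ∑ x ∈ I, ∑ y ∈ J, u x * v y * U x y = ∑ y ∈ J, v y * ∑ x ∈ I, u x * U x y := by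
    rw [sum_comm]
    refine sum_congr rfl fun y _ => ?_
    rw [mul_sum]
    exact sum_congr rfl fun x _ => by ring
  have h2 := sum_mul_sq_le_sq_mul_sq J v fun y => ∑ x ∈ I, u x * U x y
  rw [← h1] at h2
  have h3 : ∑ y ∈ J, (∑ x ∈ I, u x * U x y) ^ 2 =
      ∑ p ∈ I ×ˢ I, (u p.1 * u p.2) * Gr J U U p.1 p.2 := by
    rw [sum_product]
    have h4 : ∀ y, (∑ x ∈ I, u x * U x y) ^ 2 =
        ∑ x ∈ I, ∑ x' ∈ I, (u x * u x') * (U x y * U x' y) := by
      intro y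
      rw [sq, sum_mul_sum]
      exact sum_congr rfl fun x _ => sum_congr rfl fun x' _ => by ring
    simp only [h4]
    rw [sum_comm]
    refine sum_congr rfl fun x _ => ?_
    rw [sum_comm]
    refine sum_congr rfl fun x' _ => ?_
    unfold Gr
    rw [mul_sum]
  have h5 : ∑ p ∈ I ×ˢ I, (u p.1 * u p.2) ^ 2 = (∑ x ∈ I, u x ^ 2) ^ 2 := by
    rw [sum_product, sq, sum_mul_sum]
    exact sum_congr rfl fun x _ => sum_congr rfl fun x' _ => by ring
  have h6 : ∑ p ∈ I ×ˢ I, Gr J U U p.1 p.2 ^ 2 = T4 I J U := by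
    rw [sum_product]; rfl
  have h7 := Real.sum_mul_le_sqrt_mul_sqrt (I ×ˢ I) (fun p => u p.1 * u p.2)
    fun p => Gr J U U p.1 p.2
  rw [h5, h6, Real.sqrt_sq (sum_nonneg fun _ _ => sq_nonneg _)] at h7
  have h8 : 0 ≤ ∑ y ∈ J, v y ^ 2 := sum_nonneg fun _ _ => sq_nonneg _
  calc _ ≤ (∑ y ∈ J, v y ^ 2) * ∑ y ∈ J, (∑ x ∈ I, u x * U x y) ^ 2 := h2
    _ ≤ (∑ y ∈ J, v y ^ 2) * ((∑ x ∈ I, u x ^ 2) * √(T4 I J U)) := by
        rw [h3]
        exact mul_le_mul_of_nonneg_left h7 h8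
    _ = _ := by ring

theorem cap_of_T4 {k : ℕ} {n m : ℤ} {s : ℝ} {U : ℤ → ℤ → ℝ}
    (h : T4 (iv k n) (iv k m) U ≤ s ^ 4 * 16 ^ k) : Cap k n m s U := by
  intro u v
  refine (form_sq_le _ _ u v U).trans ?_
  have h1 : √(T4 (iv k n) (iv k m) U) ≤ (s * 2 ^ k) ^ 2 := by
    rw [← Real.sqrt_sq (by positivity : 0 ≤ (s * 2 ^ k) ^ 2)]
    refine Real.sqrt_le_sqrt (h.trans (le_of_eq ?_))
    rw [← pow_mul, mul_pow, ← pow_mul, show (16 : ℝ) = 2 ^ 4 by norm_num, ← pow_mul]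
    congr 2
    ring
  exact mul_le_mul_of_nonneg_right (mul_le_mul_of_nonneg_right h1
    (sum_nonneg fun _ _ => sq_nonneg _)) (sum_nonneg fun _ _ => sq_nonneg _)

theorem cap_congr {k : ℕ} {n m : ℤ} {s : ℝ} {U V : ℤ → ℤ → ℝ}
    (h : ∀ x ∈ iv k n, ∀ y ∈ iv k m, U x y = V x y) (hU : Cap k n m s U) : Cap k n m s V := by
  intro u v
  have := hU u v
  rwa [sum_congr rfl fun x hx => sum_congr rfl fun y hy => by rw [h x hx y hy]] at this

theorem cap_add' {k : ℕ} {n m : ℤ} {s t : ℝ} (hs : 0 ≤ s) (ht : 0 ≤ t) {U V : ℤ → ℤ → ℝ}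
    (hU : Cap k n m s U) (hV : Cap k n m t V) : Cap k n m (s + t) fun x y => U x y + V x y := by
  intro u v
  have h1 := hU u v
  have h2 := hV u v
  set X := ∑ x ∈ iv k n, ∑ y ∈ iv k m, u x * v y * U x y
  set Y := ∑ x ∈ iv k n, ∑ y ∈ iv k m, u x * v y * V x y
  set P := (∑ x ∈ iv k n, u x ^ 2) * ∑ y ∈ iv k m, v y ^ 2 with hP
  have hP0 : 0 ≤ P := mul_nonneg (sum_nonneg fun _ _ => sq_nonneg _)
    (sum_nonneg fun _ _ => sq_nonneg _)
  have e : ∑ x ∈ iv k n, ∑ y ∈ iv k m, u x * v y * (U x y + V x y) = X + Y := by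
    rw [← sum_add_distrib]
    refine sum_congr rfl fun x _ => ?_
    rw [← sum_add_distrib]
    exact sum_congr rfl fun y _ => by ring
  rw [e, mul_assoc, ← hP]
  rw [mul_assoc, ← hP] at h1 h2
  have a1 : |X| ≤ s * 2 ^ k * √P := by
    refine abs_le_of_sq_le_sq ?_ (by positivity)
    rw [mul_pow, Real.sq_sqrt hP0]; exact h1
  have a2 : |Y| ≤ t * 2 ^ k * √P := by
    refine abs_le_of_sq_le_sq ?_ (by positivity)
    rw [mul_pow, Real.sq_sqrt hP0]; exact h2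
  have a3 : |X + Y| ≤ (s + t) * 2 ^ k * √P := by
    refine (abs_add_le _ _).trans ?_
    linarith
  calc (X + Y) ^ 2 = |X + Y| ^ 2 := (sq_abs _).symm
    _ ≤ ((s + t) * 2 ^ k * √P) ^ 2 := pow_le_pow_left₀ (abs_nonneg _) a3 2
    _ = _ := by rw [mul_pow, Real.sq_sqrt hP0]

theorem cap_of_E2 {k : ℕ} {n m : ℤ} {s : ℝ} {U : ℤ → ℤ → ℝ}
    (h : E2 (iv k n) (iv k m) U ≤ s ^ 2 * 4 ^ k) : Cap k n m s U := by
  intro u v
  have h1 : ∑ x ∈ iv k n, ∑ y ∈ iv k m, u x * v y * U x y =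
      ∑ p ∈ iv k n ×ˢ iv k m, (u p.1 * v p.2) * U p.1 p.2 := by
    rw [sum_product]
  have h2 := sum_mul_sq_le_sq_mul_sq (iv k n ×ˢ iv k m) (fun p => u p.1 * v p.2)
    fun p => U p.1 p.2
  have h3 : ∑ p ∈ iv k n ×ˢ iv k m, (u p.1 * v p.2) ^ 2 =
      (∑ x ∈ iv k n, u x ^ 2) * ∑ y ∈ iv k m, v y ^ 2 := by
    rw [sum_product, sum_mul_sum]
    exact sum_congr rfl fun x _ => sum_congr rfl fun x' _ => by ring
  have h4 : ∑ p ∈ iv k n ×ˢ iv k m, U p.1 p.2 ^ 2 = E2 (iv k n) (iv k m) U := by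
    rw [sum_product]; rfl
  rw [h1]
  refine h2.trans ?_
  rw [h3, h4]
  have h5 : 0 ≤ (∑ x ∈ iv k n, u x ^ 2) * ∑ y ∈ iv k m, v y ^ 2 :=
    mul_nonneg (sum_nonneg fun _ _ => sq_nonneg _) (sum_nonneg fun _ _ => sq_nonneg _)
  have h6 := mul_le_mul_of_nonneg_left h h5
  have h7 : (2 : ℝ) ^ k * 2 ^ k = 4 ^ k := by rw [← mul_pow]; norm_num
  have h8 : (s * 2 ^ k) ^ 2 = s ^ 2 * 4 ^ k := by rw [mul_pow, sq (2 ^ k : ℝ), h7]
  rw [h8]
  linarith

/-! ### The frames -/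

/-- the first frame of the square, index `x'` -/
def fa (A : ℤ → ℤ → ℝ) (c : ℝ) (k : ℕ) (n m : ℤ) (x' x : ℤ) : ℝ :=
  2 * c * (4 ^ k)⁻¹ * √(2 ^ k) * Gr (iv k m) (Um A c k n m) (Um A c k n m) x x'

/-- the second frame of the square, index `x'` -/
def fb (A : ℤ → ℤ → ℝ) (c : ℝ) (k : ℕ) (n m : ℤ) (x' y : ℤ) : ℝ :=
  (√(2 ^ k))⁻¹ * Um A c k n m x' y

theorem frame_eq {c : ℝ} (hc : 0 ≤ c) (A : ℤ → ℤ → ℝ) {k : ℕ} {n m : ℤ} {x y : ℤ}
    (hx : x ∈ iv k n) (hy : y ∈ iv k m) :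
    A x y - Um A c k n m x y = ∑ x' ∈ iv k n, fa A c k n m x' x * fb A c k n m x' y := by
  rw [el (Um_min hc A k n m) hx hy]
  unfold U3 fa fb
  rw [mul_sum]
  refine sum_congr rfl fun x' _ => ?_
  have : √(2 ^ k : ℝ) * (√(2 ^ k))⁻¹ = 1 := mul_inv_cancel₀ (by positivity)
  linear_combination (-(2 * c * (4 ^ k)⁻¹ * Gr (iv k m) (Um A c k n m) (Um A c k n m) x x' *
    Um A c k n m x' y)) * this

theorem fb_le {c : ℝ} (hc : 0 ≤ c) {A : ℤ → ℤ → ℝ} {k : ℕ} {n m : ℤ} {y : ℤ}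
    (hy : y ∈ iv k m) {Λ : ℝ} (hA : ∑ x ∈ iv k n, A x y ^ 2 ≤ Λ * 2 ^ k) :
    ∑ x' ∈ iv k n, fb A c k n m x' y ^ 2 ≤ Λ := by
  unfold fb
  have h1 : ∀ x' : ℤ, ((√(2 ^ k : ℝ))⁻¹ * Um A c k n m x' y) ^ 2 =
      (2 ^ k : ℝ)⁻¹ * Um A c k n m x' y ^ 2 := by
    intro x'
    rw [mul_pow, inv_pow, Real.sq_sqrt (by positivity)]
  simp only [h1]
  rw [← mul_sum, inv_mul_le_iff₀ (by positivity), mul_comm]
  exact (col_le hc (Um_min hc A k n m) hy).trans hA

theorem fa_le {c : ℝ} (hc : 0 ≤ c) {A : ℤ → ℤ → ℝ} {k : ℕ} {n m : ℤ} {x : ℤ}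
    (hx : x ∈ iv k n) {Λ : ℝ} (hA : ∀ x ∈ iv k n, ∑ y ∈ iv k m, A x y ^ 2 ≤ Λ * 2 ^ k) :
    ∑ x' ∈ iv k n, fa A c k n m x' x ^ 2 ≤ 4 * c ^ 2 * Λ ^ 2 := by
  unfold fa
  set U := Um A c k n m with hU
  have hr : ∀ x ∈ iv k n, ∑ y ∈ iv k m, U x y ^ 2 ≤ Λ * 2 ^ k := fun x hx =>
    (row_le hc (Um_min hc A k n m) hx).trans (hA x hx)
  have hL : 0 ≤ Λ * 2 ^ k := (sum_nonneg fun _ _ => sq_nonneg _).trans (hA x hx)
  have h1 : ∀ x' ∈ iv k n, (2 * c * (4 ^ k : ℝ)⁻¹ * √(2 ^ k) * Gr (iv k m) U U x x') ^ 2 ≤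
      4 * c ^ 2 * ((4 ^ k : ℝ)⁻¹) ^ 2 * 2 ^ k * (Λ * 2 ^ k) ^ 2 := by
    intro x' hx'
    have h2 : Gr (iv k m) U U x x' ^ 2 ≤ (Λ * 2 ^ k) ^ 2 := by
      have h3 := sum_mul_sq_le_sq_mul_sq (iv k m) (fun y => U x y) fun y => U x' y
      refine h3.trans ?_
      rw [sq (Λ * 2 ^ k)]
      exact mul_le_mul (hr x hx) (hr x' hx') (sum_nonneg fun _ _ => sq_nonneg _) hL
    calc (2 * c * (4 ^ k : ℝ)⁻¹ * √(2 ^ k) * Gr (iv k m) U U x x') ^ 2
        = 4 * c ^ 2 * ((4 ^ k : ℝ)⁻¹) ^ 2 * (√(2 ^ k)) ^ 2 * Gr (iv k m) U U x x' ^ 2 := by ring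
      _ = 4 * c ^ 2 * ((4 ^ k : ℝ)⁻¹) ^ 2 * 2 ^ k * Gr (iv k m) U U x x' ^ 2 := by
          rw [Real.sq_sqrt (by positivity)]
      _ ≤ _ := mul_le_mul_of_nonneg_left h2 (by positivity)
  refine (sum_le_card_nsmul _ _ _ h1).trans (le_of_eq ?_)
  rw [card_iv, nsmul_eq_mul]
  have h4 : (4 : ℝ) ^ k = 2 ^ k * 2 ^ k := by rw [← mul_pow]; norm_num
  rw [h4]
  push_cast
  field_simp

/-! ### The references -/

/-- the glued minimisers of scale `k` -/
def Ug (A : ℤ → ℤ → ℝ) (c : ℝ) (k : ℕ) (x y : ℤ) : ℝ := Um A c k (ix k x) (ix k y) x y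

theorem Ug_eq (A : ℤ → ℤ → ℝ) (c : ℝ) {k : ℕ} {n m x y : ℤ} (hx : x ∈ iv k n) (hy : y ∈ iv k m) :
    Ug A c k x y = Um A c k n m x y := by
  unfold Ug
  rw [mem_iv.1 hx, mem_iv.1 hy]

/-- The square is reset when the reference function is `W`; only the squares in `us` are reset. -/
def Rst (A : ℤ → ℤ → ℝ) (c ξ : ℝ) (us : ℕ → ℤ → ℤ → Prop) (k : ℕ) (n m : ℤ)
    (W : ℤ → ℤ → ℝ) : Prop :=
  us k n m ∧ ξ * 4 ^ k ≤ E2 (iv k n) (iv k m) fun x y => Um A c k n m x y - W x y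

theorem Rst_congr {A : ℤ → ℤ → ℝ} {c ξ : ℝ} {us : ℕ → ℤ → ℤ → Prop} {k : ℕ} {n m : ℤ}
    {W W' : ℤ → ℤ → ℝ} (h : ∀ x ∈ iv k n, ∀ y ∈ iv k m, W x y = W' x y) :
    Rst A c ξ us k n m W ↔ Rst A c ξ us k n m W' := by
  unfold Rst
  rw [E2_congr (V := fun x y => Um A c k n m x y - W x y)
    (W := fun x y => Um A c k n m x y - W' x y) fun x hx y hy => by rw [h x hx y hy]]

open Classical in
/-- the reference after `j` steps -/
def rfs (A : ℤ → ℤ → ℝ) (c ξ : ℝ) (us : ℕ → ℤ → ℤ → Prop) (K : ℕ) (j : ℕ) : ℤ → ℤ → ℕ :=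
  Nat.rec (fun _ _ => K) (fun i r n m =>
    if Rst A c ξ us (K - (i + 1)) n m (Ug A c (r (n / 2) (m / 2))) then K - (i + 1)
      else r (n / 2) (m / 2)) j

/-- **The scale of the reference** of the square `(k; n, m)`, `k ≤ K`. -/
def rf (A : ℤ → ℤ → ℝ) (c ξ : ℝ) (us : ℕ → ℤ → ℤ → Prop) (K k : ℕ) (n m : ℤ) : ℕ :=
  rfs A c ξ us K (K - k) n m

variable {A : ℤ → ℤ → ℝ} {c ξ : ℝ} {us : ℕ → ℤ → ℤ → Prop} {K : ℕ}

theorem rf_top (n m : ℤ) : rf A c ξ us K K n m = K := by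
  unfold rf
  rw [Nat.sub_self]
  rfl

open Classical in
theorem rf_step {k : ℕ} (hk : k < K) (n m : ℤ) :
    rf A c ξ us K k n m = if Rst A c ξ us k n m (Ug A c (rf A c ξ us K (k + 1) (n / 2) (m / 2))) then k
      else rf A c ξ us K (k + 1) (n / 2) (m / 2) := by
  unfold rf
  have h1 : K - k = (K - (k + 1)) + 1 := by omega
  have h2 : K - ((K - (k + 1)) + 1) = k := by omega
  rw [h1]
  show (if Rst A c ξ us (K - ((K - (k + 1)) + 1)) n m _ then K - ((K - (k + 1)) + 1) else _) = _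
  rw [h2]
  rfl

theorem rf_bounds {k : ℕ} (hk : k ≤ K) (n m : ℤ) :
    k ≤ rf A c ξ us K k n m ∧ rf A c ξ us K k n m ≤ K := by
  have key : ∀ d k, k + d = K → ∀ n m, k ≤ rf A c ξ us K k n m ∧ rf A c ξ us K k n m ≤ K := by
    intro d
    induction d with
    | zero =>
      intro k hk n m
      have : k = K := by omega
      subst this
      rw [rf_top]; exact ⟨le_rfl, le_rfl⟩
    | succ d ih =>
      intro k hk n m
      have h := ih (k + 1) (by omega) (n / 2) (m / 2)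
      rw [rf_step (by omega : k < K)]
      split_ifs
      · exact ⟨le_rfl, by omega⟩
      · exact ⟨by omega, h.2⟩
  exact key (K - k) k (by omega) n m

/-- `r < k`-reference: the reference is the square itself or the one of the parent -/
theorem rf_inherit {k : ℕ} (hk : k < K) (n m : ℤ) (h : rf A c ξ us K k n m ≠ k) :
    rf A c ξ us K k n m = rf A c ξ us K (k + 1) (n / 2) (m / 2) := by
  rw [rf_step hk] at h ⊢
  split_ifs with h1
  · rw [if_pos h1] at h; exact absurd rfl h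
  · rfl

/-- the residual at scale `k` -/
def Rs (A : ℤ → ℤ → ℝ) (c ξ : ℝ) (us : ℕ → ℤ → ℤ → Prop) (K k : ℕ) (x y : ℤ) : ℝ :=
  Ug A c (rf A c ξ us K k (ix k x) (ix k y)) x y

theorem Rs_eq {k : ℕ} {n m x y : ℤ} (hx : x ∈ iv k n) (hy : y ∈ iv k m) :
    Rs A c ξ us K k x y = Ug A c (rf A c ξ us K k n m) x y := by
  unfold Rs
  rw [mem_iv.1 hx, mem_iv.1 hy]

/-- The reference is close to the minimiser. -/
theorem close (hξ : 0 < ξ) {k : ℕ} (hk : k ≤ K) {n m : ℤ} (hu : us k n m) :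
    E2 (iv k n) (iv k m) (fun x y => Um A c k n m x y - Ug A c (rf A c ξ us K k n m) x y) ≤
      ξ * 4 ^ k := by
  have self : E2 (iv k n) (iv k m) (fun x y => Um A c k n m x y - Ug A c k x y) ≤ ξ * 4 ^ k := by
    have : E2 (iv k n) (iv k m) (fun x y => Um A c k n m x y - Ug A c k x y) = 0 := by
      unfold E2
      refine sum_eq_zero fun x hx => sum_eq_zero fun y hy => ?_
      show (Um A c k n m x y - Ug A c k x y) ^ 2 = 0
      rw [Ug_eq A c hx hy]; ring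
    rw [this]; positivity
  rcases hk.eq_or_lt with rfl | hlt
  · rw [rf_top]; exact self
  · rw [rf_step hlt]
    split_ifs with h
    · exact self
    · exact (not_le.1 fun h' => h ⟨hu, h'⟩).le

/-- The steps of the residual: outside the reset squares nothing changes. -/
theorem Rs_step {k : ℕ} (hk : k < K) {n m : ℤ} (h : rf A c ξ us K k n m ≠ k) {x y : ℤ}
    (hx : x ∈ iv k n) (hy : y ∈ iv k m) : Rs A c ξ us K k x y = Rs A c ξ us K (k + 1) x y := by
  have h1 : ix (k + 1) x = n / 2 := by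
    rw [← ix_ix k 1, mem_iv.1 hx]
    unfold ix; norm_num
  have h2 : ix (k + 1) y = m / 2 := by
    rw [← ix_ix k 1, mem_iv.1 hy]
    unfold ix; norm_num
  rw [Rs_eq hx hy, rf_inherit hk n m h]
  unfold Rs
  rw [h1, h2]

theorem E2_le_rows {k : ℕ} {n m : ℤ} {Λ : ℝ}
    (hA : ∀ x ∈ iv k n, ∑ y ∈ iv k m, A x y ^ 2 ≤ Λ * 2 ^ k) :
    E2 (iv k n) (iv k m) A ≤ Λ * 4 ^ k := by
  unfold E2
  refine (sum_le_card_nsmul _ _ _ hA).trans (le_of_eq ?_)
  rw [card_iv, nsmul_eq_mul]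
  have h4 : (4 : ℝ) ^ k = 2 ^ k * 2 ^ k := by rw [← mul_pow]; norm_num
  rw [h4]
  push_cast
  ring

/-- **The cap of the minimiser.** -/
theorem cap_Um (hc : 0 < c) {k : ℕ} {n m : ℤ} {s : ℝ}
    (hA : E2 (iv k n) (iv k m) A ≤ c * s ^ 4 * 4 ^ k) : Cap k n m s (Um A c k n m) := by
  refine cap_of_T4 ?_
  have h1 := Um_min hc.le A k n m fun _ _ => 0
  rw [fE_zero] at h1
  unfold fE at h1
  have h2 := E2_nonneg (iv k n) (iv k m) fun x y => A x y - Um A c k n m x y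
  have h3 : c * (4 ^ k : ℝ)⁻¹ * T4 (iv k n) (iv k m) (Um A c k n m) ≤ c * s ^ 4 * 4 ^ k := by
    linarith
  have h4 : (16 : ℝ) ^ k = 4 ^ k * 4 ^ k := by rw [← mul_pow]; norm_num
  rw [h4]
  have h5 : (4 : ℝ) ^ k * (c * (4 ^ k : ℝ)⁻¹ * T4 (iv k n) (iv k m) (Um A c k n m)) =
      c * T4 (iv k n) (iv k m) (Um A c k n m) := by
    field_simp
  have h6 := mul_le_mul_of_nonneg_left h3 (by positivity : (0 : ℝ) ≤ 4 ^ k)
  rw [h5] at h6
  have h7 : c * T4 (iv k n) (iv k m) (Um A c k n m) ≤ c * (s ^ 4 * (4 ^ k * 4 ^ k)) := by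
    linarith
  exact le_of_mul_le_mul_left h7 hc

/-- **The cap of the residual.** -/
theorem cap_Rs (hc : 0 < c) (hξ : 0 < ξ) {k : ℕ} (hk : k ≤ K) {n m : ℤ} (hu : us k n m)
    {s : ℝ} (hs : 0 ≤ s)
    (hA : E2 (iv k n) (iv k m) A ≤ c * s ^ 4 * 4 ^ k) :
    Cap k n m (s + √ξ) (Rs A c ξ us K k) := by
  have h1 := cap_Um hc hA
  have h2 : Cap k n m (√ξ) fun x y => Ug A c (rf A c ξ us K k n m) x y - Um A c k n m x y := by
    refine cap_of_E2 ?_
    rw [Real.sq_sqrt hξ.le]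
    refine le_trans (le_of_eq ?_) (close (A := A) (c := c) hξ hk hu)
    unfold E2
    exact sum_congr rfl fun x _ => sum_congr rfl fun y _ => by ring
  refine cap_congr (fun x hx y hy => ?_) (cap_add' hs (Real.sqrt_nonneg ξ) h1 h2)
  rw [Rs_eq hx hy]; ring

/-! ### The packing of the resets -/

open Classical in
/-- the area of the reset squares strictly below `(k; n, m)` when the reference function is `W` -/
def RM (A : ℤ → ℤ → ℝ) (c ξ : ℝ) (us : ℕ → ℤ → ℤ → Prop) (k : ℕ) :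
    ℤ → ℤ → (ℤ → ℤ → ℝ) → ℝ :=
  Nat.rec (fun _ _ _ => 0) (fun i R n m W => ch4 n m fun a b =>
    if Rst A c ξ us i a b W then 4 ^ i + R a b (Um A c i a b) else R a b W) k

theorem RM_zero (n m : ℤ) (W : ℤ → ℤ → ℝ) : RM A c ξ us 0 n m W = 0 := rfl

open Classical in
theorem RM_succ (k : ℕ) (n m : ℤ) (W : ℤ → ℤ → ℝ) :
    RM A c ξ us (k + 1) n m W = ch4 n m fun a b =>
      if Rst A c ξ us k a b W then 4 ^ k + RM A c ξ us k a b (Um A c k a b) else RM A c ξ us k a b W := rfl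

theorem RM_nonneg (k : ℕ) : ∀ (n m : ℤ) (W : ℤ → ℤ → ℝ), 0 ≤ RM A c ξ us k n m W := by
  classical
  induction k with
  | zero => intro n m W; exact le_rfl
  | succ k ih =>
    intro n m W
    rw [RM_succ]
    have h : ∀ a b : ℤ, 0 ≤ (if Rst A c ξ us k a b W then
        4 ^ k + RM A c ξ us k a b (Um A c k a b) else RM A c ξ us k a b W) := by
      intro a b
      split_ifs
      · have := ih a b (Um A c k a b)
        positivity
      · exact ih a b W
    unfold ch4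
    exact add_nonneg (add_nonneg (add_nonneg (h _ _) (h _ _)) (h _ _)) (h _ _)

theorem ch4_congr {n m : ℤ} {f g : ℤ → ℤ → ℝ}
    (h : ∀ a b, a / 2 = n → b / 2 = m → f a b = g a b) : ch4 n m f = ch4 n m g := by
  unfold ch4
  have e1 : ∀ n : ℤ, 2 * n / 2 = n := fun n => by omega
  have e2 : ∀ n : ℤ, (2 * n + 1) / 2 = n := fun n => by omega
  rw [h _ _ (e1 n) (e1 m), h _ _ (e1 n) (e2 m), h _ _ (e2 n) (e1 m), h _ _ (e2 n) (e2 m)]

theorem ch4_mono {n m : ℤ} {f g : ℤ → ℤ → ℝ}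
    (h : ∀ a b, a / 2 = n → b / 2 = m → f a b ≤ g a b) : ch4 n m f ≤ ch4 n m g := by
  unfold ch4
  have e1 : ∀ n : ℤ, 2 * n / 2 = n := fun n => by omega
  have e2 : ∀ n : ℤ, (2 * n + 1) / 2 = n := fun n => by omega
  have h1 := h _ _ (e1 n) (e1 m)
  have h2 := h _ _ (e1 n) (e2 m)
  have h3 := h _ _ (e2 n) (e1 m)
  have h4 := h _ _ (e2 n) (e2 m)
  linarith

theorem iv_sub_child {k : ℕ} {a n x : ℤ} (h : a / 2 = n) (hx : x ∈ iv k a) : x ∈ iv (k + 1) n := by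
  rw [mem_iv] at hx ⊢
  rw [← ix_ix k 1, hx, ← h]
  unfold ix; norm_num

theorem RM_congr (k : ℕ) : ∀ (n m : ℤ) {W W' : ℤ → ℤ → ℝ},
    (∀ x ∈ iv k n, ∀ y ∈ iv k m, W x y = W' x y) → RM A c ξ us k n m W = RM A c ξ us k n m W' := by
  induction k with
  | zero => intro n m W W' _; rfl
  | succ k ih =>
    intro n m W W' h
    rw [RM_succ, RM_succ]
    refine ch4_congr fun a b ha hb => ?_
    have h' : ∀ x ∈ iv k a, ∀ y ∈ iv k b, W x y = W' x y := fun x hx y hy =>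
      h x (iv_sub_child ha hx) y (iv_sub_child hb hy)
    have e := Rst_congr (A := A) (c := c) (ξ := ξ) (us := us) h'
    by_cases hR : Rst A c ξ us k a b W
    · rw [if_pos hR, if_pos (e.1 hR)]
    · rw [if_neg hR, if_neg (fun h => hR (e.2 h)), ih a b h']

/-- the value of the potential at the bottom -/
def M0 (A : ℤ → ℤ → ℝ) (c : ℝ) (k : ℕ) : ℤ → ℤ → ℝ :=
  Nat.rec (fun n m => fE A c 0 n m (Um A c 0 n m)) (fun _ R n m => ch4 n m R) k

theorem M0_le (hc : 0 ≤ c) (k : ℕ) : ∀ n m : ℤ, M0 A c k n m ≤ E2 (iv k n) (iv k m) A := by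
  induction k with
  | zero =>
    intro n m
    rw [← fE_zero A c 0 n m]
    exact Um_min hc A 0 n m _
  | succ k ih =>
    intro n m
    rw [E2_children]
    exact ch4_mono fun a b _ _ => ih a b

open Classical in
/-- Gluing of functions on the four children. -/
def gl (k : ℕ) (V : ℤ → ℤ → ℤ → ℤ → ℝ) (x y : ℤ) : ℝ := V (ix k x) (ix k y) x y

theorem gl_eq {k : ℕ} {V : ℤ → ℤ → ℤ → ℤ → ℝ} {a b x y : ℤ} (hx : x ∈ iv k a) (hy : y ∈ iv k b) :
    gl k V x y = V a b x y := by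
  unfold gl
  rw [mem_iv.1 hx, mem_iv.1 hy]

theorem claim (hc : 0 ≤ c) (k : ℕ) : ∀ (n m : ℤ) (W : ℤ → ℤ → ℝ),
    ∃ (V : ℤ → ℤ → ℝ) (μ : ℝ), μ ≤ RM A c ξ us k n m W ∧
      ξ * μ ≤ E2 (iv k n) (iv k m) (fun x y => V x y - W x y) ∧
      fE A c k n m V + ξ * (RM A c ξ us k n m W - μ) ≤ M0 A c k n m := by
  classical
  induction k with
  | zero =>
    intro n m W
    refine ⟨Um A c 0 n m, 0, le_rfl, ?_, ?_⟩
    · rw [mul_zero]; exact E2_nonneg _ _ _
    · rw [RM_zero]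
      show fE A c 0 n m _ + ξ * (0 - 0) ≤ fE A c 0 n m (Um A c 0 n m)
      simp
  | succ k ih =>
    intro n m W
    -- the four children
    have hch : ∀ a b : ℤ, ∃ (V : ℤ → ℤ → ℝ) (μ : ℝ), μ ≤ (if Rst A c ξ us k a b W then
          4 ^ k + RM A c ξ us k a b (Um A c k a b) else RM A c ξ us k a b W) ∧
        ξ * μ ≤ E2 (iv k a) (iv k b) (fun x y => V x y - W x y) ∧
        fE A c k a b V + ξ * ((if Rst A c ξ us k a b W then
          4 ^ k + RM A c ξ us k a b (Um A c k a b) else RM A c ξ us k a b W) - μ) ≤ M0 A c k a b := by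
      intro a b
      by_cases hR : Rst A c ξ us k a b W
      · rw [if_pos hR]
        have hRM := RM_nonneg (A := A) (c := c) (ξ := ξ) (us := us) k a b (Um A c k a b)
        refine ⟨Um A c k a b, 4 ^ k, by linarith, hR.2, ?_⟩
        obtain ⟨V, μ, h0, h1, h2⟩ := ih a b (Um A c k a b)
        have h3 := strong hc (Um_min hc A k a b) V
        have e : ξ * (4 ^ k + RM A c ξ us k a b (Um A c k a b) - 4 ^ k) =
            ξ * RM A c ξ us k a b (Um A c k a b) := by ring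
        rw [e]
        have e2 : ξ * (RM A c ξ us k a b (Um A c k a b) - μ) =
            ξ * RM A c ξ us k a b (Um A c k a b) - ξ * μ := by ring
        rw [e2] at h2
        linarith
      · obtain ⟨V, μ, h0, h1, h2⟩ := ih a b W
        rw [if_neg hR]
        exact ⟨V, μ, h0, h1, h2⟩
    choose V μ h0 h1 h2 using hch
    refine ⟨gl k V, ch4 n m μ, ?_, ?_, ?_⟩
    · rw [RM_succ]
      exact ch4_mono fun a b _ _ => h0 a b
    · rw [E2_children]
      have e : ξ * ch4 n m μ = ch4 n m fun a b => ξ * μ a b := by unfold ch4; ring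
      rw [e]
      refine ch4_mono fun a b ha hb => ?_
      refine (h1 a b).trans (le_of_eq (E2_congr fun x hx y hy => ?_))
      rw [gl_eq hx hy]
    · have h3 := fE_children hc A k n m (gl k V)
      have h4 : ch4 n m (fun a b => fE A c k a b (gl k V)) = ch4 n m fun a b =>
          fE A c k a b (V a b) :=
        ch4_congr fun a b _ _ => fE_congr fun x hx y hy => gl_eq hx hy
      rw [h4] at h3
      have h5 : ch4 n m (fun a b => fE A c k a b (V a b) + ξ * ((if Rst A c ξ us k a b W then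
          4 ^ k + RM A c ξ us k a b (Um A c k a b) else RM A c ξ us k a b W) - μ a b)) ≤
          M0 A c (k + 1) n m := ch4_mono fun a b _ _ => h2 a b
      rw [RM_succ]
      refine le_trans ?_ h5
      unfold ch4 at h3 ⊢
      linarith

/-- **Packing**, abstract reference. -/
theorem RM_le (hc : 0 ≤ c) (k : ℕ) (n m : ℤ) :
    ξ * RM A c ξ us k n m (Um A c k n m) ≤ E2 (iv k n) (iv k m) A := by
  obtain ⟨V, μ, h0, h1, h2⟩ := claim (A := A) (ξ := ξ) (us := us) hc k n m (Um A c k n m)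
  have h3 := strong hc (Um_min hc A k n m) V
  have h4 := M0_le (A := A) hc k n m
  have h5 := fE_nonneg (A := A) hc k n m (Um A c k n m)
  have e2 : ξ * (RM A c ξ us k n m (Um A c k n m) - μ) =
      ξ * RM A c ξ us k n m (Um A c k n m) - ξ * μ := by ring
  rw [e2] at h2
  linarith

theorem E2_sub_le (I J : Finset ℤ) (V W U : ℤ → ℤ → ℝ) :
    E2 I J (fun x y => V x y - W x y) ≤ 2 * E2 I J (fun x y => V x y - U x y) +
      2 * E2 I J fun x y => U x y - W x y := by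
  unfold E2
  rw [mul_sum, mul_sum, ← sum_add_distrib]
  refine sum_le_sum fun x _ => ?_
  rw [mul_sum, mul_sum, ← sum_add_distrib]
  exact sum_le_sum fun y _ => by nlinarith [sq_nonneg (V x y - 2 * U x y + W x y)]

/-- **Packing on every square**, the reference `W` is close to the minimiser. -/
theorem RM_le_of_close (hc : 0 ≤ c) (hξ : 0 ≤ ξ) (k : ℕ) (n m : ℤ) {W : ℤ → ℤ → ℝ}
    (hW : E2 (iv k n) (iv k m) (fun x y => Um A c k n m x y - W x y) ≤ ξ * 4 ^ k) :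
    ξ * RM A c ξ us k n m W ≤ 2 * E2 (iv k n) (iv k m) A + 2 * ξ * 4 ^ k := by
  obtain ⟨V, μ, h0, h1, h2⟩ := claim (A := A) (ξ := ξ) (us := us) hc k n m W
  have h3 := strong hc (Um_min hc A k n m) V
  have h4 := M0_le (A := A) hc k n m
  have h5 := fE_nonneg (A := A) hc k n m (Um A c k n m)
  have h6 := E2_sub_le (iv k n) (iv k m) V W (Um A c k n m)
  have h7 := mul_le_mul_of_nonneg_left h0 hξ
  have e2 : ξ * (RM A c ξ us k n m W - μ) = ξ * RM A c ξ us k n m W - ξ * μ := by ring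
  rw [e2] at h2
  linarith

/-! ### The area of the reset squares -/

open Classical in
/-- the area of the reset squares strictly below the square `(k; n, m)` -/
def ar (A : ℤ → ℤ → ℝ) (c ξ : ℝ) (us : ℕ → ℤ → ℤ → Prop) (K k : ℕ) : ℤ → ℤ → ℝ :=
  Nat.rec (fun _ _ => 0) (fun i R n m => ch4 n m fun a b =>
    (if rf A c ξ us K i a b = i then 4 ^ i else 0) + R a b) k

open Classical in
theorem ar_succ (k : ℕ) (n m : ℤ) : ar A c ξ us K (k + 1) n m = ch4 n m fun a b =>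
    (if rf A c ξ us K k a b = k then 4 ^ k else 0) + ar A c ξ us K k a b := rfl

theorem ar_nonneg (k : ℕ) : ∀ n m : ℤ, 0 ≤ ar A c ξ us K k n m := by
  classical
  induction k with
  | zero => intro n m; exact le_rfl
  | succ k ih =>
    intro n m
    rw [ar_succ]
    have h : ∀ a b : ℤ, 0 ≤ (if rf A c ξ us K k a b = k then (4 : ℝ) ^ k else 0) +
        ar A c ξ us K k a b := by
      intro a b
      have := ih a b
      split_ifs <;> positivity
    unfold ch4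
    exact add_nonneg (add_nonneg (add_nonneg (h _ _) (h _ _)) (h _ _)) (h _ _)

theorem ar_eq_RM (k : ℕ) (hk : k ≤ K) : ∀ n m : ℤ,
    ar A c ξ us K k n m = RM A c ξ us k n m (Ug A c (rf A c ξ us K k n m)) := by
  classical
  induction k with
  | zero => intro n m; rfl
  | succ k ih =>
    intro n m
    have ih' := ih (by omega)
    rw [ar_succ, RM_succ]
    refine ch4_congr fun a b ha hb => ?_
    have h1 := rf_step (A := A) (c := c) (ξ := ξ) (us := us) (by omega : k < K) a b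
    rw [ha, hb] at h1
    rw [ih' a b]
    by_cases hR : Rst A c ξ us k a b (Ug A c (rf A c ξ us K (k + 1) n m))
    · rw [if_pos hR] at h1
      rw [if_pos hR, if_pos h1, h1]
      congr 1
      exact RM_congr k a b fun x hx y hy => Ug_eq A c hx hy
    · rw [if_neg hR] at h1
      have h2 : rf A c ξ us K k a b ≠ k := by
        rw [h1]
        have := (rf_bounds (A := A) (c := c) (ξ := ξ) (us := us) (by omega : k + 1 ≤ K) n m).1
        omega
      rw [if_neg hR, if_neg h2, h1, zero_add]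

/-- **Packing of the resets.** -/
theorem pack (hc : 0 ≤ c) (n m : ℤ) :
    ξ * ar A c ξ us K K n m ≤ E2 (iv K n) (iv K m) A := by
  rw [ar_eq_RM K le_rfl, rf_top, RM_congr K n m (fun x hx y hy => Ug_eq A c hx hy)]
  exact RM_le hc K n m

/-- **Packing of the resets**, on every square. -/
theorem pack_loc (hc : 0 ≤ c) (hξ : 0 < ξ) {k : ℕ} (hk : k ≤ K) {n m : ℤ} (hu : us k n m) :
    ξ * ar A c ξ us K k n m ≤ 2 * E2 (iv k n) (iv k m) A + 2 * ξ * 4 ^ k := by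
  rw [ar_eq_RM k hk]
  exact RM_le_of_close hc hξ.le k n m (close hξ hk hu)

theorem sum_iv_zero (n : ℤ) (f : ℤ → ℝ) : ∑ x ∈ iv 0 n, f x = f n := by
  have : iv 0 n = {n} := by
    ext x
    rw [mem_iv, ix_zero, mem_singleton]
  rw [this, sum_singleton]

/-- sum over the squares of scale `j` inside a square, through the children -/
theorem sum_desc (j : ℕ) (f : ℤ → ℤ → ℝ) (n m : ℤ) :
    ∑ a ∈ iv (j + 1) n, ∑ b ∈ iv (j + 1) m, f a b =
      ch4 n m fun a' b' => ∑ a ∈ iv j a', ∑ b ∈ iv j b', f a b := by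
  unfold ch4
  rw [iv_split]
  have h : ∀ a, ∑ b ∈ iv (j + 1) m, f a b =
      ∑ b ∈ iv j (2 * m), f a b + ∑ b ∈ iv j (2 * m + 1), f a b := fun a => iv_split j m _
  simp only [h, sum_add_distrib]
  ring

open Classical in
/-- the area as a sum over the reset squares -/
theorem ar_eq_sum (k : ℕ) : ∀ n m : ℤ, ar A c ξ us K k n m =
    ∑ j ∈ range k, 4 ^ j * ∑ a ∈ iv (k - j) n, ∑ b ∈ iv (k - j) m,
      if rf A c ξ us K j a b = j then (1 : ℝ) else 0 := by
  induction k with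
  | zero => intro n m; rfl
  | succ k ih =>
    intro n m
    rw [ar_succ, sum_range_succ]
    have h1 : ∀ j ∈ range k, (4 : ℝ) ^ j * ∑ a ∈ iv (k + 1 - j) n, ∑ b ∈ iv (k + 1 - j) m,
        (if rf A c ξ us K j a b = j then (1 : ℝ) else 0) = ch4 n m fun a' b' =>
          4 ^ j * ∑ a ∈ iv (k - j) a', ∑ b ∈ iv (k - j) b',
            if rf A c ξ us K j a b = j then (1 : ℝ) else 0 := by
      intro j hj
      rw [mem_range] at hj
      have e : k + 1 - j = (k - j) + 1 := by omega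
      rw [e, sum_desc]
      unfold ch4; ring
    rw [sum_congr rfl h1]
    have h2 : (4 : ℝ) ^ k * ∑ a ∈ iv (k + 1 - k) n, ∑ b ∈ iv (k + 1 - k) m,
        (if rf A c ξ us K k a b = k then (1 : ℝ) else 0) = ch4 n m fun a b =>
          if rf A c ξ us K k a b = k then 4 ^ k else 0 := by
      have e : k + 1 - k = 0 + 1 := by omega
      rw [e, sum_desc]
      simp only [sum_iv_zero]
      unfold ch4
      simp only [mul_add, mul_ite, mul_one, mul_zero]
    rw [h2]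
    have h3 : ∑ j ∈ range k, (ch4 n m fun a' b' =>
          4 ^ j * ∑ a ∈ iv (k - j) a', ∑ b ∈ iv (k - j) b',
            if rf A c ξ us K j a b = j then (1 : ℝ) else 0) = ch4 n m fun a' b' =>
          ar A c ξ us K k a' b' := by
      simp only [ih]
      unfold ch4
      simp only [sum_add_distrib]
    rw [h3]
    unfold ch4
    ring

end

end Vale.Agent.P141.H443
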