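import Vale.Agent.P141.H443.Plane3
import Vale.Agent.P141.H958.StarB

/-!
# P141, line W, end lemma (E3): the residual as a path for the star with three terms

`Bp k = Rs k` for `k ≥ 1`, `Bp 0 = 0`, changed squares `Qp`: the reset squares and all the points.
-/

namespace Vale.Agent.P141.H443

open Finset Vale.Agent.P141.PL Vale.Agent.P141.PL.H317
open Vale.Agent.P141.H736 Vale.Agent.P141.H958

noncomputable section

variable {A : ℤ → ℤ → ℝ} {c ξ : ℝ} {us : ℕ → ℤ → ℤ → Prop} {K : ℕ}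

/-- the sum over the squares of all the scales strictly below a square -/
def sumd (f : ℕ → ℤ → ℤ → ℝ) (k : ℕ) (n m : ℤ) : ℝ :=
  ∑ j ∈ range k, ∑ a ∈ iv (k - j) n, ∑ b ∈ iv (k - j) m, f j a b

theorem sumd_zero (f : ℕ → ℤ → ℤ → ℝ) (n m : ℤ) : sumd f 0 n m = 0 := rfl

theorem sumd_succ (f : ℕ → ℤ → ℤ → ℝ) (k : ℕ) (n m : ℤ) :
    sumd f (k + 1) n m = ch4 n m fun a b => f k a b + sumd f k a b := by
  unfold sumd
  rw [sum_range_succ]
  have h1 : ∀ j ∈ range k, ∑ a ∈ iv (k + 1 - j) n, ∑ b ∈ iv (k + 1 - j) m, f j a b =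
      ch4 n m fun a' b' => ∑ a ∈ iv (k - j) a', ∑ b ∈ iv (k - j) b', f j a b := by
    intro j hj
    rw [mem_range] at hj
    have e : k + 1 - j = (k - j) + 1 := by omega
    rw [e, sum_desc]
  rw [sum_congr rfl h1]
  have h2 : ∑ a ∈ iv (k + 1 - k) n, ∑ b ∈ iv (k + 1 - k) m, f k a b =
      ch4 n m fun a b => f k a b := by
    have e : k + 1 - k = 0 + 1 := by omega
    rw [e, sum_desc]
    simp only [sum_iv_zero]
  rw [h2]
  unfold ch4
  simp only [sum_add_distrib]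
  ring

/-- **the residual path** -/
def Bp (A : ℤ → ℤ → ℝ) (c ξ : ℝ) (us : ℕ → ℤ → ℤ → Prop) (K k : ℕ) : ℤ → ℤ → ℝ :=
  if k = 0 then fun _ _ => 0 else Rs A c ξ us K k

/-- the changed squares of the residual path -/
def Qp (A : ℤ → ℤ → ℝ) (c ξ : ℝ) (us : ℕ → ℤ → ℤ → Prop) (K k : ℕ) (n m : ℤ) : Prop :=
  k = 0 ∨ rf A c ξ us K k n m = k

theorem Bp_zero : Bp A c ξ us K 0 = 0 := by
  funext x y
  simp [Bp]

theorem Bp_pos {k : ℕ} (hk : k ≠ 0) : Bp A c ξ us K k = Rs A c ξ us K k := if_neg hk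

theorem path_Bp (R S : ℤ) : Path K R S (Qp A c ξ us K) (Bp A c ξ us K) := by
  intro k hk n _ m _ hq x hx y hy
  have h1 : k ≠ 0 := fun h => hq (Or.inl h)
  have h2 : rf A c ξ us K k n m ≠ k := fun h => hq (Or.inr h)
  rw [Bp_pos h1, Bp_pos (Nat.succ_ne_zero k), Rs_step hk h2 hx hy]

theorem cap_Bp (hc : 0 < c) (hξ : 0 < ξ) {k : ℕ} (hk : k ∈ Icc 1 K) {n m : ℤ} (hu : us k n m)
    {s : ℝ} (hs : 0 ≤ s) (hA : E2 (iv k n) (iv k m) A ≤ c * s ^ 4 * 4 ^ k) :
    Cap k n m (s + √ξ) (Bp A c ξ us K k) := by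
  rw [mem_Icc] at hk
  rw [Bp_pos (by omega)]
  exact cap_Rs hc hξ hk.2 hu hs hA

theorem E2_Um_le (hc : 0 ≤ c) (k : ℕ) (n m : ℤ) :
    E2 (iv k n) (iv k m) (Um A c k n m) ≤ E2 (iv k n) (iv k m) A :=
  sum_le_sum fun _ hx => row_le hc (Um_min hc A k n m) hx

open Classical in
theorem sumd_le (hc : 0 ≤ c) {Λ : ℝ}
    (hA : ∀ k n m, us k n m → E2 (iv k n) (iv k m) A ≤ Λ * 4 ^ k) (k : ℕ) (hk : k ≤ K) :
    ∀ n m : ℤ, sumd (fun j a b => if Qp A c ξ us K j a b then
      E2 (iv j a) (iv j b) (Bp A c ξ us K (j + 1)) else 0) k n m ≤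
      E2 (iv k n) (iv k m) (Rs A c ξ us K k) + Λ * ar A c ξ us K k n m := by
  induction k with
  | zero =>
    intro n m
    rw [sumd_zero]
    have : ar A c ξ us K 0 n m = 0 := rfl
    rw [this, mul_zero, add_zero]
    exact E2_nonneg _ _ _
  | succ k ih =>
    intro n m
    have ih' := ih (by omega)
    have hkK : k < K := by omega
    rw [sumd_succ, ar_succ, E2_children]
    have e : (ch4 n m fun a b => E2 (iv k a) (iv k b) (Rs A c ξ us K (k + 1))) +
        Λ * ch4 n m (fun a b => (if rf A c ξ us K k a b = k then (4 : ℝ) ^ k else 0) +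
          ar A c ξ us K k a b) = ch4 n m fun a b =>
        E2 (iv k a) (iv k b) (Rs A c ξ us K (k + 1)) +
          Λ * ((if rf A c ξ us K k a b = k then (4 : ℝ) ^ k else 0) + ar A c ξ us K k a b) := by
      unfold ch4; ring
    rw [e]
    refine ch4_mono fun a b ha hb => ?_
    have hB : Bp A c ξ us K (k + 1) = Rs A c ξ us K (k + 1) := Bp_pos (Nat.succ_ne_zero k)
    rw [hB]
    by_cases hR : rf A c ξ us K k a b = k
    · have hQ : Qp A c ξ us K k a b := Or.inr hR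
      rw [if_pos hQ, if_pos hR]
      have h1 := ih' a b
      -- the square is used
      have hu : us k a b := by
        have h2 := rf_step (A := A) (c := c) (ξ := ξ) (us := us) hkK a b
        by_contra hnu
        rw [if_neg (fun h => hnu h.1), hR] at h2
        have := (rf_bounds (A := A) (c := c) (ξ := ξ) (us := us)
          (by omega : k + 1 ≤ K) (a / 2) (b / 2)).1
        omega
      have h3 : E2 (iv k a) (iv k b) (Rs A c ξ us K k) ≤ Λ * 4 ^ k := by
        refine le_trans (le_of_eq ?_) ((E2_Um_le hc k a b).trans (hA k a b hu))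
        refine E2_congr fun x hx y hy => ?_
        rw [Rs_eq hx hy, hR, Ug_eq A c hx hy]
      have h4 : Λ * (4 ^ k + ar A c ξ us K k a b) = Λ * 4 ^ k + Λ * ar A c ξ us K k a b := by ring
      rw [h4]
      linarith
    · have h4 : E2 (iv k a) (iv k b) (Rs A c ξ us K (k + 1)) =
          E2 (iv k a) (iv k b) (Rs A c ξ us K k) :=
        E2_congr fun x hx y hy => (Rs_step hkK hR hx hy).symm
      by_cases hk0 : k = 0
      · subst hk0
        have hQ : Qp A c ξ us K 0 a b := Or.inl rfl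
        rw [if_pos hQ, if_neg hR, sumd_zero]
        have : ar A c ξ us K 0 a b = 0 := rfl
        rw [this]
        simp
      · have hQ : ¬ Qp A c ξ us K k a b := fun h => h.elim hk0 hR
        rw [if_neg hQ, if_neg hR, h4, zero_add, zero_add]
        exact ih' a b

theorem sqb_eq_E2 (k : ℕ) (n m : ℤ) (F : ℤ → ℤ → ℝ) : sqb k n m F = E2 (iv k n) (iv k m) F := by
  unfold sqb E2
  exact sum_comm

/-- **The power of the residual path.** -/
theorem pwr_Bp (hc : 0 ≤ c) {Λ : ℝ}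
    (hA : ∀ k n m, us k n m → E2 (iv k n) (iv k m) A ≤ Λ * 4 ^ k) {R S : ℤ} (hu : us K R S) :
    pwr K R S (Qp A c ξ us K) (Bp A c ξ us K) ≤ Λ * 4 ^ K + Λ * ar A c ξ us K K R S := by
  classical
  have h1 := sumd_le (A := A) (c := c) (ξ := ξ) (us := us) hc hA K le_rfl R S
  have h2 : pwr K R S (Qp A c ξ us K) (Bp A c ξ us K) =
      sumd (fun j a b => if Qp A c ξ us K j a b then
      E2 (iv j a) (iv j b) (Bp A c ξ us K (j + 1)) else 0) K R S := by
    unfold pwr sumd sqQ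
    refine sum_congr rfl fun k _ => ?_
    rw [sum_comm]
    refine sum_congr rfl fun a _ => sum_congr rfl fun b _ => ?_
    rw [sqb_eq_E2]
  rw [h2]
  refine h1.trans (add_le_add ?_ le_rfl)
  refine le_trans (le_of_eq ?_) ((E2_Um_le hc K R S).trans (hA K R S hu))
  refine E2_congr fun x hx y hy => ?_
  rw [Rs_eq hx hy, rf_top, Ug_eq A c hx hy]

/-- **The power of the residual path**, with the packing of the resets. -/
theorem pwr_Bp_le (hc : 0 ≤ c) (hξ : 0 < ξ) {Λ : ℝ} (hΛ : 0 ≤ Λ)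
    (hA : ∀ k n m, us k n m → E2 (iv k n) (iv k m) A ≤ Λ * 4 ^ k) {R S : ℤ} (hu : us K R S) :
    pwr K R S (Qp A c ξ us K) (Bp A c ξ us K) ≤ Λ * (1 + Λ / ξ) * 4 ^ K := by
  have h1 := pwr_Bp (A := A) (c := c) (ξ := ξ) hc hA hu
  have h2 := pack (A := A) (c := c) (ξ := ξ) (us := us) (K := K) hc R S
  have h3 := h2.trans (hA K R S hu)
  have h4 : ar A c ξ us K K R S ≤ Λ / ξ * 4 ^ K := by
    rw [div_mul_eq_mul_div, le_div_iff₀ hξ]
    linarith
  have h5 := mul_le_mul_of_nonneg_left h4 hΛ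
  have e : Λ * (1 + Λ / ξ) * 4 ^ K = Λ * 4 ^ K + Λ * (Λ / ξ * 4 ^ K) := by ring
  rw [e]
  linarith

end

end Vale.Agent.P141.H443
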